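import Crest.Agent.X212.Nd18.Term

/-!
# Row 212, NDEF (helper18): critical data, broken trajectories, gradings, potentials, small leaves
-/

set_option autoImplicit false
set_option linter.unusedSectionVars false
noncomputable section
open scoped Manifold ContDiff Topology InnerProductSpace
open MeasureTheory Set Function Filter

namespace Crest.Agent.X212.Nd18
open An Cyf70 Dgr80

variable {E3 : Type} [NormedAddCommGroup E3] [NormedSpace ℝ E3] [FiniteDimensional ℝ E3]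
  [MeasurableSpace E3] [BorelSpace E3]
  {H3 : Type} [TopologicalSpace H3] {I3 : ModelWithCorners ℝ E3 H3} [I3.Boundaryless]
  {Y : Type} [TopologicalSpace Y] [ChartedSpace H3 Y] [IsManifold I3 ∞ Y] [T2Space Y]
  [MeasurableSpace Y] [BorelSpace Y] [SecondCountableTopology Y] [CompactSpace Y]
  {κ : Type} [Fintype κ] {lam : Type} [Fintype lam]

/-! ### types of `t`-invariant configurations -/

namespace YD
variable (D : YD I3 Y κ lam)

/-- fixed by the circle -/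
def Fx (β : YC Y κ lam) : Prop := Fix D.Z (cy β) univ

/-- type I (or A): the spinor vanishes -/
def Zr (_ : YD I3 Y κ lam) (β : YC Y κ lam) : Prop := ∀ y, β.Φ y = 0

/-- a parallel line in `g` -/
def Ln (β : YC Y κ lam) : Prop := Lin D.Z (cy β) univ

/-- the topological input on `(Y, Λ)`: connections with a parallel line in `g` are far from flat -/
def NoRed : Prop := ∃ c₀ > 0, ∀ β : YC Y κ lam, D.Adm β → D.Ln β →
  c₀ ≤ ∫ y, ‖(cy β).m.Fg D.Z (cy β).W (y, 0)‖ ^ 2 ∂D.F.μ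

end YD

/-! ### broken trajectories -/

namespace ND
variable (N : ND Y lam) (D : YD I3 Y κ lam)

/-- a chain of `j` moving trajectories and bubbles from `(β, ζ)` to `(β', ζ')` of total level `k` -/
inductive Brk (q : YW I3 Y →₀ ℝ) :
    YC Y κ lam → Circle → YC Y κ lam → Circle → ℝ → ℕ → Prop
  | nil (β ζ) : Brk q β ζ β ζ 0 0
  | bub {β ζ β' ζ' k j} : Brk q β ζ β' ζ' k j → Brk q β ζ β' ζ' (k + 1) (j + 1)
  | mov {β ζ β' ζ' β'' ζ'' k j} (c) : N.Traj D q c β β' ζ ζ' → D.Moves c → N.Crit D β' →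
      Brk q β' ζ' β'' ζ'' k j → Brk q β ζ β'' ζ'' (c.kap D.B D.G + k) (j + 1)

/-- finitely many nondegenerate critical points -/
structure CD : Type 1 where
  C : Type
  [fin : Fintype C]
  [dec : DecidableEq C]
  β : C → YC Y κ lam
  crit : ∀ i, N.Crit D (β i)
  nd : ∀ i, N.Nondeg D (β i)
  cov : ∀ γ, N.Crit D γ → ∃ i, D.Eqv γ (β i)
  sep : ∀ i j, D.Eqv (β i) (β j) → i = j
  irr : ∀ i, D.Zr (β i) → ¬D.Ln (β i)

attribute [instance] CD.fin CD.dec

end ND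

/-! ### gradings and potentials -/

/-- gradings of critical points: level `k`, index `g`, anti-self-dual index `d` of one lift -/
structure Gr (C : Type) where
  k : C → ℝ
  g : C → ℤ
  d : C → ℤ

namespace Gr
variable {C : Type} (Γ : Gr C) (fx : C → Prop)

/-- the end term of the index -/
def η (i : C) : ℝ := Γ.g i - 6 * Γ.k i

/-- the end term of the anti-self-dual index -/
def ηA (i : C) : ℝ := Γ.d i - 8 * Γ.k i

open Classical in
/-- lower bound for `G` (`G ≡ g + 1`) -/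
def h (i : C) : ℤ := if Even (Γ.g i) then 1 else if fx i then 2 else 0

/-- lower bound for `G` after a nonempty chain -/
def hp (i : C) : ℤ := if Even (Γ.g i) then 1 else 2

open Classical in
/-- lower bound for `H` -/
def gg (i : C) : ℤ := if Even (Γ.g i) then 1 else if fx i then 0 else 1

/-- the counted critical points -/
def Cnt (i : C) : Prop := ¬fx i ∧ ¬Even (Γ.g i)

theorem h_le_hp (i : C) : Γ.h fx i ≤ Γ.hp i := by
  unfold h hp; split_ifs <;> omega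

theorem two_le_hp (i : C) : 2 ≤ Γ.hp i + Γ.gg fx i := by
  unfold gg hp; split_ifs <;> omega

theorem hp_le (i : C) : Γ.hp i ≤ 2 := by unfold hp; split_ifs <;> omega

theorem h_nonneg (i : C) : 0 ≤ Γ.h fx i := by unfold h; split_ifs <;> omega

theorem cnt_of {i : C} {G H : ℤ} (hG : Γ.h fx i ≤ G) (hH : Γ.gg fx i ≤ H) (e : G + H ≤ 1) :
    Γ.Cnt fx i ∧ G = 0 ∧ H = 1 := by
  unfold h at hG; unfold gg at hH; unfold Cnt
  split_ifs at hG hH with h1 h2
  · omega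
  · omega
  · exact ⟨⟨h2, h1⟩, by omega, by omega⟩

/-- `G ≥ 0`, and `G ≥ 1` at fixed points, is enough -/
theorem h_le {i : C} {G : ℤ} (hp : Even (G + 1 - Γ.g i)) (h0 : 0 ≤ G) (h1 : fx i → 1 ≤ G) :
    Γ.h fx i ≤ G := by
  unfold h
  rw [Int.even_iff] at hp
  split_ifs with e f
  · rw [Int.even_iff] at e; omega
  · have := h1 f; rw [Int.even_iff] at e; omega
  · exact h0

theorem gg_le {i : C} {H : ℤ} (h1 : 1 ≤ H) : Γ.gg fx i ≤ H := by
  unfold gg; split_ifs <;> omega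

/-- between fixed points it suffices that `⌊g / 2⌋` does not drop -/
theorem good_fix {i j : C} {n : ℤ} (hi : fx i) (e : Γ.g i / 2 ≤ Γ.g j / 2 + 3 * n) :
    Γ.hp j - Γ.h fx i ≤ Γ.g j - Γ.g i + 6 * n := by
  unfold hp h
  simp only [Int.even_iff]
  split_ifs <;> omega

/-- bad trajectories have index `≤ 0` -/
theorem bad_le {i j : C} {n : ℤ} (e : ¬Γ.hp j - Γ.h fx i ≤ Γ.g j - Γ.g i + 6 * n) :
    Γ.g j - Γ.g i + 6 * n ≤ 0 := by
  unfold hp h at e
  simp only [Int.even_iff] at e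
  split_ifs at e <;> omega

/-- the window at type I -/
theorem window {i : C} {c : ℤ} (e : Γ.g i / 2 = 3 * Γ.d i / 8 + c) :
    2 * c - 7 / 4 ≤ Γ.η i - 3 / 4 * Γ.ηA i ∧ Γ.η i - 3 / 4 * Γ.ηA i ≤ 2 * c + 1 := by
  have h1 : 8 * c - 7 ≤ 4 * Γ.g i - 3 * Γ.d i := by omega
  have h2 : 4 * Γ.g i - 3 * Γ.d i ≤ 8 * c + 4 := by omega
  have h3 : (8 * c - 7 : ℝ) ≤ 4 * Γ.g i - 3 * Γ.d i := by exact_mod_cast h1
  have h4 : (4 * Γ.g i - 3 * Γ.d i : ℝ) ≤ 8 * c + 4 := by exact_mod_cast h2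
  unfold η ηA
  constructor <;> linarith

end Gr

namespace ND.CD
variable {N : ND Y lam} {D : YD I3 Y κ lam} (S : N.CD D) (Γ : Gr S.C)

/-- fixed critical points -/
def fx (i : S.C) : Prop := D.Fx (S.β i)

/-- the energy level of the chosen lift -/
def en (i : S.C) : ℝ := Γ.k i - N.lv D (S.β i) / (8 * Real.pi ^ 2)

/-- the mass rule at type I -/
def RuleI (c : ℤ) : Prop := ∀ i, D.Zr (S.β i) → Γ.g i / 2 = 3 * Γ.d i / 8 + c

/-- the mass rule at type S -/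
def RuleS : Prop := ∀ i, S.fx i → ¬D.Zr (S.β i) → Γ.g i / 2 = ⌊3 * S.en Γ i⌋

/-- levels of trajectories -/
def Lev (q : YW I3 Y →₀ ℝ) : Prop := ∀ i j c ζ ζ', N.Traj D q c (S.β i) (S.β j) ζ ζ' →
  ∃ n : ℤ, c.kap D.B D.G = Γ.k j - Γ.k i + n

/-- OUTPUT of MS: all moving trajectories are good -/
def Good (q : YW I3 Y →₀ ℝ) : Prop := ∀ i j c ζ ζ', N.Traj D q c (S.β i) (S.β j) ζ ζ' →
  D.Moves c → ∀ n : ℤ, c.kap D.B D.G = Γ.k j - Γ.k i + n →
    Γ.hp j - Γ.h S.fx i ≤ Γ.g j - Γ.g i + 6 * n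

/-- chains through the chosen representatives -/
inductive Chn (q : YW I3 Y →₀ ℝ) : S.C → Circle → S.C → Circle → ℝ → ℕ → Prop
  | nil (i ζ) : Chn q i ζ i ζ 0 0
  | bub {i ζ i' ζ' k j} : Chn q i ζ i' ζ' k j → Chn q i ζ i' ζ' (k + 1) (j + 1)
  | mov {i ζ i' ζ' i'' ζ'' k j} (c) : N.Traj D q c (S.β i) (S.β i') ζ ζ' → D.Moves c →
      Chn q i' ζ' i'' ζ'' k j → Chn q i ζ i'' ζ'' (c.kap D.B D.G + k) (j + 1)

variable {S Γ} {q : YW I3 Y →₀ ℝ}

theorem Chn.brk {i ζ i' ζ' k j} (h : S.Chn q i ζ i' ζ' k j) :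
    N.Brk D q (S.β i) ζ (S.β i') ζ' k j := by
  induction h with
  | nil i ζ => exact .nil _ _
  | bub _ ih => exact .bub ih
  | mov c h1 h2 _ ih => exact .mov c h1 h2 (S.crit _) ih

theorem Chn.zero {i ζ i' ζ' k} (h : S.Chn q i ζ i' ζ' k 0) : i = i' ∧ ζ = ζ' ∧ k = 0 := by
  generalize e : 0 = j at h
  cases h with
  | nil => exact ⟨rfl, rfl, rfl⟩
  | bub => omega
  | mov => omega

/-- **Chains are good.** -/
theorem Chn.good (hl : S.Lev Γ q) (hg : S.Good Γ q) {i ζ i' ζ' k j} (h : S.Chn q i ζ i' ζ' k j) :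
    ∃ n : ℤ, k = Γ.k i' - Γ.k i + n ∧ Γ.h S.fx i' - Γ.h S.fx i ≤ Γ.g i' - Γ.g i + 6 * n ∧
      (j ≠ 0 → Γ.hp i' - Γ.h S.fx i ≤ Γ.g i' - Γ.g i + 6 * n) := by
  induction h with
  | nil i ζ => exact ⟨0, by simp, by simp, fun h => (h rfl).elim⟩
  | @bub i ζ i' ζ' k j _ ih =>
    obtain ⟨n, h1, h2, -⟩ := ih
    have := Γ.hp_le i'
    have := Γ.h_nonneg S.fx i'
    exact ⟨n + 1, by rw [h1]; push_cast; ring, by omega, fun _ => by omega⟩
  | @mov i ζ i' ζ' i'' ζ'' k j c h1 h2 h3 ih =>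
    obtain ⟨n, h4, h5, h6⟩ := ih
    obtain ⟨n', h7⟩ := hl i i' c ζ ζ' h1
    have h8 := hg i i' c ζ ζ' h1 h2 n' h7
    have a1 := Γ.h_le_hp S.fx i'
    have a2 := Γ.h_le_hp S.fx i''
    have key : Γ.hp i'' - Γ.h S.fx i ≤ Γ.g i'' - Γ.g i + 6 * (n' + n) := by
      by_cases hj : j = 0
      · subst hj
        obtain ⟨rfl, -, rfl⟩ := h3.zero
        obtain rfl : n = 0 := by
          have : (n : ℝ) = 0 := by linarith
          exact_mod_cast this
        omega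
      · have := h6 hj
        omega
    exact ⟨n' + n, by rw [h4, h7]; push_cast; ring, by omega, fun _ => key⟩

/-- **The chain lemma.** -/
theorem Chn.face (hl : S.Lev Γ q) (hg : S.Good Γ q) {i ζ i' ζ' k j} (h : S.Chn q i ζ i' ζ' k j)
    {G H : ℤ} (hG : Γ.h S.fx i ≤ G) (hH : Γ.gg S.fx i' ≤ H)
    (e : G + (6 * k + Γ.η i' - Γ.η i) + H ≤ 1) :
    j = 0 ∧ i = i' ∧ ζ = ζ' ∧ k = 0 ∧ Γ.Cnt S.fx i ∧ G = 0 ∧ H = 1 := by
  obtain ⟨n, h1, -, h2⟩ := h.good hl hg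
  have e' : G + (Γ.g i' - Γ.g i + 6 * n) + H ≤ 1 := by
    have : (6 * k + Γ.η i' - Γ.η i : ℝ) = (Γ.g i' - Γ.g i + 6 * n : ℤ) := by
      rw [h1, Gr.η, Gr.η]; push_cast; ring
    rw [this] at e; exact_mod_cast e
  have hj : j = 0 := by
    by_contra hj
    have := h2 hj
    have := Γ.two_le_hp S.fx i'
    omega
  subst hj
  obtain ⟨rfl, rfl, rfl⟩ := h.zero
  have : n = 0 := by
    have : (n : ℝ) = 0 := by linarith
    exact_mod_cast this
  exact ⟨rfl, rfl, rfl, rfl, Γ.cnt_of S.fx hG hH (by omega)⟩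

end ND.CD

/-! ### small leaves -/

section leaves
variable (D : YD I3 Y κ lam)

/-- ONE: any two modules on the cross-section are isomorphic -/
def OneStmt : Prop := D.OK → Module.finrank ℝ E3 = 3 → ∀ m m' : Md Y (Option κ) lam,
  (pbM Prod.fst m).OK (IC I3) D.B → (pbM Prod.fst m').OK (IC I3) D.B →
  ∃ u : Y → CL m.V m'.V, MEq (IC I3) (pbM Prod.fst m) (pbM Prod.fst m') univ id
    (fun x b a => D.B.P b a x) D.B.l fun x : Y × ℝ => u x.1

/-- STAB: the stabiliser of a free point -/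
def StabStmt : Prop := D.OK → ConnectedSpace Y → ∀ β : YC Y κ lam, D.Adm β → ¬D.Fx β →
  ∀ (a b : ℝ) (u : Y × ℝ → CL β.m.V β.m.V) (ζ : Circle), a < b →
    CEq D.Z (cy β) (cy β) (univ ×ˢ Ioo a b) id (fun x b a => D.B.P b a x) D.B.l u ζ →
    ∃ ε : ℝ, (ζ : ℂ) = ε ∧ ∀ x ∈ univ ×ˢ Ioo a b, u x = ε • β.m.p x.1

/-- EXTH: a configuration can be made standard near an end without changing it elsewhere -/
def ExtStmt : Prop := D.OK → Module.finrank ℝ E3 = 3 → ∀ (E : Type) [NormedAddCommGroup E] [NormedSpace ℝ E]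
  [FiniteDimensional ℝ E] [MeasurableSpace E] [BorelSpace E] (HM : Type) [TopologicalSpace HM]
  (I : ModelWithCorners ℝ E HM) [I.Boundaryless] (M : Type) [TopologicalSpace M] [ChartedSpace HM M]
  [IsManifold I ∞ M] [MeasurableSpace M] [T2Space M] [BorelSpace M] [SecondCountableTopology M]
  (B : Base M (Option κ) lam) (G : Geo I M (Option κ) lam) (K : Nk D B G), B.OK I → G.OK B →
  ∀ (r : ℕ) (c : Cfg M (Option κ) lam r) (β : YC Y κ lam) (ζ : Circle) (s : ℝ), c.Adm B G →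
    D.Adm β → s ∈ K.J →
    (K.q = none → ∃ W Φ, (⟨c.m, W, Φ, c.z⟩ : Cfg M _ lam r).Adm B G ∧
      K.Std ⟨c.m, W, Φ, c.z⟩ β ζ atTop ∧
      ∀ x ∉ K.tm ⁻¹' Ioi s, (∀ a, W a x = c.W a x) ∧ Φ x = c.Φ x) ∧
    (K.p = none → ∃ W Φ, (⟨c.m, W, Φ, c.z⟩ : Cfg M _ lam r).Adm B G ∧
      K.Std ⟨c.m, W, Φ, c.z⟩ β ζ atBot ∧
      ∀ x ∉ K.tm ⁻¹' Iio s, (∀ a, W a x = c.W a x) ∧ Φ x = c.Φ x)

end leaves

end Crest.Agent.X212.Nd18
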