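import Crest.Agent.X212.Nd18.Props
import Crest.Agent.X212.Cht98.Cov
import Crest.Agent.X212.Pj41.Cm

/-!
# Row 212, NDEF (helper18): the functions of a neck are smooth with bounds independent of the neck
-/

set_option autoImplicit false
set_option linter.unusedSectionVars false
noncomputable section
open scoped Manifold ContDiff Topology InnerProductSpace
open MeasureTheory Set Function Filter

namespace Crest.Agent.X212.Nd18
open An Cyf70 Dgr80 Sob92
open Cyc79 (Cy)

/-! ### functions of time -/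

/-- smooth with the bounds `C` -/
def BD (h : ℝ → ℝ) (C : ℕ → ℝ) : Prop :=
  ContDiff ℝ ∞ h ∧ ∀ k, ∀ i ≤ k, ∀ t, ‖iteratedDeriv i h t‖ ≤ C k

namespace BD
variable {f g : ℝ → ℝ} {A C : ℕ → ℝ}

theorem mono (h : BD f A) (e : ∀ k, A k ≤ C k) : BD f C :=
  ⟨h.1, fun k i hi t => (h.2 k i hi t).trans (e k)⟩

theorem nonneg (h : BD f A) (k : ℕ) : 0 ≤ A k := (norm_nonneg _).trans (h.2 k 0 k.zero_le 0)

theorem const (c : ℝ) : BD (fun _ => c) fun _ => |c| := ⟨contDiff_const, fun k i _ t => by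
  rw [iteratedDeriv_const]; split_ifs <;> simp⟩

theorem shift (h : BD f A) (s : ℝ) : BD (fun t => f (t + s)) A :=
  ⟨h.1.comp (contDiff_id.add contDiff_const), fun k i hi t => by
    rw [iteratedDeriv_comp_add_const]; exact h.2 k i hi _⟩

theorem neg (h : BD f A) : BD (fun t => f (-t)) A :=
  ⟨h.1.comp contDiff_neg, fun k i hi t => by
    rw [iteratedDeriv_comp_neg, norm_smul]; simpa using h.2 k i hi (-t)⟩

theorem refl (h : BD f A) (s : ℝ) : BD (fun t => f (s - t)) A := by
  simpa [sub_eq_neg_add] using (h.shift s).neg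

theorem add (h : BD f A) (h' : BD g C) : BD (fun t => f t + g t) fun k => A k + C k :=
  ⟨h.1.add h'.1, fun k i hi t => by
    have e : ∀ {f : ℝ → ℝ}, ContDiff ℝ ∞ f → ContDiffAt ℝ i f t := fun h =>
      (h.of_le (by exact_mod_cast le_top)).contDiffAt
    rw [show (fun t => f t + g t) = f + g from rfl, iteratedDeriv_add (e h.1) (e h'.1)]
    exact (norm_add_le _ _).trans (add_le_add (h.2 k i hi t) (h'.2 k i hi t))⟩

theorem mul (h : BD f A) (h' : BD g C) : BD (fun t => f t * g t) fun k => 2 ^ k * (A k * C k) :=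
  ⟨h.1.mul h'.1, fun k i hi t => by
    rw [← norm_iteratedFDeriv_eq_norm_iteratedDeriv]
    refine (norm_iteratedFDeriv_mul_le h.1 h'.1 t (by exact_mod_cast le_top)).trans ?_
    have h0 := mul_nonneg (h.nonneg k) (h'.nonneg k)
    calc _ ≤ ∑ j ∈ Finset.range (i + 1), (i.choose j : ℝ) * (A k * C k) := by
          refine Finset.sum_le_sum fun j hj => ?_
          rw [mul_assoc, norm_iteratedFDeriv_eq_norm_iteratedDeriv,
            norm_iteratedFDeriv_eq_norm_iteratedDeriv]
          have := Finset.mem_range.1 hj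
          exact mul_le_mul_of_nonneg_left (mul_le_mul (h.2 k j (by omega) t)
            (h'.2 k _ (by omega) t) (norm_nonneg _) (h.nonneg k)) (Nat.cast_nonneg _)
      _ = 2 ^ i * (A k * C k) := by
          rw [← Finset.sum_mul, ← Nat.cast_sum, Nat.sum_range_choose]; push_cast; rfl
      _ ≤ _ := mul_le_mul_of_nonneg_right (pow_le_pow_right₀ one_le_two hi) h0⟩

theorem deriv (h : BD f A) : BD (deriv f) fun k => A (k + 1) :=
  ⟨(contDiff_infty_iff_deriv.1 h.1).2, fun k i hi t => by
    rw [← iteratedDeriv_succ']; exact h.2 _ _ (by omega) t⟩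

end BD

theorem bd_st : ∃ C, BD Real.smoothTransition C :=
  let ⟨C, hC⟩ := Cht98.deriv_bounds Real.smoothTransition.contDiff Cht98.hcs_deriv_st (B := 1)
    fun t => by
      rw [Real.norm_eq_abs, abs_of_nonneg (Real.smoothTransition.nonneg t)]
      exact Real.smoothTransition.le_one t
  ⟨C, Real.smoothTransition.contDiff, hC⟩

/-- depth `≥ d` -/
def Dp (p q : Option ℝ) (d : ℝ) : Set ℝ := {s | (∀ a ∈ p, a + d ≤ s) ∧ ∀ b ∈ q, s ≤ b - d}

section time
variable {p q : Option ℝ} {d d' s : ℝ}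

theorem isClosed_Dp : IsClosed (Dp p q d) := by
  simp only [Dp, setOf_and, setOf_forall]
  exact (isClosed_iInter fun _ => isClosed_iInter fun _ => isClosed_Ici).inter
    (isClosed_iInter fun _ => isClosed_iInter fun _ => isClosed_Iic)

theorem isOpen_Jv : IsOpen (Jv p q) := by
  cases p <;> cases q <;> simp only [Jv, Option.mem_def, reduceCtorEq, false_imp_iff, implies_true,
    true_and, and_true, Option.some.injEq, forall_eq', setOf_true, setOf_and]
  exacts [isOpen_univ, isOpen_Iio, isOpen_Ioi, isOpen_Ioi.inter isOpen_Iio]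

theorem Dp_sub (hd : 0 < d) : Dp p q d ⊆ Jv p q := fun _ h =>
  ⟨fun a ha => by linarith [h.1 a ha], fun b hb => by linarith [h.2 b hb]⟩

theorem Dp_mono (h : d ≤ d') : Dp p q d' ⊆ Dp p q d := fun _ k =>
  ⟨fun a ha => by linarith [k.1 a ha], fun b hb => by linarith [k.2 b hb]⟩

theorem Dp_mem_nhds (h : d < d') (hs : s ∈ Dp p q d') : Dp p q d ∈ 𝓝 s := by
  filter_upwards [Ioo_mem_nhds (show s - (d' - d) < s by linarith)
    (show s < s + (d' - d) by linarith)] with t ht
  exact ⟨fun a ha => by linarith [hs.1 a ha, ht.1], fun b hb => by linarith [hs.2 b hb, ht.2]⟩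

theorem not_Dp (h : s ∉ Dp p q d) : (∃ a, p = some a ∧ s < a + d) ∨ ∃ b, q = some b ∧ b - d < s := by
  by_contra e
  push Not at e
  exact h ⟨e.1, e.2⟩

theorem bd_ct : ∃ C, ∀ p q d, BD (ct p q d) C := by
  obtain ⟨C, hC⟩ := bd_st
  have h1 : ∀ (p : Option ℝ) (d : ℝ), BD (fun s => p.elim 1 fun a =>
      Real.smoothTransition (s - a - d)) fun k => C k + 1 := fun p d => by
    cases p with
    | none => exact (BD.const 1).mono fun k => by simpa using hC.nonneg k
    | some a => simpa [sub_eq_add_neg, add_assoc] using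
        (hC.shift (-a + -d)).mono fun k => le_add_of_nonneg_right zero_le_one
  have h2 : ∀ (q : Option ℝ) (d : ℝ), BD (fun s => q.elim 1 fun b =>
      Real.smoothTransition (b - s - d)) fun k => C k + 1 := fun q d => by
    cases q with
    | none => exact (BD.const 1).mono fun k => by simpa using hC.nonneg k
    | some b => simpa [sub_right_comm b] using
        (hC.refl (b - d)).mono fun k => le_add_of_nonneg_right zero_le_one
  exact ⟨_, fun p q d => (h1 p d).mul (h2 q d)⟩

theorem contDiff_ct : ContDiff ℝ ∞ (ct p q d) := (bd_ct.choose_spec p q d).1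

theorem ct_zero (h : s ∉ Dp p q d) : ct p q d s = 0 := by
  rcases not_Dp h with ⟨a, rfl, h⟩ | ⟨b, rfl, h⟩
  · rw [ct, Option.elim_some, Real.smoothTransition.zero_of_nonpos (by linarith), zero_mul]
  · rw [ct, Option.elim_some, Real.smoothTransition.zero_of_nonpos (by linarith), mul_zero]

theorem ct_one (h : s ∈ Dp p q (d + 1)) : ct p q d s = 1 := by
  have h1 : (p.elim 1 fun a => Real.smoothTransition (s - a - d)) = 1 := by
    cases p with
    | none => rfl
    | some a => exact Real.smoothTransition.one_of_one_le (by linarith [h.1 a rfl])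
  have h2 : (q.elim 1 fun b => Real.smoothTransition (b - s - d)) = 1 := by
    cases q with
    | none => rfl
    | some b => exact Real.smoothTransition.one_of_one_le (by linarith [h.2 b rfl])
  rw [ct, h1, h2, one_mul]

theorem ct_mem : ct p q d s ∈ Icc (0 : ℝ) 1 := by
  have h : ∀ (p : Option ℝ) (f : ℝ → ℝ),
      (p.elim 1 fun a => Real.smoothTransition (f a)) ∈ Icc (0 : ℝ) 1 := fun p f => by
    cases p with
    | none => exact ⟨zero_le_one, le_rfl⟩
    | some a => exact ⟨Real.smoothTransition.nonneg _, Real.smoothTransition.le_one _⟩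
  exact ⟨mul_nonneg (h _ _).1 (h _ _).1, mul_le_one₀ (h _ _).2 (h _ _).1 (h _ _).2⟩

theorem ct_none : ct none none d s = 1 := by simp [ct]

theorem tsupport_ct : tsupport (ct p q d) ⊆ Dp p q d :=
  closure_minimal (fun _ h => by_contra fun e => h (ct_zero e)) isClosed_Dp

theorem contDiff_fl : ContDiff ℝ ∞ fl :=
  contDiff_id.mul (contDiff_const.sub (Real.smoothTransition.contDiff.comp (by fun_prop)))

theorem fl_le (h : s ≤ 1 / 2) : fl s = s := by
  rw [fl, Real.smoothTransition.zero_of_nonpos (by linarith), sub_zero, mul_one]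

theorem fl_ge (h : 1 ≤ s) : fl s = 0 := by
  rw [fl, Real.smoothTransition.one_of_one_le (by linarith), sub_self, mul_zero]

theorem bd_dfl : ∃ C, BD (deriv fl) C := by
  have h1 : ContDiff ℝ ∞ (deriv fl) := (contDiff_infty_iff_deriv.1 contDiff_fl).2
  have lo : ∀ t < 1 / 2, deriv fl t = 1 := fun t ht => by
    rw [show deriv fl t = deriv id t from EventuallyEq.deriv_eq
      ((eventually_lt_nhds ht).mono fun _ h => fl_le h.le), deriv_id]
  have hi : ∀ t > 1, deriv fl t = 0 := fun t ht => by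
    rw [show deriv fl t = deriv (fun _ => (0 : ℝ)) t from EventuallyEq.deriv_eq
      ((eventually_gt_nhds ht).mono fun _ h => fl_ge h.le), deriv_const]
  have h2 : HasCompactSupport (deriv (deriv fl)) := by
    refine HasCompactSupport.intro (isCompact_Icc (a := (1 / 2 : ℝ)) (b := 1)) fun t ht => ?_
    rcases not_and_or.1 ht with h | h
    · rw [show deriv (deriv fl) t = deriv (fun _ => (1 : ℝ)) t from EventuallyEq.deriv_eq
        ((eventually_lt_nhds (not_le.1 h)).mono lo), deriv_const]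
    · rw [show deriv (deriv fl) t = deriv (fun _ => (0 : ℝ)) t from EventuallyEq.deriv_eq
        ((eventually_gt_nhds (not_le.1 h)).mono hi), deriv_const]
  obtain ⟨B, hB⟩ := (isCompact_Icc (a := (1 / 2 : ℝ)) (b := 1)).exists_bound_of_continuousOn
    h1.continuous.continuousOn
  obtain ⟨C, hC⟩ := Cht98.deriv_bounds h1 h2 (B := |B| + 1) fun t => by
    have := abs_nonneg B
    rcases lt_or_ge t (1 / 2) with h | h
    · rw [lo t h, norm_one]; linarith
    · rcases lt_or_ge 1 t with h' | h'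
      · rw [hi t h', norm_zero]; linarith
      · linarith [hB t ⟨h, h'⟩, le_abs_self B]
  exact ⟨C, h1, hC⟩

theorem contDiff_tf : ContDiff ℝ ∞ (tf p q) := by
  have := contDiff_fl
  cases p <;> cases q <;> simp only [show ∀ p q, tf p q = fun s => tf p q s from fun _ _ => rfl, tf,
    Option.elim_none, Option.elim_some] <;> fun_prop

theorem deriv_tf (s : ℝ) : deriv (tf p q) s =
    1 + (-1) * (p.elim 0 fun a => deriv fl (s + -a)) + (-1) * q.elim 0 fun b => deriv fl (b - s) := by
  have h : ∀ x, HasDerivAt fl (deriv fl x) x := fun x =>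
    (contDiff_fl.differentiable (by simp) x).hasDerivAt
  have h1 : HasDerivAt (fun s => p.elim 0 fun a => fl (s - a))
      (p.elim 0 fun a => deriv fl (s + -a)) s := by
    cases p with
    | none => exact hasDerivAt_const _ _
    | some a => exact (h _).comp_sub_const s a
  have h2 : HasDerivAt (fun s => q.elim 0 fun b => fl (b - s))
      (-q.elim 0 fun b => deriv fl (b - s)) s := by
    cases q with
    | none => simpa using hasDerivAt_const s (0 : ℝ)
    | some b => exact (h _).comp_const_sub b s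
  refine (((hasDerivAt_id s).sub h1).add h2).deriv.trans ?_
  ring

theorem bd_dtf : ∃ C, ∀ p q, BD (deriv (tf p q)) C := by
  obtain ⟨C, hC⟩ := bd_dfl
  have h1 : ∀ p : Option ℝ, BD (fun s => p.elim 0 fun a => deriv fl (s + -a)) C := fun p => by
    cases p with
    | none => exact (BD.const 0).mono fun k => by simpa using hC.nonneg k
    | some a => exact hC.shift _
  have h2 : ∀ q : Option ℝ, BD (fun s => q.elim 0 fun b => deriv fl (b - s)) C := fun q => by
    cases q with
    | none => exact (BD.const 0).mono fun k => by simpa using hC.nonneg k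
    | some b => exact hC.refl _
  exact ⟨_, fun p q => funext (deriv_tf (p := p) (q := q)) ▸
    ((BD.const 1).add ((BD.const (-1)).mul (h1 p))).add ((BD.const (-1)).mul (h2 q))⟩

theorem tf_eq (h : s ∈ Dp p q 1) : tf p q s = s := by
  have h1 : (p.elim 0 fun a => fl (s - a)) = 0 := by
    cases p with
    | none => rfl
    | some a => exact fl_ge (by linarith [h.1 a rfl])
  have h2 : (q.elim 0 fun b => fl (b - s)) = 0 := by
    cases q with
    | none => rfl
    | some b => exact fl_ge (by linarith [h.2 b rfl])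
  rw [tf, h1, h2, sub_zero, add_zero]

theorem tf_none : tf none none s = s := by simp [tf]

/-- the time function is locally constant at small depth -/
theorem tf_const (hl : ∀ a ∈ p, ∀ b ∈ q, a + 2 ≤ b) (h : s ∉ Dp p q (1 / 2)) :
    ∃ c, ∀ᶠ t in 𝓝 s, tf p q t = c := by
  rcases not_Dp h with ⟨a, rfl, h'⟩ | ⟨b, rfl, h'⟩
  · refine ⟨a, (eventually_lt_nhds h').mono fun t ht => ?_⟩
    have h2 : (q.elim 0 fun b => fl (b - t)) = 0 := by
      cases q with
      | none => rfl
      | some b => exact fl_ge (by linarith [hl a rfl b rfl])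
    rw [tf, h2, Option.elim_some, fl_le (by linarith)]; ring
  · refine ⟨b, (eventually_gt_nhds h').mono fun t ht => ?_⟩
    have h1 : (p.elim 0 fun a => fl (t - a)) = 0 := by
      cases p with
      | none => rfl
      | some a => exact fl_ge (by linarith [hl a rfl b rfl])
    rw [tf, h1, Option.elim_some, fl_le (by linarith)]; ring

theorem tsupport_dtf (hl : ∀ a ∈ p, ∀ b ∈ q, a + 2 ≤ b) :
    tsupport (deriv (tf p q)) ⊆ Dp p q (1 / 2) :=
  closure_minimal (fun s h => by_contra fun e => h (by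
    obtain ⟨c, hc⟩ := tf_const hl e
    rw [EventuallyEq.deriv_eq (f := fun _ => c) hc, deriv_const])) isClosed_Dp

theorem dtf_one (h : 1 < d) (hs : s ∈ Dp p q d) : deriv (tf p q) s = 1 := by
  rw [EventuallyEq.deriv_eq (f := id) (mem_of_superset (Dp_mem_nhds h hs) fun _ => tf_eq),
    deriv_id]

end time

/-! ### transport to a neck -/

variable {E3 : Type} [NormedAddCommGroup E3] [NormedSpace ℝ E3] [FiniteDimensional ℝ E3]
  [MeasurableSpace E3] [BorelSpace E3]
  {H3 : Type} [TopologicalSpace H3] {I3 : ModelWithCorners ℝ E3 H3} [I3.Boundaryless]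
  {Y : Type} [TopologicalSpace Y] [ChartedSpace H3 Y] [IsManifold I3 ∞ Y] [T2Space Y]
  [MeasurableSpace Y] [BorelSpace Y] [SecondCountableTopology Y] [CompactSpace Y]
  {κ : Type} [Fintype κ] {lam : Type} [Fintype lam]
  {E : Type} [NormedAddCommGroup E] [NormedSpace ℝ E] [FiniteDimensional ℝ E]
  [MeasurableSpace E] [BorelSpace E]
  {HM : Type} [TopologicalSpace HM] {I : ModelWithCorners ℝ E HM}
  {M : Type} [TopologicalSpace M] [ChartedSpace HM M] [IsManifold I ∞ M] [MeasurableSpace M]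
  [T2Space M] [BorelSpace M] {N : Type} [NormedAddCommGroup N] [NormedSpace ℝ N]

theorem BD.cyl (F : Pre I3 Y κ) {h : ℝ → ℝ} {C : ℕ → ℝ} (hh : BD h C) :
    (cylP F).CBs (fun x => h x.2) C :=
  ⟨sm_snd hh.1, fun k => Cht98.CB_snd F k hh.1 (hh.2 k)⟩

namespace Nk
variable {D : YD I3 Y κ lam} {B : Base M (Option κ) lam} {G : Geo I M (Option κ) lam}
  (K : Nk D B G) {d : ℝ} {x : M}

/-- the part of the neck of depth `≥ d` -/
def dp (d : ℝ) : Set M := K.tm ⁻¹' Dp K.p K.q d

/-- transport of a function on the cylinder, extended by zero -/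
abbrev push (u : Y × ℝ → N) : M → N := pull K.ψ.symm u

theorem isClosed_dp : IsClosed (K.dp d) := isClosed_Dp.preimage K.cont

theorem dp_sub (hd : 0 < d) : K.dp d ⊆ K.ψ.target := K.tgt ▸ preimage_mono (Dp_sub hd)

theorem snd_symm (hx : x ∈ K.ψ.target) : (K.ψ.symm x).2 = K.tm x := by
  rw [← K.tm_ψ _ (K.ψ.map_target hx), K.ψ.right_inv hx]

theorem mem_src {z : Y × ℝ} : z ∈ K.ψ.source ↔ z.2 ∈ K.J := by rw [K.src]; simp

theorem rel : Pj41.FRel D.Z G.F K.ψ K.ψ.source := Pj41.fRel_of_iso K.iso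

theorem rel' : Pj41.FRel G.F D.Z K.ψ.symm K.ψ.target := Pj41.fRel_of_iso (iso_symm K.iso)

theorem adm (hd : 0 < d) {u : Y × ℝ → N} (hu : ∀ z, z.2 ∉ Dp K.p K.q d → u z = 0) :
    Adm K.ψ.symm (tsupport u) := by
  have h1 : IsClosed {z : Y × ℝ | z.2 ∈ Dp K.p K.q d} := isClosed_Dp.preimage continuous_snd
  refine Adm.mono (K := {z : Y × ℝ | z.2 ∈ Dp K.p K.q d})
    ⟨fun z hz => K.mem_src.2 (Dp_sub hd hz), ?_⟩ (isClosed_tsupport _)
    (closure_minimal (fun z hz => by_contra fun e => hz (hu z e)) h1)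
  convert K.isClosed_dp (d := d) using 1
  ext x
  refine ⟨fun h => ?_, fun h => ⟨K.dp_sub hd h, ?_⟩⟩
  · exact (K.snd_symm h.1 ▸ h.2 : K.tm x ∈ Dp K.p K.q d)
  · show (K.ψ.symm x).2 ∈ Dp K.p K.q d
    rw [K.snd_symm (K.dp_sub hd h)]; exact h

theorem CBs_push (hd : 0 < d) {u : Y × ℝ → N} {C : ℕ → ℝ} (h : D.Z.CBs u C)
    (hu : ∀ z, z.2 ∉ Dp K.p K.q d → u z = 0) : G.F.CBs (K.push u) fun k => |C k| :=
  ⟨sm_pull (iso_symm K.iso) h.1 (K.adm hd hu),
    fun k => CB_pull (iso_symm K.iso) k h.1 (K.adm hd hu) (h.2 k)⟩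

theorem push_time {h : ℝ → N} (hd : 0 < d) (hu : ∀ s ∉ Dp K.p K.q d, h s = 0) :
    K.push (fun z => h z.2) = fun x => h (K.tm x) := funext fun x => by
  by_cases hx : x ∈ K.ψ.target
  · rw [push, pull_of_mem (φ := K.ψ.symm) hx, K.snd_symm hx]
  · rw [push, pull_of_notMem (φ := K.ψ.symm) hx, hu _ fun e => hx (K.dp_sub hd e)]

theorem ext_eq (f : Y → N) : K.ext f = K.push fun z => K.cut 1 z.2 • f z.1 := funext fun x => by
  by_cases hx : x ∈ K.ψ.target
  · rw [push, pull_of_mem (φ := K.ψ.symm) hx, K.snd_symm hx]; rfl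
  · rw [push, pull_of_notMem (φ := K.ψ.symm) hx, ext, χ,
      show K.cut 1 (K.tm x) = 0 from ct_zero fun e => hx (K.dp_sub one_pos e), zero_smul]

theorem ext_ψ (f : Y → N) {z : Y × ℝ} (hz : z ∈ K.ψ.source) :
    K.ext f (K.ψ z) = K.cut 1 z.2 • f z.1 := by
  rw [ext, χ, K.tm_ψ z hz, K.ψ.left_inv hz]

theorem ext_zero (f : Y → N) (hx : x ∉ K.dp 1) : K.ext f x = 0 := by
  rw [ext, χ, show K.cut 1 (K.tm x) = 0 from ct_zero hx, zero_smul]

theorem χ_one (hx : x ∈ K.dp 2) : K.χ x = 1 := ct_one (by norm_num; exact hx)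

theorem χ_zero (hx : x ∉ K.dp 1) : K.χ x = 0 := ct_zero hx

theorem τ_eq (hx : x ∈ K.dp 1) : K.τ x = K.tm x := tf_eq hx

theorem τ_ev (hx : x ∈ K.ψ.target) : ∀ᶠ y in 𝓝 x, K.τ y = tf K.p K.q (K.ψ.symm y).2 :=
  (K.ψ.open_target.eventually_mem hx).mono fun y hy => by rw [K.snd_symm hy]; rfl

theorem τ_const (hx : x ∉ K.dp (1 / 2)) : ∃ c, ∀ᶠ y in 𝓝 x, K.τ y = c :=
  (tf_const K.len hx).imp fun _ h => K.cont.continuousAt.eventually h

theorem sm_τ : Sm I K.τ := fun x => by
  by_cases hx : x ∈ K.ψ.target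
  · exact ((sm_snd (I := I3) (Y := Y) contDiff_tf _).comp x
      (iso_smAt (iso_symm K.iso) hx)).congr_of_eventuallyEq (K.τ_ev hx)
  · obtain ⟨c, hc⟩ := K.τ_const fun e => hx (K.dp_sub one_half_pos e)
    exact contMDiffAt_const.congr_of_eventuallyEq hc

theorem D_τ_none : G.F.D none K.τ = fun x => deriv (tf K.p K.q) (K.tm x) := funext fun x => by
  by_cases hx : x ∈ K.ψ.target
  · rw [K.rel'.D hx none (u' := fun z => tf K.p K.q z.2) (K.τ_ev hx), ← K.snd_symm hx]
    exact congrFun (D_none_snd D.F.toPre contDiff_tf) _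
  · have h1 : x ∉ K.dp (1 / 2) := fun e => hx (K.dp_sub one_half_pos e)
    obtain ⟨c, hc⟩ := K.τ_const h1
    rw [Pre.D_def, dv_congr (v := fun _ => c) hc, dv_const,
      image_eq_zero_of_notMem_tsupport fun e => h1 (tsupport_dtf K.len e)]
    rfl

theorem D_τ_some (a : κ) : G.F.D (some a) K.τ = 0 := funext fun x => by
  by_cases hx : x ∈ K.ψ.target
  · rw [K.rel'.D hx (some a) (u' := fun z => tf K.p K.q z.2) (K.τ_ev hx)]
    exact congrFun (D_some_snd D.F.toPre contDiff_tf a) _
  · obtain ⟨c, hc⟩ := K.τ_const fun e => hx (K.dp_sub one_half_pos e)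
    rw [Pre.D_def, dv_congr (v := fun _ => c) hc, dv_const]

end Nk

/-- a statement about all necks over `D` -/
abbrev AllNk (D : YD I3 Y κ lam)
    (P : ∀ {E : Type} [NormedAddCommGroup E] [NormedSpace ℝ E] [FiniteDimensional ℝ E]
      [MeasurableSpace E] [BorelSpace E] {HM : Type} [TopologicalSpace HM]
      {I : ModelWithCorners ℝ E HM} {M : Type} [TopologicalSpace M] [ChartedSpace HM M]
      [IsManifold I ∞ M] [MeasurableSpace M] [T2Space M] [BorelSpace M]
      {B : Base M (Option κ) lam} {G : Geo I M (Option κ) lam}, Nk D B G → Prop) : Prop :=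
  ∀ {E : Type} [NormedAddCommGroup E] [NormedSpace ℝ E] [FiniteDimensional ℝ E]
    [MeasurableSpace E] [BorelSpace E] {HM : Type} [TopologicalSpace HM]
    {I : ModelWithCorners ℝ E HM} {M : Type} [TopologicalSpace M] [ChartedSpace HM M]
    [IsManifold I ∞ M] [MeasurableSpace M] [T2Space M] [BorelSpace M]
    {B : Base M (Option κ) lam} {G : Geo I M (Option κ) lam} (K : Nk D B G), P K

section unif
variable (D : YD I3 Y κ lam)

/-- cut-off functions of the time -/
theorem cbs_cut : ∃ C, AllNk D fun {_ _ _ _ _ _ _ _ _ _ _ _ _ _ _ _ _ G} K =>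
    ∀ d > 0, G.F.CBs (fun x => K.cut d (K.tm x)) C := by
  obtain ⟨C, hC⟩ := bd_ct
  refine ⟨fun k => |C k|, fun K d hd => ?_⟩
  rw [← K.push_time hd fun _ => ct_zero]
  exact K.CBs_push hd ((hC _ _ d).cyl D.F.toPre) fun _ => ct_zero

/-- derivatives of the time -/
theorem cbs_Dτ : ∃ C, AllNk D fun {_ _ _ _ _ _ _ _ _ _ _ _ _ _ _ _ _ G} K =>
    ∀ a, G.F.CBs (G.F.D a K.τ) C := by
  obtain ⟨C, hC⟩ := bd_dtf
  refine ⟨fun k => |C k|, fun K a => ?_⟩
  have h0 : ∀ s ∉ Dp K.p K.q (1 / 2), deriv (tf K.p K.q) s = 0 := fun s e =>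
    image_eq_zero_of_notMem_tsupport fun h => e (tsupport_dtf K.len h)
  cases a with
  | none =>
    rw [K.D_τ_none, ← K.push_time one_half_pos h0]
    exact K.CBs_push one_half_pos ((hC _ _).cyl D.F.toPre) fun z => h0 z.2
  | some a =>
    rw [K.D_τ_some]
    exact ⟨contMDiff_const, fun k => CB_mono (CB_const k (0 : ℝ)) (by simp)⟩

/-- transported coefficients -/
theorem cbs_ext {f : Y → N} (hf : Sm I3 f) : ∃ C, AllNk D
    fun {_ _ _ _ _ _ _ _ _ _ _ _ _ _ _ _ _ G} K => G.F.CBs (K.ext f) C := by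
  obtain ⟨C, hC⟩ := bd_ct
  obtain ⟨A, hA⟩ := Cht98.Cb_fst D.F.toPre (Cb_of_compact (F := D.F.toPre) hf)
  refine ⟨fun k => abs (2 ^ (k + 1) * ‖(ContinuousLinearMap.lsmul ℝ ℝ : ℝ →L[ℝ] N →L[ℝ] N)‖ *
    |C k| * |A k|), fun K => ?_⟩
  have h1 := (hC K.p K.q 1).cyl D.F.toPre
  beta_reduce
  rw [K.ext_eq]
  exact K.CBs_push one_pos ⟨h1.1.smul hA.1, fun k =>
    CB_bil (ContinuousLinearMap.lsmul ℝ ℝ) h1.1 hA.1 (h1.2 k) (hA.2 k)⟩
    fun z hz => by rw [show K.cut 1 z.2 = 0 from ct_zero hz, zero_smul]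

end unif

namespace Nk
variable {D : YD I3 Y κ lam} {B : Base M (Option κ) lam} {G : Geo I M (Option κ) lam}
  (K : Nk D B G)

theorem cb_cut {d : ℝ} (hd : 0 < d) : G.F.Cb fun x => K.cut d (K.tm x) :=
  (cbs_cut D).imp fun _ h => h K d hd

theorem cb_χ : G.F.Cb K.χ := K.cb_cut one_pos

theorem cut_τ {d : ℝ} (hd : 1 ≤ d) (x : M) : K.cut d (K.τ x) = K.cut d (K.tm x) := by
  by_cases hx : x ∈ K.dp 1
  · rw [K.τ_eq hx]
  · rw [show K.cut d (K.tm x) = 0 from ct_zero fun e => hx (Dp_mono hd e)]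
    refine ct_zero fun e => ?_
    have h1 : ∀ s < 1, s - fl s < 1 := fun s hs => by
      rcases le_or_gt s (1 / 2) with h | h
      · rw [fl_le h]; linarith
      · have := mul_nonneg (by linarith : 0 ≤ s)
          (sub_nonneg.2 (Real.smoothTransition.le_one (2 * s - 1)))
        rw [fl]; linarith
    rcases not_Dp hx with ⟨a, ha, h⟩ | ⟨b, hb, h⟩
    · have h2 : (K.q.elim 0 fun b => fl (b - K.tm x)) = 0 := by
        cases e' : K.q with
        | none => rfl
        | some b => exact fl_ge (by linarith [K.len a ha b e'])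
      have h3 := e.1 a ha
      rw [τ, tf, h2, ha, Option.elim_some] at h3
      linarith [h1 (K.tm x - a) (by linarith)]
    · have h2 : (K.p.elim 0 fun a => fl (K.tm x - a)) = 0 := by
        cases e' : K.p with
        | none => rfl
        | some a => exact fl_ge (by linarith [K.len a e' b hb])
      have h3 := e.2 b hb
      rw [τ, tf, h2, hb, Option.elim_some] at h3
      linarith [h1 (b - K.tm x) (by linarith)]

theorem cd_τ : G.F.Cd K.τ := ⟨K.sm_τ, fun a => (cbs_Dτ D).imp fun _ h => h K a⟩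

theorem cb_ext {f : Y → N} (hf : Sm I3 f) : G.F.Cb (K.ext f) := (cbs_ext D hf).imp fun _ h => h K

theorem cd_fn {g : Option (Y → ℝ)} (hg : OF I3 g) : G.F.Cd (K.fn g) := by
  cases g with
  | none => exact K.cd_τ
  | some g =>
    have := K.cb_ext (hg g rfl)
    exact ⟨this.choose_spec.1, fun a => Cb_D this a⟩

theorem ok_lt {t : YL Y} (h : t.OK I3) : (K.lt t).OK G.F := by
  cases t with
  | mul f => exact K.cb_ext h
  | cl g => exact K.cd_fn h
  | im => trivial
  | G => trivial

theorem ok_la {t : La Y} (h : laOK I3 t) : (K.la t).OK G.F := by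
  cases t with
  | mul f => exact K.cb_ext h
  | G => trivial

theorem ok_sw {u : List (YL Y)} (h : ∀ t ∈ u, YL.OK I3 t) : SW.OK G.F (u.map K.lt) :=
  List.forall_mem_map.2 fun t ht => K.ok_lt (h t ht)

theorem ok_las {w : List (La Y)} (h : ∀ t ∈ w, laOK I3 t) : ∀ t ∈ w.map K.la, La.OK G.F t :=
  List.forall_mem_map.2 fun t ht => K.ok_la (h t ht)

/-- the product structure at depth `> 1` -/
theorem prd [I.Boundaryless] [DecidableEq κ] (hD : D.OK) (hG : G.F.IsVol) :
    Prd G.F K.τ none (interior (K.dp 1)) := by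
  have ht : ∀ x ∈ interior (K.dp 1), x ∈ K.ψ.target := fun x hx =>
    K.dp_sub one_pos (interior_subset hx)
  have hv : ∀ x ∈ interior (K.dp 1), ∀ a, ∀ᶠ y in 𝓝 x, G.F.dv a y = D.Z.dv a (K.ψ.symm y) :=
    fun x hx a => (K.ψ.open_target.eventually_mem (ht x hx)).mono fun y hy =>
      K.rel'.dv hy hG hD.G.vol a
  refine ⟨isOpen_interior, K.sm_τ, fun x hx a => ?_, fun x hx a => ?_, fun x hx a l => ?_,
    fun x hx a l => ?_, fun x hx a l => ?_, fun x hx a l => ?_, fun x hx => ?_, fun x hx a => ?_⟩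
  · rw [K.rel'.D (ht x hx) a (u' := fun z => id z.2) (by
      filter_upwards [mem_interior_iff_mem_nhds.1 hx] with y hy
      rw [K.τ_eq hy, id, K.snd_symm (K.dp_sub one_pos hy)])]
    cases a with
    | none => exact (congrFun (D_none_snd D.F.toPre contDiff_id) _).trans (by simp)
    | some a => exact (congrFun (D_some_snd D.F.toPre contDiff_id a) _).trans (by simp)
  · rw [K.rel'.P (ht x hx)]; cases a <;> simp [cyl, cP]
  · rw [K.rel'.c (ht x hx)]; simp [cyl, cc]
  · rw [K.rel'.c (ht x hx)]; cases a <;> simp [cyl, cc]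
  · rw [K.rel'.c (ht x hx)]; cases a <;> cases l <;> simp [cyl, cc]
  · rw [K.rel'.D (ht x hx) none (u' := D.Z.P a l)
      ((K.ψ.open_target.eventually_mem (ht x hx)).mono fun y hy => K.rel'.P hy a l)]
    cases a <;> cases l
    · exact congrFun (dv_const _) _
    · exact congrFun (dv_const _) _
    · exact congrFun (dv_const _) _
    · exact congrFun (D_none_fst D.F.toPre (D.F.P_sm _ _)) _
  · exact (hv x hx none).self_of_nhds
  · rw [K.rel'.D (ht x hx) none (hv x hx a)]
    cases a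
    · exact congrFun (dv_const _) _
    · exact congrFun (D_none_fst D.F.toPre (D.F.dv_sm _)) _

end Nk

end Crest.Agent.X212.Nd18
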