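import Crest.Agent.X212.An.Gauge
import Crest.Agent.X212.Cyf70.Cyl

/-!
# Row 212, NDEF (helper18): cross-sections, necks, closeness to `t`-invariant configurations

`D : YD` is the background on the cross-section `Y`, `D.B`, `D.G` the background on `Y × ℝ`.
`K : Nk D B G` is a literal product neck `Y × (p, q)` of a background `(B, G)` on `M`
(`none` = infinite end).
-/

set_option autoImplicit false
set_option linter.unusedSectionVars false
noncomputable section
open scoped Manifold ContDiff Topology InnerProductSpace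
open MeasureTheory Set Function Filter

namespace Crest.Agent.X212.Nd18
open An Cyf70
open Wz78 (nab dir)

variable {E3 : Type} [NormedAddCommGroup E3] [NormedSpace ℝ E3] [FiniteDimensional ℝ E3]
  [MeasurableSpace E3] [BorelSpace E3]
  {H3 : Type} [TopologicalSpace H3] {I3 : ModelWithCorners ℝ E3 H3} [I3.Boundaryless]
  {Y : Type} [TopologicalSpace Y] [ChartedSpace H3 Y] [IsManifold I3 ∞ Y] [T2Space Y]
  [MeasurableSpace Y] [BorelSpace Y] [SecondCountableTopology Y] [CompactSpace Y]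
  {κ : Type} [Fintype κ] {lam : Type} [Fintype lam]
  {E : Type} [NormedAddCommGroup E] [NormedSpace ℝ E] [FiniteDimensional ℝ E]
  [MeasurableSpace E] [BorelSpace E]
  {HM : Type} [TopologicalSpace HM] {I : ModelWithCorners ℝ E HM}
  {M : Type} [TopologicalSpace M] [ChartedSpace HM M] [IsManifold I ∞ M] [MeasurableSpace M]
  {ι : Type} [Fintype ι] {N : Type} [NormedAddCommGroup N] [NormedSpace ℝ N]

/-! ### pull-back along a map which preserves the frames literally -/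

section pb
variable {M' : Type} [TopologicalSpace M'] (f : M' → M)

/-- pull-back of a module -/
def pbM (m : Md M ι lam) : Md M' ι lam :=
  ⟨m.N, m.J, fun x => m.p (f x), fun a x => m.ρ a (f x), fun x => m.j (f x)⟩

/-- pull-back of a configuration -/
def pb {r : ℕ} (c : Cfg M ι lam r) : Cfg M' ι lam r :=
  ⟨pbM f c.m, fun a x => c.W a (f x), fun x => c.Φ (f x), c.z⟩

end pb

/-- forget `z` -/
def noz {r : ℕ} (c : Cfg M ι lam r) : Cfg M ι lam 0 := ⟨c.m, c.W, c.Φ, 0⟩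

/-- variation of a configuration -/
def vr {r : ℕ} (c : Cfg M ι lam r) (α : M → Fm ι c.m.A) (φ : M → c.m.V) : Cfg M ι lam r :=
  ⟨c.m, c.m.addC c.W α, fun x => c.Φ x + φ x, c.z⟩

/-! ### types of configurations over a set -/

section types
variable {r : ℕ} (F : Fr I M ι) (c : Cfg M ι lam r) (O : Set M)

/-- a parallel section of `g` over `O` -/
structure ParS (ξ : M → c.m.A) : Prop where
  sm : ContMDiffOn I 𝓘(ℝ, c.m.A) ∞ ξ O
  mem : ∀ x ∈ O, ξ x ∈ c.m.gS x
  par : ∀ a, ∀ x ∈ O, nab I F.e (c.m.adW c.W) a ξ x = 0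

/-- reducible connection -/
def Red : Prop := ∃ ξ, ParS F c O ξ ∧ ∃ x ∈ O, ξ x ≠ 0

/-- fixed by the circle (types I, A: `ξ = 0`; type S) -/
def Fix : Prop := ∃ ξ, ParS F c O ξ ∧ ∀ x ∈ O, opL (ξ x) (c.Φ x) = c.m.J (c.Φ x)

/-- a parallel real line in `g` (reducible or twisted reducible) -/
def Lin : Prop := ∃ π : M → CL c.m.A c.m.A, ContMDiffOn I 𝓘(ℝ, CL c.m.A c.m.A) ∞ π O ∧
  ∀ x ∈ O, Sym (π x) ∧ π x * π x = π x ∧ c.m.pg x * π x = π x ∧
    LinearMap.trace ℝ _ (π x : c.m.A →ₗ[ℝ] c.m.A) = 1 ∧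
    ∀ a, F.D a π x + (c.m.adW c.W a x * π x - π x * c.m.adW c.W a x) = 0

/-- the spinor vanishes -/
def Zr : Prop := ∀ x ∈ O, c.Φ x = 0

end types

/-! ### the cross-section -/

variable (I3 Y κ lam) in
/-- the background on the cross-section -/
structure YD where
  F : Fr I3 Y κ
  o : Option κ → Option κ → Option κ → Option κ → Y → ℝ
  l : Y → En lam
  il : En lam
  a : κ → Y → En lam

/-- a one-form on `Y` as a one-form on the cylinder -/
def ca (a : κ → Y → N) : Option κ → Y × ℝ → N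
  | none => fun _ => 0
  | some k => fun x => a k x.1

variable (Y κ lam) in
/-- configurations on the cross-section -/
abbrev YC : Type := Cfg Y (Option κ) lam 0

/-- the `t`-invariant configuration on the cylinder -/
abbrev cy (β : YC Y κ lam) : Cfg (Y × ℝ) (Option κ) lam 0 := pb Prod.fst β

/-- translation: `sh s c (y, t) = c (y, t + s)` -/
abbrev sh {r : ℕ} (s : ℝ) (c : Cfg (Y × ℝ) (Option κ) lam r) : Cfg (Y × ℝ) (Option κ) lam r :=
  pb (fun x : Y × ℝ => (x.1, x.2 + s)) c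

namespace YD
variable (D : YD I3 Y κ lam)

/-- the frame of the cylinder -/
abbrev Z : Fr (IC I3) (Y × ℝ) (Option κ) := cyl D.F

def B : Base (Y × ℝ) (Option κ) lam :=
  ⟨cP D.F.P, fun a b c d x => D.o a b c d x.1, fun x => D.l x.1, D.il⟩

def G : Geo (IC I3) (Y × ℝ) (Option κ) lam := ⟨D.Z, ca D.a⟩

structure OK : Prop where
  B : D.B.OK (IC I3)
  G : D.G.OK D.B

/-- admissible `t`-invariant configurations in temporal gauge -/
structure Adm (β : YC Y κ lam) : Prop where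
  adm : (cy β).Adm D.B D.G
  tmp : ∀ y, β.W none y = 0

/-- gauge equivalence up to a phase -/
def Eqv (β β' : YC Y κ lam) : Prop := Cfg.Iso D.B D.Z (cy β) (cy β')

section cls
variable {r : ℕ} (c : Cfg (Y × ℝ) (Option κ) lam r) (β : YC Y κ lam)
  (u : Y × ℝ → CL c.m.V β.m.V) (ζ : Circle)

/-- the connection of `β` minus the connection of `c` transported by `u` -/
def dA (a : Option κ) (x : Y × ℝ) : En (Fin β.m.N) :=
  (D.Z.D a u x + β.W a x.1 ∘L u x - u x ∘L c.W a x) ∘L trn (u x)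

/-- the transported spinor of `c` minus the spinor of `β` -/
def dP (x : Y × ℝ) : β.m.V := cs β.m.J ζ (u x (c.Φ x)) - β.Φ x.1

/-- `C^k`-closeness over `Y × S` in the gauge `u` with the phase `ζ` -/
structure Cls (S : Set ℝ) (k : ℕ) (η : ℝ) : Prop where
  op : IsOpen S
  m : MEq (IC I3) c.m (cy β).m (univ ×ˢ S) id (fun x b a => D.B.P b a x) D.B.l u
  A : ∀ a (w : List (Option κ)), w.length ≤ k → ∀ x ∈ univ ×ˢ S, ‖D.Z.Dw w (D.dA c β u a) x‖ ≤ η
  P : ∀ w : List (Option κ), w.length ≤ k → ∀ x ∈ univ ×ˢ S, ‖D.Z.Dw w (dP c β u ζ) x‖ ≤ η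

end cls
end YD

/-! ### necks -/

/-- the interval `(p, q)` -/
def Jv (p q : Option ℝ) : Set ℝ := {s | (∀ a ∈ p, a < s) ∧ ∀ b ∈ q, s < b}

/-- `1` at depth `≥ d + 1`, `0` at depth `≤ d` -/
def ct (p q : Option ℝ) (d s : ℝ) : ℝ :=
  (p.elim 1 fun a => Real.smoothTransition (s - a - d)) *
    q.elim 1 fun b => Real.smoothTransition (b - s - d)

/-- `x` for `x ≤ 1/2`, `0` for `x ≥ 1` -/
def fl (x : ℝ) : ℝ := x * (1 - Real.smoothTransition (2 * x - 1))

/-- `s` at depth `≥ 1`, constant at depth `≤ 1/2` -/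
def tf (p q : Option ℝ) (s : ℝ) : ℝ :=
  s - (p.elim 0 fun a => fl (s - a)) + q.elim 0 fun b => fl (b - s)

/-- a literal product neck -/
structure Nk (D : YD I3 Y κ lam) (B : Base M (Option κ) lam) (G : Geo I M (Option κ) lam) where
  p : Option ℝ
  q : Option ℝ
  ψ : OpenPartialHomeomorph (Y × ℝ) M
  tm : M → ℝ
  len : ∀ a ∈ p, ∀ b ∈ q, a + 2 ≤ b
  src : ψ.source = univ ×ˢ Jv p q
  tgt : ψ.target = tm ⁻¹' Jv p q
  cont : Continuous tm
  tm_ψ : ∀ x ∈ ψ.source, tm (ψ x) = x.2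
  iso : An.Iso D.Z.toPre G.F.toPre ψ
  P : ∀ a b, ∀ x ∈ ψ.source, B.P a b (ψ x) = D.B.P a b x
  o : ∀ a b c d, ∀ x ∈ ψ.source, B.o a b c d (ψ x) = D.B.o a b c d x
  l : ∀ x ∈ ψ.source, B.l (ψ x) = D.B.l x
  il : B.il = D.il
  a : ∀ a, ∀ x ∈ ψ.source, G.a a (ψ x) = D.G.a a x

/-- the cylinder -/
def YD.nk (D : YD I3 Y κ lam) : Nk D D.B D.G where
  p := none
  q := none
  ψ := OpenPartialHomeomorph.refl _
  tm := Prod.snd
  len := by simp
  src := by simp [Jv]
  tgt := by simp [Jv]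
  cont := continuous_snd
  tm_ψ _ _ := rfl
  iso := ⟨contMDiffOn_id, contMDiffOn_id, fun a x _ => by
    show mfderiv _ _ id x _ = _
    rw [mfderiv_id]; rfl, by simp [YD.G]⟩
  P _ _ _ _ := rfl
  o _ _ _ _ _ _ := rfl
  l _ _ := rfl
  il := rfl
  a _ _ _ := rfl

namespace Nk
variable {D : YD I3 Y κ lam} {B : Base M (Option κ) lam} {G : Geo I M (Option κ) lam}
  (K : Nk D B G) {r : ℕ}

/-- the time interval -/
abbrev J : Set ℝ := Jv K.p K.q

/-- the cut-off function of time at depth `d` -/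
abbrev cut (d : ℝ) : ℝ → ℝ := ct K.p K.q d

/-- the global time function (locally constant off the neck) -/
def τ (x : M) : ℝ := tf K.p K.q (K.tm x)

/-- the cut-off of the coefficients -/
def χ (x : M) : ℝ := K.cut 1 (K.tm x)

/-- transport of a coefficient from the cross-section -/
def ext (f : Y → N) (x : M) : N := K.χ x • f (K.ψ.symm x).1

/-- the configuration in the coordinates of the neck -/
abbrev pb (c : Cfg M (Option κ) lam r) : Cfg (Y × ℝ) (Option κ) lam r := Nd18.pb K.ψ c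

/-- the window at time `s` is `η`-close to `β` -/
def Near (c : Cfg M (Option κ) lam r) (s : ℝ) (β : YC Y κ lam) (η : ℝ) : Prop :=
  Ioo (s - η⁻¹) (s + η⁻¹) ⊆ K.J ∧
    ∃ u ζ, D.Cls (K.pb c) β u ζ (Ioo (s - η⁻¹) (s + η⁻¹)) ⌈η⁻¹⌉₊ η

/-- convergence to `β` along the end `l` (`atTop` or `atBot`), in one gauge, with the phase `ζ` -/
def Lim (c : Cfg M (Option κ) lam r) (β : YC Y κ lam) (ζ : Circle) (l : Filter ℝ) : Prop :=
  ∃ u, ∀ k, ∀ η > 0, ∃ S ∈ l, S ⊆ K.J ∧ D.Cls (K.pb c) β u ζ S k η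

/-- exponential convergence -/
def ELim (d : ℝ) (c : Cfg M (Option κ) lam r) (β : YC Y κ lam) (ζ : Circle) (l : Filter ℝ) :
    Prop :=
  ∃ u, ∃ S ∈ l, S ⊆ K.J ∧ D.Cls (K.pb c) β u ζ S 0 1 ∧ ∀ k, ∃ C, ∀ s, Ioo (s - 1) (s + 1) ⊆ S →
    D.Cls (K.pb c) β u ζ (Ioo (s - 1) (s + 1)) k (C * Real.exp (-d * |s|))

/-- `c` is equivalent to `β` itself near the end (base configurations) -/
def Std (c : Cfg M (Option κ) lam r) (β : YC Y κ lam) (ζ : Circle) (l : Filter ℝ) : Prop :=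
  ∃ u, ∃ S ∈ l, S ⊆ K.J ∧ D.Cls (K.pb c) β u ζ S 0 0

end Nk

end Crest.Agent.X212.Nd18
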