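import Crest.Agent.X212.Nd18.Defs
import Crest.Agent.X212.Cyc79.Defs

/-!
# Row 212, NDEF (helper18): neck terms, critical points, trajectories

The syntax lives on the cross-section `Y` and is transported to every neck `K`.
-/

set_option autoImplicit false
set_option linter.unusedSectionVars false
noncomputable section
open scoped Manifold ContDiff Topology InnerProductSpace
open MeasureTheory Set Function Filter

namespace Crest.Agent.X212.Nd18
open An Cyf70 Dgr80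
open Cyc79 (Cy)
open Wz78 (nab dir)

variable {E3 : Type} [NormedAddCommGroup E3] [NormedSpace ℝ E3] [FiniteDimensional ℝ E3]
  [MeasurableSpace E3] [BorelSpace E3]
  {H3 : Type} [TopologicalSpace H3] {I3 : ModelWithCorners ℝ E3 H3} [I3.Boundaryless]
  {Y : Type} [TopologicalSpace Y] [ChartedSpace H3 Y] [IsManifold I3 ∞ Y] [T2Space Y]
  [MeasurableSpace Y] [BorelSpace Y] [SecondCountableTopology Y] [CompactSpace Y]
  {κ : Type} [Fintype κ] {lam : Type} [Fintype lam]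
  {E : Type} [NormedAddCommGroup E] [NormedSpace ℝ E] [FiniteDimensional ℝ E]
  [MeasurableSpace E] [BorelSpace E]
  {HM : Type} [TopologicalSpace HM] {I : ModelWithCorners ℝ E HM}
  {M : Type} [TopologicalSpace M] [ChartedSpace HM M] [IsManifold I ∞ M] [MeasurableSpace M]
  [T2Space M] [BorelSpace M] {ι : Type} [Fintype ι]

/-! ### sums of perturbations -/

/-- the perturbation `∑ q w • τ w` -/
def fsum {W : Type} {r n : ℕ} (τ : W → Pt M ι lam r n) (q : W →₀ ℝ) : Pt M ι lam r n where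
  D c x := q.sum fun w a => a • (τ w).D c x
  C c x := q.sum fun w a => a • (τ w).C c x
  S c i := q.sum fun w a => (a : ℂ) * (τ w).S c i

/-- a density multiplied by a function -/
def dcut {r : ℕ} (χ : M → ℝ) (d : Den M ι lam r) : Den M ι lam r where
  h c x := χ x * d.h c x
  gA c f := d.gA c fun y => f y * χ y
  gP c f := d.gP c fun y => f y * χ y

/-! ### syntax on the cross-section -/

variable (Y) in
/-- letters of spinor words; `cl none` is Clifford multiplication by `dt` -/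
inductive YL
  | mul (f : Y → ℝ)
  | cl (g : Option (Y → ℝ))
  | im
  | G

variable (Y) in
/-- densities of weight zero -/
inductive YDen
  | sw (u v : List (YL Y))
  | cy (d : Cy Y) (w : List (La Y)) (d' : Cy Y) (w' : List (La Y))

variable (Y lam) in
/-- complex densities of weight two -/
structure YD2 where
  s : Y → Eu lam
  u : List (YL Y)
  v : List (YL Y)

/-- functions of the smoothed energy at shifted times -/
structure YTC where
  m : ℕ
  s : Fin m → ℝ
  k : (Fin m → ℝ) → ℝ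

variable (Y) in
/-- terms of `q2` -/
inductive YT
  | lin (C : YTC) (u : List (YL Y ⊕ YTC))
  | ad (C : YTC) (h : Y → ℝ) (u v : List (YL Y ⊕ YTC)) (l : List (La Y ⊕ YTC))
  | cv (C : YTC) (h f : Y → ℝ) (g g' : Option (Y → ℝ)) (l : List (La Y ⊕ YTC))

section ok
variable (I3)

def OF (g : Option (Y → ℝ)) : Prop := ∀ f ∈ g, Sm I3 f

def YL.OK : YL Y → Prop
  | .mul f => Sm I3 f
  | .cl g => OF I3 g
  | _ => True

def laOK : La Y → Prop
  | .mul f => Sm I3 f
  | .G => True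

variable {I3}

def YDen.OK (F : Fr I3 Y κ) : YDen Y → Prop
  | .sw u v => (∀ t ∈ u, YL.OK I3 t) ∧ ∀ t ∈ v, YL.OK I3 t
  | .cy d w d' w' => d.OK F ∧ (∀ t ∈ w, laOK I3 t) ∧ d'.OK F ∧ ∀ t ∈ w', laOK I3 t

variable (I3)

def YD2.OK (d : YD2 Y lam) : Prop := Sm I3 d.s ∧ (∀ t ∈ d.u, YL.OK I3 t) ∧ ∀ t ∈ d.v, YL.OK I3 t

def YTC.OK (C : YTC) : Prop := ContDiff ℝ ∞ C.k ∧ ∀ n, ∃ R, ∀ x, ‖iteratedFDeriv ℝ n C.k x‖ ≤ R

def tlOK (u : List (YL Y ⊕ YTC)) : Prop := ∀ t ∈ u, Sum.elim (YL.OK I3) YTC.OK t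

def taOK (l : List (La Y ⊕ YTC)) : Prop := ∀ t ∈ l, Sum.elim (laOK I3) YTC.OK t

def YT.OK : YT Y → Prop
  | .lin C u => C.OK ∧ tlOK I3 u
  | .ad C h u v l => C.OK ∧ Sm I3 h ∧ tlOK I3 u ∧ tlOK I3 v ∧ taOK I3 l
  | .cv C h f g g' l => C.OK ∧ Sm I3 h ∧ Sm I3 f ∧ OF I3 g ∧ OF I3 g' ∧ taOK I3 l

end ok

/-- the outer coefficient of a term -/
def YT.C : YT Y → YTC
  | .lin C _ => C
  | .ad C _ _ _ _ => C
  | .cv C _ _ _ _ _ => C

/-- `C` multiplied by `e / √(1 + e²)`, `e` the smoothed energy at the time itself -/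
def YTC.out (C : YTC) : YTC where
  m := C.m + 1
  s := Fin.cons 0 C.s
  k x := x 0 / √(1 + x 0 ^ 2) * C.k fun i => x i.succ

variable (Y lam) in
/-- the data of the gradient term; the differentials of the `y i` span the cotangent spaces -/
structure ND : Type 1 where
  J0 : Type
  J2 : Type
  [f0 : Fintype J0]
  [f2 : Fintype J2]
  [e0 : DecidableEq J0]
  [e2 : DecidableEq J2]
  d0 : J0 → YDen Y
  d2 : J2 → YD2 Y lam
  φ : (J0 → ℝ) × (J2 → ℂ) → ℝ
  δ : ℝ
  ny : ℕ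
  y : Fin ny → Y → ℝ

attribute [instance] ND.f0 ND.f2 ND.e0 ND.e2

/-! ### transport to a neck -/

namespace Nk
variable {D : YD I3 Y κ lam} {B : Base M (Option κ) lam} {G : Geo I M (Option κ) lam}
  (K : Nk D B G) {r n : ℕ}

/-- the deep cut-off of the energy -/
def χ4 (x : M) : ℝ := K.cut 4 (K.tm x)

/-- `none` is the time -/
def fn : Option (Y → ℝ) → M → ℝ
  | none => K.τ
  | some g => K.ext g

def lt : YL Y → Lt M
  | .mul f => .mul (K.ext f)
  | .cl g => .cl (K.fn g)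
  | .im => .im
  | .G => .G

def la : La Y → La M
  | .mul f => .mul (K.ext f)
  | .G => .G

def cyc (d : Cy Y) : Cy M := ⟨K.ext d.f, K.ext d.f', d.w.map K.la, d.w'.map K.la⟩

def den : YDen Y → Den M (Option κ) lam r
  | .sw u v => dcut K.χ (Den.sw G.F .one (u.map K.lt) (v.map K.lt))
  | .cy d w d' w' => dcut K.χ (Den.sed (((K.cyc d).sed G.F).wd G.F (w.map K.la))
      (((K.cyc d').sed G.F).wd G.F (w'.map K.la)))

def dre (d : YD2 Y lam) : Den M (Option κ) lam r :=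
  dcut K.χ (Den.sw G.F (.re (K.ext d.s)) (d.u.map K.lt) (d.v.map K.lt))

def dim (d : YD2 Y lam) : Den M (Option κ) lam r :=
  dcut K.χ (Den.sw G.F (.im (K.ext d.s)) (d.u.map K.lt) (d.v.map K.lt))

end Nk

namespace ND
variable (N : ND Y lam) {D : YD I3 Y κ lam} {B : Base M (Option κ) lam}
  {G : Geo I M (Option κ) lam} (K : Nk D B G) {r n : ℕ}

/-- the index set of the real densities -/
abbrev J : Type := N.J0 ⊕ N.J2 ⊕ N.J2

/-- real coordinates to complex coordinates -/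
def cx (x : N.J → ℝ) : (N.J0 → ℝ) × (N.J2 → ℂ) :=
  (fun j => x (.inl j), fun j => ⟨x (.inr (.inl j)), x (.inr (.inr j))⟩)

variable (D) in
structure OK : Prop where
  d0 : ∀ j, (N.d0 j).OK D.F
  d2 : ∀ j, (N.d2 j).OK I3
  sm : ContDiff ℝ ∞ N.φ
  inv : ∀ (ζ : Circle) x y, N.φ (x, (ζ : ℂ) • y) = N.φ (x, y)
  δ0 : 0 < N.δ
  δ1 : N.δ ≤ 1 / 8
  sy : ∀ i, Sm I3 (N.y i)
  span : ∀ y (ξ : κ → ℝ), (∀ i, ∑ a, ξ a * D.F.D a (N.y i) y = 0) → ∑ a, ξ a • D.F.e a y = 0

/-- the function `φ` multiplied by `ν` (to switch a neck term on) -/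
def smul (ν : ℝ) : ND Y lam := { N with φ := fun x => ν * N.φ x }

/-- the delay gradient data on a neck -/
def dg : DG M (Option κ) lam r N.J where
  τ := K.τ
  cut := K.cut 3
  d := Sum.elim (fun j => K.den (N.d0 j))
    (Sum.elim (fun j => K.dre (N.d2 j)) fun j => K.dim (N.d2 j))
  δ _ := N.δ
  φ x := N.φ (N.cx x)

/-- the gradient term -/
def q1 : Pt M (Option κ) lam r n := (N.dg K).q1 B G.F

/-- the smoothed energy density -/
def ew (c : Cfg M (Option κ) lam r) : M → ℝ :=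
  fun x => K.χ4 x * Dgr80.ew G.F K.τ K.χ4 (fun i => K.ext (N.y i)) c x

def tc (C : YTC) : TC M (Option κ) lam r :=
  ⟨C.m, fun _ => N.ew K, C.s, fun x => C.k fun i => x i / √(1 + x i ^ 2), K.χ⟩

def tl (t : YL Y ⊕ YTC) : TL M (Option κ) lam r := t.map K.lt (N.tc K)

def ta (t : La Y ⊕ YTC) : TA M (Option κ) lam r := t.map K.la (N.tc K)

/-- the term of `An/Gauge` obtained by evaluating the coefficient functions at `c` -/
def tm (c : Cfg M (Option κ) lam r) (n : ℕ) : YT Y → Tm M lam r n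
  | .lin _ u => (TT.lin (u.map (N.tl K))).tm G.F K.τ N.δ c n
  | .ad _ h u v l =>
      (TT.ad K.τ (K.ext h) (u.map (N.tl K)) (v.map (N.tl K)) (l.map (N.ta K))).tm G.F K.τ N.δ c n
  | .cv _ h f g g' l => .ad K.τ (K.ext h) ⟨.cv (K.ext f) (K.fn g) (K.fn g'),
      (l.map (N.ta K)).map (Dgr80.ta G.F K.τ N.δ c)⟩

/-- the outer coefficient -/
def oc (T : YT Y) (c : Cfg M (Option κ) lam r) (x : M) : ℝ :=
  K.cut 3 (K.τ x) * (N.tc K T.C.out).val G.F K.τ N.δ c (K.τ x)

/-- one non-gradient term -/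
def q2 (T : YT Y) : Pt M (Option κ) lam r n where
  D c x := N.oc K T c x • nrm (c.tD B G.F (N.tm K c n T) x)
  C c x := N.oc K T c x • nrm (c.tC B G.F (N.tm K c n T) x)
  S _ _ := 0

end ND

variable (I3 Y) in
/-- the index set of the non-gradient terms -/
abbrev YW : Type := {T : YT Y // T.OK I3}

namespace ND
variable (N : ND Y lam) (D : YD I3 Y κ lam)

/-- the neck perturbation -/
def pt {D : YD I3 Y κ lam} {B : Base M (Option κ) lam} {G : Geo I M (Option κ) lam}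
    (K : Nk D B G) {r n : ℕ} (q : YW I3 Y →₀ ℝ) : Pt M (Option κ) lam r n :=
  (N.q1 K).add (fsum (fun T : YW I3 Y => N.q2 K T.1) q)

/-- critical points -/
structure Crit (β : YC Y κ lam) : Prop where
  sol : (cy β).Sol D.B D.G (N.q1 D.nk : Pt _ _ _ 0 0)
  tmp : ∀ y, β.W none y = 0

/-- the variation of `cy β` along a `t`-invariant direction -/
def vz (β : YC Y κ lam) (α : Y → Fm (Option κ) β.m.A) (φ : Y → β.m.V) (ε : ℝ) :
    Cfg (Y × ℝ) (Option κ) lam 0 := vr (cy β) (fun x => ε • α x.1) fun x => ε • φ x.1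

/-- nondegeneracy: `t`-invariant infinitesimal deformations come from the gauge group and the
circle -/
def Nondeg (β : YC Y κ lam) : Prop :=
  ∀ (α : Y → Fm (Option κ) β.m.A) (φ : Y → β.m.V), Sm I3 α → Sm I3 φ →
    (∀ y, (cy β).m.p1 D.B (y, 0) (α y) = α y) → (∀ y, α y none = 0) →
    (∀ y, (cy β).m.pp D.B (y, 0) (φ y) = φ y) →
    (∀ x, HasDerivAt (F := β.m.V)
      (fun ε => (vz β α φ ε).eD D.G (N.q1 D.nk : Pt _ _ _ 0 0) x) 0 0) →
    (∀ x s, HasDerivAt (F := β.m.A)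
      (fun ε => (vz β α φ ε).eC D.B D.G (N.q1 D.nk : Pt _ _ _ 0 0) x s) 0 0) →
    ∃ (ξ : Y → β.m.A) (c : ℝ), Sm I3 ξ ∧ (∀ y, ξ y ∈ β.m.gS y) ∧
      (∀ a y, α y (some a) = -nab I3 D.F.e (fun a => β.m.adW β.W (some a)) a ξ y) ∧
      ∀ y, φ y = opL (ξ y) (β.Φ y) + c • β.m.J (β.Φ y)

/-- the gauge invariant part of the functional: Dirac term and perturbation -/
def lv (β : YC Y κ lam) : ℝ :=
  (∫ y, ⟪-β.m.ρ none y (dir (IC I3) D.Z.e (cy β).m.ρ (cy β).W (cy β).Φ (y, 0)), β.Φ y⟫_ℝ ∂D.F.μ)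
    / 2 + N.φ (N.cx ((N.dg D.nk).Iv D.Z (cy β) 0))

/-- the topological energy of a configuration on the cylinder from `β` to `β'` -/
def tE (c : Cfg (Y × ℝ) (Option κ) lam 0) (β β' : YC Y κ lam) : ℝ :=
  c.kap D.B D.G + (N.lv D β - N.lv D β') / (8 * Real.pi ^ 2)

/-- trajectories -/
structure Traj (q : YW I3 Y →₀ ℝ) (c : Cfg (Y × ℝ) (Option κ) lam 0) (β β' : YC Y κ lam)
    (ζ ζ' : Circle) : Prop where
  sol : c.Sol D.B D.G (N.pt D.nk q : Pt _ _ _ 0 0)
  bot : D.nk.Lim c β ζ atBot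
  top : D.nk.Lim c β' ζ' atTop

end ND

/-- not translation invariant -/
def YD.Moves (D : YD I3 Y κ lam) (c : Cfg (Y × ℝ) (Option κ) lam 0) : Prop :=
  ∃ x, en D.Z c Prod.snd x ≠ 0

/-- paths: admissible configurations which are standard at both ends -/
structure YD.Path (D : YD I3 Y κ lam) (c : Cfg (Y × ℝ) (Option κ) lam 0) (β β' : YC Y κ lam) :
    Prop where
  adm : c.Adm D.B D.G
  bot : ∃ ζ, D.nk.Std c β ζ atBot
  top : ∃ ζ, D.nk.Std c β' ζ atTop

end Crest.Agent.X212.Nd18
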