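import Crest.Agent.X212.Nd18.Fct

/-!
# Row 212, FACT (helper18): the generic class of jobs over a scene

`GJ` contains the jobs of families (`a₀ = none`) and of prisms (`a₀ = some a`).
-/

set_option autoImplicit false
set_option linter.unusedSectionVars false
noncomputable section
open scoped Manifold ContDiff Topology
open Set Function Filter Classical

namespace Crest.Agent.X212.Nd18
open An M G75 Jb7 Ins26 Wrd81
open An.Job (SolOn)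
open Br55 (NC)

/-- without spinor the function of the neck terms is linear with small coefficients -/
def SmI {Y lam : Type} (N : ND Y lam) (R : YDen Y → ℝ) : Prop := ∃ p : N.J0 → ℝ,
  (∀ x : N.J0 → ℝ, (∀ j u v, N.d0 j = .sw u v → x j = 0) → N.φ (x, 0) = ∑ j, p j * x j) ∧
    ∑ j, |p j| * R (N.d0 j) ≤ 1

section job
variable {Wi : Type} {X : Mf 4} {A κ lam : Type} [Fintype A] [Fintype κ] [Fintype lam]
  [DecidableEq lam] {M : Mark X A κ} {W : World M} {N : ML M lam} {Λ : Lns W N}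
  {A' h : Type} [Fintype A'] [DecidableEq A'] [Fintype h] {r n : ℕ} (J : Job Wi Λ A' h r n)

/-- no neck terms at the wall `a` -/
def Nl (a : A) : Prop := Ink3.Nil (J.xs a).N ∧ (J.xs a).ty = 0

/-- pieces without spinor which contain a neck or an end with terms -/
def NK (Adm : (Wi →₀ ℝ) → Prop) (K₀ : ℝ) : Prop := ∀ σ ∈ J.𝒦, ∀ (c : M.Cl) (p : Prt A A' h) π q
  (y : J.noz.Obc c), Adm q → p.P = {π} → p.P' = ∅ → M.sys.Piece c.1 π → SolOn p σ q y →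
  (∃ a, (a ∈ M.sys.inn π ∨ π a ≠ none) ∧ ¬Nl J a) → -1 / 16 ≤ y.kap (W.pc c π) ∧
    (y.TA π → (∀ z ∈ W.pc c π, y.x.m.Fg (J.G c y.s).F y.x.W z = 0) ∨ K₀ ≤ y.kap (W.pc c π))

end job

variable {κ lam : Type} [Fintype κ] [Fintype lam] [DecidableEq lam] {Lm : LM κ lam}
  {S : Scene Lm} {D : S.Dat} {i : S.L} {Wi : Type} {r n : ℕ}

/-- **the generic class**; `a₀` is the wall of the last coordinate -/
structure GJ (J : Job Wi (D.Λ i) (S.A ⊕ Unit) S.ls r n) (a₀ : Option S.A) (j : ℕ) (n₀ : ℤ) (T : ℝ) :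
    Prop where
  sc : S.OK
  ok : J.OK
  loc : LocP J (shS S)
  r : r = j + 1 + n
  k : J.k = kz S i j n₀
  ct : J.ct = S.ct i
  nb : J.nb = S.nb
  hd : J.hd = Sum.elim (fun a => if a ∈ hard S ∅ then some a else none) fun _ => a₀
  fz : ∀ a ∈ a₀, a ∈ S.fz
  nil : ∀ a ∉ a₀, Nl J a
  ν : ∀ a s, J.ν a s ∈ Icc (0 : ℝ) 1
  cell : ∀ σ' ∈ J.𝒦, ∃ τ o σ, σ' = cel τ o ∧ τ ⊆ σ ∧ σ ∈ S.K i ∧ NC S i σ ∧ ↑σ ⊆ hard S ∅ ∧
    n₀ + σ.card + sf o ≤ 1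
  par : ∀ τ o, cel τ o ∈ J.𝒦 → ∀ s ∈ Job.cl (cel τ o), S.Pt τ T (J.Θ s).2
  rich : ∀ σ' ∈ J.𝒦, ∀ s ∈ Job.cl σ', ∀ c : S.M.Cl, Sys.inf (J.Θ s).2 = c.1 → (∀ a ∈ a₀, a ∉ c.1) →
    J.RichS s ∧ ∀ π, S.M.sys.Piece c.1 π → ((∀ l ∈ S.ls, π l ≠ some false) → J.RichT s π) ∧
      ∀ l, S.nb l ⊆ S.M.sys.U π → J.RichC s π l
  van : ∀ σ' ∈ J.𝒦, ∀ s ∈ Job.cl σ', ∀ l : S.ls, s (.inl l) = 1 → ∀ w,
    (J.co w s ≠ 0 → TmIn S.X.I ((S.M.sys.w l).sd true) (J.tw w)) ∧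
    ∀ l' ≠ l, J.cc l' w s ≠ 0 → XiIn S.X.I ((S.M.sys.w l).sd true) (J.tc l' w).ξ

end Crest.Agent.X212.Nd18
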