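import Crest.Agent.X212.Cmb96.Toep

/-!
# Row 212 (helper18): counts that factor through finitely many colours
-/

set_option autoImplicit false
noncomputable section
open Set Function

namespace Crest.Agent.X212.Nd18

/-- objects `U` with a left label `m`, a right label `n`, a colour, and the relations
"same left half", "same right half" -/
structure Exch (U C : Type) where
  m : U → ℕ
  n : U → ℕ
  col : U → C
  L : Setoid U
  R : Setoid U
  P : ℕ → ℕ → Prop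
  Lm : ∀ t t', L t t' → m t = m t' ∧ col t = col t'
  Rn : ∀ t t', R t t' → n t = n t' ∧ col t = col t'
  glue : ∀ t t', col t = col t' → P (m t) (n t') → ∃ t'', L t'' t ∧ R t'' t'

namespace Exch
variable {U C : Type} (E : Exch U C)

/-- classes of objects with the labels `a`, `b` -/
abbrev T (a b : ℕ) : Type := Quot fun t t' : {t // E.m t = a ∧ E.n t = b} => E.L t.1 t'.1 ∧ E.R t.1 t'.1

/-- left halves -/
abbrev X (a : ℕ) (c : C) : Type := {l : Quotient E.L // ∃ t, ⟦t⟧ = l ∧ E.m t = a ∧ E.col t = c}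

/-- right halves -/
abbrev Y (b : ℕ) (c : C) : Type := {l : Quotient E.R // ∃ t, ⟦t⟧ = l ∧ E.n t = b ∧ E.col t = c}

/-- the two halves of a class -/
def sp (a b : ℕ) : E.T a b → Σ c, E.X a c × E.Y b c :=
  Quot.lift (fun t => ⟨E.col t.1, ⟨⟦t.1⟧, t.1, rfl, t.2.1, rfl⟩, ⟨⟦t.1⟧, t.1, rfl, t.2.2, rfl⟩⟩)
    fun t t' h => by
      have e := (E.Lm _ _ h.1).2
      refine Sigma.ext e ?_
      have k : ∀ c (_ : c = E.col t'.1) h1 h2,
          HEq ((⟨⟦t.1⟧, h1⟩, ⟨⟦t.1⟧, h2⟩) : E.X a c × E.Y b c)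
          ((⟨⟦t'.1⟧, t'.1, rfl, t'.2.1, rfl⟩, ⟨⟦t'.1⟧, t'.1, rfl, t'.2.2, rfl⟩) :
            E.X a (E.col t'.1) × E.Y b (E.col t'.1)) := by
        rintro _ rfl h1 h2
        exact heq_of_eq (Prod.ext (Subtype.ext (Quotient.sound h.1)) (Subtype.ext (Quotient.sound h.2)))
      exact k _ e _ _

theorem sp_bij {a b : ℕ} (h : E.P a b) : Bijective (E.sp a b) := by
  constructor
  · rintro ⟨t⟩ ⟨t'⟩ e
    have h1 := congrArg (fun s : Σ c, E.X a c × E.Y b c => s.2.1.1) e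
    have h2 := congrArg (fun s : Σ c, E.X a c × E.Y b c => s.2.2.1) e
    exact Quot.sound ⟨Quotient.exact h1, Quotient.exact h2⟩
  · rintro ⟨c, ⟨_, t, rfl, h1, h2⟩, ⟨_, t', rfl, h3, rfl⟩⟩
    obtain ⟨s, k1, k2⟩ := E.glue t t' h2 (h1 ▸ h3 ▸ h)
    refine ⟨Quot.mk _ ⟨s, (E.Lm _ _ k1).1.trans h1, (E.Rn _ _ k2).1.trans h3⟩, ?_⟩
    have e := (E.Rn _ _ k2).2
    refine Sigma.ext e ?_
    have k : ∀ c (_ : c = E.col t') h4 h5, HEq ((⟨⟦s⟧, h4⟩, ⟨⟦s⟧, h5⟩) : E.X a c × E.Y b c)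
        ((⟨⟦t⟧, t, rfl, h1, h2⟩, ⟨⟦t'⟧, t', rfl, h3, rfl⟩) :
          E.X a (E.col t') × E.Y b (E.col t')) := by
      rintro _ rfl h4 h5
      exact heq_of_eq (Prod.ext (Subtype.ext (Quotient.sound k1)) (Subtype.ext (Quotient.sound k2)))
    exact k _ e _ _

theorem card [Fintype C] {a b : ℕ} (h : E.P a b) (hf : Finite (E.T a b)) :
    Nat.card (E.T a b) = ∑ c, Nat.card (E.X a c) * Nat.card (E.Y b c) := by
  let e := Equiv.ofBijective _ (E.sp_bij h)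
  have : Finite (Σ c, E.X a c × E.Y b c) := .of_equiv _ e
  have : ∀ c, Finite (E.X a c × E.Y b c) := fun c =>
    .of_injective _ (sigma_mk_injective (β := fun c => E.X a c × E.Y b c) (i := c))
  rw [Nat.card_congr e, Nat.card_sigma]
  simp only [Nat.card_prod]

/-- **Finite rank.** -/
theorem rank [Fintype C] {R j₀ : ℕ} {p : ℕ → ZMod 2} (h0 : p j₀ ≠ 0) (h1 : ∀ j, j₀ < j → p j = 0)
    (h : ∀ r s, s ≤ r → r ≤ R → E.P (j₀ + r) s ∧ Finite (E.T (j₀ + r) s) ∧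
      (Nat.card (E.T (j₀ + r) s) : ZMod 2) = p (j₀ + r - s)) : R + 1 ≤ Fintype.card C :=
  Cmb96.toeplitz R j₀ p (fun a c => (Nat.card (E.X a c) : ZMod 2))
    (fun b c => (Nat.card (E.Y b c) : ZMod 2)) h0 h1 fun r s h2 h3 => by
      obtain ⟨k1, k2, k3⟩ := h r s h2 h3
      rw [← k3, E.card k1 k2]
      push_cast
      rfl

end Exch

end Crest.Agent.X212.Nd18
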