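import Crest.Agent.X212.Ins26.Main
import Crest.Agent.X212.G75.Tm
import Crest.Agent.X212.Nd18.Exch
import Crest.Agent.X212.Wrd81.Pw

/-!
# Row 212, FACT (helper18): the prisms that stretch the neck `a`.  Definitions and leaves.

`F.J c d i m k` is the job of the line `i` for the entry `(m, k)`: `z ∈ ℂ^(m - k + 1 + n)`, `n` rows.
On the face where `a` is broken its terms are those of `F.JL c i m` (left, `z ∈ ℂ^(m + 1)`), of
`F.JR c i k` (right, `k` rows) and the dead pairs.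
-/

set_option autoImplicit false
set_option linter.unusedSectionVars false
noncomputable section
open scoped Manifold ContDiff Topology
open Set Function Filter Classical

namespace Crest.Agent.X212.An
variable {M lam : Type} {r r' n n' : ℕ} (f : Fin r → Fin r') (g : Fin n → Fin n')

/-- renaming of the coordinates of `z` -/
def Co.mp : Co M lam r → Co M lam r'
  | .z i => .z (f i)
  | .s a L => .s a L

/-- renaming of the coordinates of `z` and of the rows -/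
def Tm.mp : Tm M lam r n → Tm M lam r' n'
  | .lin u => .lin u
  | .anti d s u => .anti (d.mp f) s u
  | .ad a b ξ => .ad a b ξ
  | .adj d s a b u v l => .adj (d.mp f) s a b u v l
  | .adn a b e φ L => .adn a b e φ L
  | .cut i w a => .cut (g i) w a
  | .cz i w k => .cz (g i) w (f k)

/-- renaming of the coordinates of `z` -/
def Xi.mp : Xi M lam r → Xi M lam r'
  | .one => .one
  | .aw ξ => .aw ξ
  | .qj d s u v l => .qj (d.mp f) s u v l

end Crest.Agent.X212.An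

namespace Crest.Agent.X212.Nd18
open An M G75 Jb7 Ins26 Wrd81
open An.Job (Sol)
open Br55 (CN)

/-! ### terms, casts, richness -/

section tr
variable {W X lam h A' : Type} {r r' n n' : ℕ}

variable (W) in
/-- zero terms -/
def trZ : Tr W X lam h A' r n := ⟨fun _ => z0, 0, fun _ _ => c0, 0⟩

/-- renaming -/
def trM (f : Fin r → Fin r') (g : Fin n → Fin n') (t : Tr W X lam h A' r n) :
    Tr W X lam h A' r' n' :=
  ⟨fun w => (t.tw w).mp f g, t.co, fun i w => ⟨(t.tc i w).m, (t.tc i w).n, (t.tc i w).w,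
    (t.tc i w).ξ.mp f⟩, t.cc⟩

/-- the dead pairs: the row `ρ ≥ k` kills the coordinate `j + ρ` -/
def trD (j n k : ℕ) (χ : (A' → ℝ) → ℝ) : Tr (Fin n) X lam h A' (j + n) n :=
  ⟨fun ρ => .cz ρ 1 (Fin.natAdd j ρ), fun ρ s => if k ≤ ρ then χ s else 0, fun _ _ => c0, 0⟩

end tr

section job
variable {Wi : Type} {X : Mf 4} {A κ lam : Type} [Fintype A] [Fintype κ] [Fintype lam]
  [DecidableEq lam] {M : Mark X A κ} {W : World M} {N : ML M lam} {Λ : Lns W N}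
  {A' h : Type} [Fintype A'] [DecidableEq A'] [Fintype h] {r n : ℕ}

/-- transport of configurations along an equation of cross-sections -/
def cv {S S' : Xs Wi κ lam} (e : S = S') (β : YC S.Y.M κ (lam ⊕ lam)) : YC S'.Y.M κ (lam ⊕ lam) :=
  e ▸ β

/-- terms of a cut with the coefficient `d` and all other data in `Ω` -/
def XiX (Ω : Set X.M) (d : Co X.M lam r) : Xi X.M lam r → Prop
  | .qj d' s u v l => d' = d ∧ Tv X.I Ω s ∧ SwIn X.I Ω u ∧ SwIn X.I Ω v ∧ LlIn X.I Ω l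
  | ξ => XiIn X.I Ω ξ

variable (J : Job Wi Λ A' h r n)

/-- what replaces `Job.Loc` -/
structure LocP (sh : Set A') : Prop where
  pok : ∀ σ ∈ J.𝒦, ∀ (c : M.Cl) P P' H, (∀ π ∈ P, M.sys.Piece c.1 π) → P' ⊆ P →
    J.POK σ c (J.prt sh σ c P P' H)
  bas : ∀ w, Bas (J.tw w)
  nb : ∀ i, IsPreconnected (J.nb i)

/-- all terms in `π` and all rows whose coefficient is a density in `π'` -/
structure RichX (s : A' → ℝ) (π π' : Reg A) : Prop where
  p : ∀ g, SgIn X.I (M.sys.U π') g → RichP X.I (M.sys.U π) (.s g []) (J.HasT s)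
  row : ∀ g, SgIn X.I (M.sys.U π') g → ∀ i a, J.HasT s (.cut i a g)
  cut : ∀ g, SgIn X.I (M.sys.U π') g → ∀ i, J.nb i ⊆ M.sys.U π →
    ∀ t : Tc X.M (lam ⊕ lam) r, XiX (M.sys.U π) (.s g []) t.ξ → ∃ w, J.tc i w = t ∧
      J.cc i w s ≠ 0 ∧ J.co w s = 0 ∧ (∀ i', i' ≠ i → J.cc i' w s = 0) ∧ J.Nn w s

end job

/-! ### prisms -/

/-- `0` for `u ≤ T`, `1` for `(1 + T) / 2 ≤ u` -/
def swp (T u : ℝ) : ℝ := Real.smoothTransition ((u - T) / ((1 - T) / 2))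

/-- `T` for `u ≤ T`, `u` for `(1 + T) / 2 ≤ u` -/
def tpp (T u : ℝ) : ℝ := T + swp T u * (u - T)

variable {κ lam : Type} [Fintype κ] [Fintype lam] [DecidableEq lam] {Lm : LM κ lam}

/-- the cross-section -/
abbrev yY (y : G75.YD κ lam) : Mf 3 := (y.M.bn y.a).Y

/-- its background -/
abbrev yD (y : G75.YD κ lam) : YD (yY y).I (yY y).M κ (lam ⊕ lam) := (y.N.cy y.a).yd

/-- the neck words -/
abbrev yW (y : G75.YD κ lam) : Type := YW (yY y).I (yY y).M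

variable {y : G75.YD κ lam} {S : Scene Lm}

/-- families of terms over the scene -/
abbrev TrS (S : Scene Lm) (W : Type) (r n : ℕ) : Type :=
  Tr W S.X.M (lam ⊕ lam) S.ls (S.A ⊕ Unit) r n

/-- the cells of the prism over the faces of `c i` -/
def cls (c : Cn S.L S.A) (i : S.L) : Set (Cel (S.A ⊕ Unit)) :=
  {σ' | ∃ τ o σ, σ' = cel τ o ∧ o ≠ some true ∧ c i σ ≠ 0 ∧ τ ⊆ σ}

/-- the shared coordinates -/
def shS (S : Scene Lm) : Set (S.A ⊕ Unit) := {a | ∀ x ∈ hard S ∅, a ≠ .inl x}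

/-- the face where only `a` is broken -/
def cA (t : TD y S) : S.M.Cl := ⟨{x | some t.a = some x}, fun x hx _ hz hn =>
  (hn (Option.some.inj ((show some t.a = some x from hx).symm.trans hz))).elim⟩

/-- the pieces on the side `b` of `a` -/
def sdP (t : TD y S) (e : S.M.Cl) (b : Bool) : Set (Reg S.A) :=
  {π | S.M.sys.Piece e.1 π ∧ S.M.sys.U π ⊆ (S.M.sys.w t.a).sd b}

/-- **prisms** -/
structure Pr (t : TD y S) (N : ND (yY y).M (lam ⊕ lam)) (n : ℕ) (D : S.Dat) : Type 1 where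
  T : ℝ
  m : S.M.Cl
  W₀ : Type
  WL : Type
  WR : Type
  g : (yY y).M ≃ₘ^∞⟮(yY y).I, (S.M.bn t.a).Y.I⟯ (S.M.bn t.a).Y.M
  ok : N.OK (yD y)
  iso : ∀ i, Cy.Iso (y.N.cy y.a) ((S.N i).cy t.a) g
  t₀ : S.L → ∀ (m : ℕ) (k : Fin (n + 1)), TrS S W₀ (m - k + 1 + n) n
  tL : ∀ m : ℕ, TrS S WL (m + 1) 0
  tR : S.L → ∀ k : ℕ, TrS S WR 0 k

namespace Pr
variable {t : TD y S} {N : ND (yY y).M (lam ⊕ lam)} {n : ℕ} {D : S.Dat} (F : Pr t N n D)

/-- the indices -/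
abbrev Wi : Type := F.W₀ ⊕ F.WL ⊕ F.WR ⊕ Fin n ⊕ yW y

/-- the index of a dead pair -/
abbrev wD (ρ : Fin n) : F.Wi := .inr (.inr (.inr (.inl ρ)))

/-- the indices of the neck words -/
def wN : yW y ↪ F.Wi := ⟨fun T => .inr (.inr (.inr (.inr T))), fun _ _ e => by simpa using e⟩

/-- the cross-section of `a` -/
@[reducible] def x0 : Xs F.Wi κ lam := ⟨yY y, y.N.cy y.a, N,
  Sum.elim 0 (Sum.elim 0 (Sum.elim 0 (Sum.elim 0 fun T => Finsupp.single T 1)))⟩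

/-- all cross-sections -/
def xg (i : S.L) : Ink3.XG F.Wi (S.N i) := (Ink3.xg0 F.Wi (S.N i)).upd t.a
  ⟨F.x0, F.g, ⟨y.N.cy_ok y.a, F.ok⟩, fun _ => F.iso i⟩

theorem xs_a (i : S.L) : (F.xg i).xs t.a = F.x0 := congrArg Ink3.XG1.xs (Ink3.XG.upd_self _ _ _)

theorem xs_ne (i : S.L) {x : S.A} (h : x ≠ t.a) : (F.xg i).xs x = Ink3.xs0 F.Wi (S.N i) x :=
  congrArg Ink3.XG1.xs (Ink3.XG.upd_ne _ _ h)

/-- the parameters -/
def Θ (s : S.A ⊕ Unit → ℝ) : Prm S.A :=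
  (0, update (thS (hard S ∅) ↑S.fz (fun _ _ => F.T) s) t.a (tpp F.T (s (.inr ()))))

variable (c : Cn S.L S.A) (d : ℕ) (i : S.L)

/-- the job with the terms `τ` -/
@[reducible] def jb (k : ℝ) {r n' : ℕ} (τ : TrS S F.Wi r n') :
    Job F.Wi (D.Λ i) (S.A ⊕ Unit) S.ls r n' where
  m := F.m
  𝒦 := cls c i
  hd := Sum.elim (fun a => if a ∈ hard S ∅ then some a else none) fun _ => some t.a
  Θ := F.Θ
  k := k
  tw := τ.tw
  co := τ.co
  ct := S.ct i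
  nb := S.nb
  tc := τ.tc
  cc := τ.cc
  xs := (F.xg i).xs
  g := (F.xg i).g
  ν x s := if x = t.a then swp F.T (s (.inr ())) else if x ∈ F.m.1 then swc ((F.Θ s).2 x) else 0
  K := (F.xg i).K (D.Λ i) F.m

/-- the live coordinates of `z` -/
def eL (m : ℕ) (k : Fin (n + 1)) : Fin (m + 1) → Fin (m - k + 1 + n) := Fin.castLE (by omega)

/-- the live rows -/
def eR (k : Fin (n + 1)) : Fin k → Fin n := Fin.castLE k.is_le

/-- the terms of an entry -/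
def tt (m : ℕ) (k : Fin (n + 1)) : TrS S F.Wi (m - k + 1 + n) n :=
  (F.t₀ i m k).sum ((trM (eL m k) Fin.elim0 (F.tL m)).sum ((trM Fin.elim0 (eR k) (F.tR i k)).sum
    ((trD (m - k + 1) n k fun s => swp F.T (s (.inr ()))).sum (trZ _))))

/-- **the job of an entry** -/
abbrev J (m : ℕ) (k : Fin (n + 1)) := F.jb c i (kz S i (m - k) (-d)) (F.tt i m k)

/-- the left job -/
abbrev JL (m : ℕ) := F.jb c i 0 ((trZ _).sum ((F.tL m).sum (trZ _)))

/-- the right job -/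
abbrev JR (k : ℕ) := F.jb c i 0 ((trZ _).sum ((trZ _).sum ((F.tR i k).sum (trZ _))))

/-- parameters at which `a` is broken -/
def Fc (σ : Finset S.A) (s : S.A ⊕ Unit → ℝ) : Prop := s ∈ Job.cl (cel σ none) ∧ s (.inr ()) = 1

/-- **the class of prisms** -/
structure OK (T₀ : ℝ) : Prop where
  T : T₀ ≤ F.T ∧ 3 / 4 ≤ F.T ∧ F.T < 1
  mem : ↑(S.fz ∪ S.ls) ⊆ F.m.1
  J : ∀ i, c i ≠ 0 → ∀ m k, (F.J c d i m k).OK ∧ LocP (F.J c d i m k) (shS S)
  L : ∀ i, c i ≠ 0 → ∀ m, (F.JL c i m).OK ∧ LocP (F.JL c i m) (shS S)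
  R : ∀ i, c i ≠ 0 → ∀ k, (F.JR c i k).OK ∧ LocP (F.JR c i k) (shS S)
  rich : ∀ i σ m k, c i σ ≠ 0 → ∀ s ∈ Job.cl (cel σ none), s (.inr ()) < 1 →
    (F.J c d i m k).RichS s ∧ ∀ π, S.M.sys.Piece (Sys.inf (F.Θ s).2) π →
      ((∀ l ∈ S.ls, π l ≠ some false) → (F.J c d i m k).RichT s π) ∧
      ∀ l, S.nb l ⊆ S.M.sys.U π → (F.J c d i m k).RichC s π l
  van : ∀ i σ m k, c i σ ≠ 0 → ∀ s ∈ Job.cl (cel σ none), ∀ l : S.ls, s (.inl l) = 1 → ∀ w,
    ((F.tt i m k).co w s ≠ 0 → TmIn S.X.I ((S.M.sys.w l).sd true) ((F.tt i m k).tw w)) ∧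
    ∀ l' ≠ l, (F.tt i m k).cc l' w s ≠ 0 →
      XiIn S.X.I ((S.M.sys.w l).sd true) ((F.tt i m k).tc l' w).ξ
  twin : ∀ i σ m k, c i σ ≠ 0 → ∀ s ∈ Job.cl (cel σ none), ∀ l : S.ls, s (.inl l) = 1 → ∀ w,
    ((F.tt (S.fl l i) m k).co w s = (F.tt i m k).co w s ∧
      ((F.tt i m k).co w s ≠ 0 → (F.tt (S.fl l i) m k).tw w = (F.tt i m k).tw w)) ∧
    ∀ l' ≠ l, (F.tt (S.fl l i) m k).cc l' w s = (F.tt i m k).cc l' w s ∧
      ((F.tt i m k).cc l' w s ≠ 0 → (F.tt (S.fl l i) m k).tc l' w = (F.tt i m k).tc l' w)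
  off : ∀ i m k w s, s (.inr ()) = 1 → (F.t₀ i m k).co w s = 0 ∧ ∀ l, (F.t₀ i m k).cc l w s = 0
  supL : ∀ m w, TmIn S.X.I ((S.M.sys.w t.a).sd false) ((F.tL m).tw w) ∧ ∀ l, (F.tL m).cc l w = 0
  supR : ∀ i k w, TmIn S.X.I ((S.M.sys.w t.a).sd true) ((F.tR i k).tw w) ∧
    ∀ l, XiIn S.X.I ((S.M.sys.w t.a).sd true) ((F.tR i k).tc l w).ξ
  locL : ∀ m w i σ i' σ' s s', c i σ ≠ 0 → c i' σ' ≠ 0 → Fc σ s → Fc σ' s' →
    (∀ x, t.Sd false x → s (.inl x) = s' (.inl x)) → (F.tL m).co w s = (F.tL m).co w s'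
  locR : ∀ k w i σ σ' s s', c i σ ≠ 0 → c i σ' ≠ 0 → Fc σ s → Fc σ' s' →
    (∀ x, t.Sd true x → s (.inl x) = s' (.inl x)) →
    (F.tR i k).co w s = (F.tR i k).co w s' ∧ ∀ l, (F.tR i k).cc l w s = (F.tR i k).cc l w s'
  richL : ∀ i σ m s, c i σ ≠ 0 → Fc σ s → ∀ e : S.M.Cl, Sys.inf (F.Θ s).2 = e.1 →
    ∀ π ∈ sdP t e false, (F.JL c i m).RichT s π
  richR : ∀ i σ k s, c i σ ≠ 0 → Fc σ s → ∀ e : S.M.Cl, Sys.inf (F.Θ s).2 = e.1 →
    ∀ π ∈ sdP t e true, (∀ l, S.nb l ⊆ S.M.sys.U π → (F.JR c i k).RichC s π l) ∧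
      ((∀ l ∈ S.ls, π l ≠ some false) → (F.JR c i k).RichT s π ∧
        ∀ π' ∈ sdP t e true, (∀ l ∈ S.ls, π' l ≠ some false) → RichX (F.JR c i k) s π π')
  gj : ∀ q, t.IH.ψ ((y.M.bn y.a).j q) = (S.M.bn t.a).j (F.g q.1, q.2)

variable {F c d i} in
theorem OK.mono {T T' : ℝ} (h : F.OK c d T) (k : T' ≤ T) : F.OK c d T' :=
  { h with T := ⟨k.trans h.T.1, h.T.2⟩ }

variable (C : N.CD (yD y)) (lv : C.C → ℝ) (m : ℕ) (k : Fin (n + 1))

variable {F c d i m k} in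
/-- the type of a face object: a free limit, and the level of the left part -/
def Fp (σ : Finset S.A) (x : (F.J c d i m k).Obc (cA t)) : Prop :=
  ∃ o : C.C, (yD y).Eqv (cv (F.xs_a i) (x.β t.a false)) (C.β o) ∧ ¬C.fx o ∧
    6 * x.kap (D.W.un (cA t) (sdP t (cA t) false)) + 2 * m + (t.sd false σ).card = lv o

/-- all face objects have a type -/
def FpA (q : F.Wi →₀ ℝ) : Prop := ∀ i σ, c i σ ≠ 0 → ∀ x : (F.J c d i m k).Obc (cA t),
  Sol (cel σ none) q x → x.Tight → Fp C lv σ x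

/-- generic small perturbations are good -/
def KitAt : Prop := (∀ i, c i ≠ 0 → GV fun q =>
  ∃ K : (F.J c d i m k).Kit, K.Ax ∧ K.GG q ∧ K.n₀ = -d) ∧ GV (F.FpA c d C lv m k)

/-- the faces at lens walls cancel -/
def LensAt : Prop := ∀ i (l : S.ls) σ, c i σ ≠ 0 → l.1 ∈ σ → GV fun q =>
  ((F.J c d i m k).zf q (cel σ none) (.inl l) : ZMod 2) =
    (F.J c d (S.fl l i) m k).zf q (cel σ none) (.inl l)

/-- the classes of face objects -/
abbrev Fcl (q : F.Wi →₀ ℝ) : Type := Σ x : {x : S.L × Finset S.A // c x.1 x.2 ≠ 0},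
  Quot fun z z' : (F.J c d x.1.1 m k).TS (cel x.1.2 none) q (cA t) => Job.Iso z.1 z'.1

end Pr

/-! ### the leaves -/

variable (Lm)

/-- **LEAF F-EX**: prisms exist; their faces `s = 0` correspond to families of the class -/
def ExP : Prop := ∀ (y : G75.YD κ lam) (S : Scene Lm) (t : TD y S) N n D R d c, y.OK → N.OK (yD y) →
  t.OK R c → CN S d c → ∀ T < (1 : ℝ), ∃ F : Pr t N n D, F.OK c d T ∧ ∀ m (k : Fin (n + 1)),
    ∃ (F₀ : Fam S (m - k) n) (e : F₀.Wi ↪ F.Wi), F₀.OK T ∧ F₀.n₀ = -d ∧ F₀.Sub c (some false) ∧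
      ∀ i σ, c i σ ≠ 0 → Cor (F₀.job i) (cel σ (some false)) (F.J c d i m k) (cel σ (some false)) e

/-- **LEAF F-KL**: kits, types of the faces, lens faces -/
def KlP : Prop := ∀ y : G75.YD κ lam, y.OK → ∃ R : ℕ, ∀ (S : Scene Lm) (t : TD y S) d c,
  t.OK R c → t.NA c → CN S d c → c ≠ 0 → ∃ (N : ND (yY y).M (lam ⊕ lam)) (C : N.CD (yD y)),
    N.OK (yD y) ∧ ∃ D lv, ∀ n m (k : Fin (n + 1)), ↑k ≤ m → ↑k ≤ Fintype.card C.C →
      ∀ᶠ T in 𝓝[<] (1 : ℝ), ∀ F : Pr t N n D, F.OK c d T → F.KitAt c d C lv m k ∧ F.LensAt c d m k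

/-- **LEAF F-EXC**: the halves of face objects can be exchanged -/
def ExcP : Prop := ∀ (y : G75.YD κ lam) (S : Scene Lm) (t : TD y S) N n D (F : Pr t N n D)
  (C : N.CD (yD y)) lv R d c T (E : Set (ℕ × Fin (n + 1))) q, y.OK → t.OK R c → CN S d c →
  F.OK c d T → (∀ ρ, q (F.wD ρ) ≠ 0) → (∀ e ∈ E, ↑e.2 ≤ e.1 ∧ F.FpA c d C lv e.1 e.2 q) →
  ∃ (U : Type) (X : Exch U C.C), ∀ e ∈ E,
    X.P e.1 e.2 ∧ Nonempty (X.T e.1 e.2 ≃ F.Fcl c d e.1 e.2 q)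

/-- **LEAF F-EB**: no solutions at very negative levels -/
def EbP : Prop := ∀ (S : Scene Lm) n d c, CN S d c → ∀ᶠ j in atTop, ZN S j n d c = 0

end Crest.Agent.X212.Nd18
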