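import Crest.Agent.X212.Nd18.Props
import Crest.Agent.X212.An.Asm
import Crest.Agent.X212.Mod61.Fmt

/-!
# Row 212, MS (helper18): bad trajectories are killed by a small perturbation `q2`
-/

set_option autoImplicit false
set_option linter.unusedSectionVars false
noncomputable section
open scoped Manifold ContDiff Topology InnerProductSpace
open MeasureTheory Set Function Filter

namespace Crest.Agent.X212.Nd18
open An Cyf70 Dgr80 Mod61

/-! ### small perturbations -/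

section small
variable {W : Type}

/-- `∑ |q w| sz w < 1` -/
def Sml (sz : W → ℝ) (q : W →₀ ℝ) : Prop := (q.sum fun w a => |a| * sz w) < 1

theorem sml_zero (sz : W → ℝ) : Sml sz 0 := by simp [Sml]

theorem tendsto_sum {ι : Type} {l : Filter ι} {q : ι → W →₀ ℝ} {q₀ : W →₀ ℝ} (h : St.Cv l q q₀)
    {f : W → ℝ → ℝ} (h0 : ∀ w, f w 0 = 0) (hc : ∀ w, Continuous (f w)) :
    Tendsto (fun i => (q i).sum f) l (𝓝 (q₀.sum f)) := by
  classical
  obtain ⟨J, h1, h2⟩ := h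
  have e : ∀ p : W →₀ ℝ, (∀ w ∉ J, p w = q₀ w) → p.sum f = ∑ w ∈ J ∪ q₀.support, f w (p w) :=
    fun p hp => Finsupp.sum_of_support_subset _ (fun w hw => by
      by_cases hJ : w ∈ J
      · exact Finset.mem_union_left _ hJ
      · exact Finset.mem_union_right _ (by rwa [Finsupp.mem_support_iff, ← hp w hJ,
          ← Finsupp.mem_support_iff])) _ fun w _ => h0 w
  simp only [e q₀ fun _ _ => rfl, fun i => e (q i) (h1 i)]
  exact tendsto_finsetSum _ fun w _ => ((hc w).tendsto _).comp (h2 w)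

theorem isOp_sml (sz : W → ℝ) : St.IsOp (Sml sz) := fun _ h _ _ _ hq =>
  (tendsto_sum hq (f := fun w a => |a| * sz w) (fun _ => by simp) fun _ => by fun_prop).eventually
    (Iio_mem_nhds h)

theorem Sml.mono {sz sz' : W → ℝ} {q : W →₀ ℝ} (h : Sml sz' q) (e : ∀ w, sz w ≤ sz' w) : Sml sz q :=
  (Finset.sum_le_sum fun w _ => mul_le_mul_of_nonneg_left (e w) (abs_nonneg _)).trans_lt h

theorem cv_some {ι : Type} {l : Filter ι} {q : ι → Option W →₀ ℝ} {q₀ : Option W →₀ ℝ}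
    (h : St.Cv l q q₀) : St.Cv l (fun i => (q i).some) q₀.some := by
  classical
  obtain ⟨J, h1, h2⟩ := h
  exact ⟨J.preimage some (Option.some_injective _).injOn,
    fun i w hw => h1 i (some w) (by simpa using hw), fun w => h2 (some w)⟩

theorem isOp_some {O : (W →₀ ℝ) → Prop} (h : St.IsOp O) :
    St.IsOp fun q : Option W →₀ ℝ => O q.some := fun _ h0 ι l _ hq => h _ h0 ι l _ (cv_some hq)

/-- admissible perturbations of the trajectory problems -/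
def MAdm (sz : W → ℝ) (q : Option W →₀ ℝ) : Prop := Sml sz q.some ∧ |q none| < 1

theorem isOp_mAdm (sz : W → ℝ) : St.IsOp (MAdm sz) := (isOp_some (isOp_sml sz)).and
  fun _ h _ _ _ hq => ((hq.choose_spec.2 none).abs).eventually (Iio_mem_nhds h)

end small

variable {E3 : Type} [NormedAddCommGroup E3] [NormedSpace ℝ E3] [FiniteDimensional ℝ E3]
  [MeasurableSpace E3] [BorelSpace E3]
  {H3 : Type} [TopologicalSpace H3] {I3 : ModelWithCorners ℝ E3 H3} [I3.Boundaryless]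
  {Y : Type} [TopologicalSpace Y] [ChartedSpace H3 Y] [IsManifold I3 ∞ Y] [T2Space Y]
  [MeasurableSpace Y] [BorelSpace Y] [SecondCountableTopology Y] [CompactSpace Y]
  {κ : Type} [Fintype κ] {lam : Type} [Fintype lam]

/-! ### the row that fixes the translations -/

namespace ND
variable (N : ND Y lam) (D : YD I3 Y κ lam)

/-- the total smoothed energy -/
def ewT (c : Cfg (Y × ℝ) (Option κ) lam 0) : ℝ := ∫ x, N.ew D.nk c x ∂D.Z.μ

/-- its centre -/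
def ewC (c : Cfg (Y × ℝ) (Option κ) lam 0) : ℝ :=
  ∫ x, x.2 / √(1 + x.2 ^ 2) * N.ew D.nk c x ∂D.Z.μ

/-- the terms of the trajectory problems; the row is `ewC c - q none * ewT c` -/
def mT : Option (YW I3 Y) → PtX (Y × ℝ) (Option κ) lam 0 0 1
  | none => ⟨⟨fun _ _ => 0, fun _ _ => 0, fun _ _ => 0⟩, fun c _ => N.ewT D c⟩
  | some T => ⟨N.q2 D.nk T.1, fun _ _ => 0⟩

end ND

namespace ND.CD
variable {N : ND Y lam} {D : YD I3 Y κ lam} (S : N.CD D) (Γ : Gr S.C)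

/-- chains all of whose trajectories have the property `p` -/
inductive ChP (q : YW I3 Y →₀ ℝ) (p : Cfg (Y × ℝ) (Option κ) lam 0 → Prop) :
    S.C → Circle → S.C → Circle → ℝ → ℕ → Prop
  | nil (i ζ) : ChP q p i ζ i ζ 0 0
  | bub {i ζ i' ζ' k j} : ChP q p i ζ i' ζ' k j → ChP q p i ζ i' ζ' (k + 1) (j + 1)
  | mov {i ζ i' ζ' i'' ζ'' k j} (c) : N.Traj D q c (S.β i) (S.β i') ζ ζ' → D.Moves c → p c →
      ChP q p i' ζ' i'' ζ'' k j → ChP q p i ζ i'' ζ'' (c.kap D.B D.G + k) (j + 1)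

theorem ChP.chn {q p i ζ i' ζ' k j} (h : S.ChP q p i ζ i' ζ' k j) : S.Chn q i ζ i' ζ' k j := by
  induction h with
  | nil i ζ => exact .nil _ _
  | bub _ ih => exact .bub ih
  | mov c h1 h2 _ _ ih => exact .mov c h1 h2 ih

/-- LEAF EN (80): moving trajectories have positive energy -/
def Pos (q : YW I3 Y →₀ ℝ) : Prop := ∀ i j c ζ ζ', N.Traj D q c (S.β i) (S.β j) ζ ζ' →
  D.Moves c → 0 < N.tE D c (S.β i) (S.β j)

/-- LEAF TYP: the limits of fixed trajectories -/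
def Typ (q : YW I3 Y →₀ ℝ) : Prop := ∀ i j c ζ ζ', N.Traj D q c (S.β i) (S.β j) ζ ζ' →
  Fix D.Z c univ → S.fx i ∧ S.fx j ∧ (D.Zr (S.β i) ↔ Zr c univ) ∧ (D.Zr (S.β j) ↔ Zr c univ)

/-- the energy of the type `(i, j, n)` -/
def lE (i j : S.C) (n : ℤ) : ℝ := S.en Γ j - S.en Γ i + n

/-- bad types; `true` = free, `false` = type I -/
def Bad (i j : S.C) (n : ℤ) : Bool → Prop
  | true => ¬Γ.hp j - Γ.h S.fx i ≤ Γ.g j - Γ.g i + 6 * n
  | false => Γ.d j - Γ.d i + 8 * n < 0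

/-- the type of a trajectory -/
def Ty (_ : N.CD D) (c : Cfg (Y × ℝ) (Option κ) lam 0) : Bool → Prop
  | true => ¬Fix D.Z c univ
  | false => Zr c univ

/-- the trajectory problems -/
structure MsD : Type 1 where
  sz : YW I3 Y → ℝ
  P : S.C → S.C → ℤ → Bool → Prob (Option (YW I3 Y))
  /-- the trajectory of an object -/
  cf : ∀ {i j n b}, (P i j n b).X → Cfg (Y × ℝ) (Option κ) lam 0
  /-- the relative phase lies in a compact interval -/
  Cp : ∀ {i j n b}, (P i j n b).X → Prop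

namespace MsD
variable {S} (A : S.MsD)

open Classical in
structure Ax : Prop where
  lev : ∀ q, Sml A.sz q → S.Lev Γ q
  pos : ∀ q, Sml A.sz q → S.Pos q
  typ : ∀ q, Sml A.sz q → S.Typ q
  ax : ∀ i j n b, (A.P i j n b).Ax (MAdm A.sz)
  nF : ∀ i j n, (A.P i j n true).n = Γ.g j - Γ.g i + 6 * n - if S.fx i then 0 else 1
  nI : ∀ i j n, (A.P i j n false).n = Γ.d j - Γ.d i + 8 * n
  real : ∀ i j (n : ℤ) b q c ζ ζ', MAdm A.sz q → N.Traj D q.some c (S.β i) (S.β j) ζ ζ' →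
    D.Moves c → c.kap D.B D.G = Γ.k j - Γ.k i + n → S.Ty c b →
    ∃ x : (A.P i j n b).X, (A.P i j n b).Sol q x ∧ A.Cp x ∧ D.Moves (A.cf x) ∧ S.Ty (A.cf x) b
  traj : ∀ i j (n : ℤ) b q (x : (A.P i j n b).X), MAdm A.sz q → (A.P i j n b).Sol q x →
    (∃ ζ ζ', N.Traj D q.some (A.cf x) (S.β i) (S.β j) ζ ζ') ∧
      (A.cf x).kap D.B D.G = Γ.k j - Γ.k i + n ∧ (b = false → Zr (A.cf x) univ)
  dens : ∀ i j n b q (x : (A.P i j n b).X), MAdm A.sz q → (A.P i j n b).Sol q x →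
    D.Moves (A.cf x) → S.Ty (A.cf x) b → ∃ J, (A.P i j n b).Onto q x J
  comp : ∀ i j (n : ℤ) b q₀, MAdm A.sz q₀ → ∀ (ι : Type) (𝒰 : Ultrafilter ι)
    (q : ι → Option (YW I3 Y) →₀ ℝ) (u : ι → (A.P i j n b).X), St.Cv (𝒰 : Filter ι) q q₀ →
    (∀ᶠ m in (𝒰 : Filter ι), MAdm A.sz (q m) ∧ (A.P i j n b).Sol (q m) (u m) ∧ A.Cp (u m) ∧
      D.Moves (A.cf (u m))) →
    (∃ x₀, (A.P i j n b).Sol q₀ x₀ ∧ A.Cp x₀ ∧ D.Moves (A.cf x₀) ∧
      Tendsto u 𝒰 ((A.P i j n b).Near x₀)) ∨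
    ∃ ζ ζ' l, S.ChP q₀.some (fun c => b = false → Zr c univ) i ζ j ζ' (Γ.k j - Γ.k i + n) l ∧
      (l = 1 → i = j ∧ n = 1)

end MsD

variable {S Γ} {q : YW I3 Y →₀ ℝ}

theorem tE_eq {i j : S.C} {n : ℤ} {c : Cfg (Y × ℝ) (Option κ) lam 0}
    (h : c.kap D.B D.G = Γ.k j - Γ.k i + n) : N.tE D c (S.β i) (S.β j) = S.lE Γ i j n := by
  rw [tE, h, lE, en, en]; ring

theorem zr_fix {c : Cfg (Y × ℝ) (Option κ) lam 0} (h : Zr c univ) : Fix D.Z c univ :=
  ⟨0, ⟨contMDiffOn_const, fun _ _ => zero_mem _, fun a x _ => by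
    simp [Wz78.nab, Sob92.dv_zero]⟩, fun x hx => by simp [h x hx]⟩

/-- a bad moving trajectory is free or of type I with negative index -/
theorem bad_ty {cI : ℤ} (hI : S.RuleI Γ cI) (hS : S.RuleS Γ) (hp : S.Pos q) (ht : S.Typ q)
    {i j c ζ ζ'} {n : ℤ} (h : N.Traj D q c (S.β i) (S.β j) ζ ζ') (hm : D.Moves c)
    (hk : c.kap D.B D.G = Γ.k j - Γ.k i + n) (hb : S.Bad Γ i j n true) :
    ∃ b, S.Bad Γ i j n b ∧ S.Ty c b := by
  by_cases hf : Fix D.Z c univ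
  · obtain ⟨h1, h2, h3, h4⟩ := ht i j c ζ ζ' h hf
    by_cases hz : Zr c univ
    · refine ⟨false, not_le.1 fun e => hb (Γ.good_fix S.fx h1 ?_), hz⟩
      rw [hI i (h3.2 hz), hI j (h4.2 hz)]; omega
    · refine (hb (Γ.good_fix S.fx h1 ?_)).elim
      have h5 := hp i j c ζ ζ' h hm
      rw [tE_eq hk, lE] at h5
      rw [hS i h1 (mt h3.1 hz), hS j h2 (mt h4.1 hz), ← Int.floor_add_intCast]
      exact Int.floor_le_floor (by push_cast; linarith)
  · exact ⟨true, hb, hf⟩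

theorem ChP.zero {p i ζ i' ζ' k} (h : S.ChP q p i ζ i' ζ' k 0) : i = i' ∧ ζ = ζ' ∧ k = 0 :=
  (h.chn S).zero

/-- the energy of a chain -/
theorem ChP.en (hp : S.Pos q) {p i ζ i' ζ' k l} (h : S.ChP q p i ζ i' ζ' k l) :
    0 ≤ k + (N.lv D (S.β i) - N.lv D (S.β i')) / (8 * Real.pi ^ 2) ∧
      (l ≠ 0 → 0 < k + (N.lv D (S.β i) - N.lv D (S.β i')) / (8 * Real.pi ^ 2)) := by
  induction h with
  | nil i ζ => simp
  | bub _ ih => exact ⟨by linarith [ih.1], fun _ => by linarith [ih.1]⟩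
  | @mov i ζ i' ζ' i'' ζ'' k j c h1 h2 _ _ ih =>
    have h3 := hp _ _ c _ _ h1 h2
    have e : c.kap D.B D.G + k + (N.lv D (S.β i) - N.lv D (S.β i'')) / (8 * Real.pi ^ 2) =
        N.tE D c (S.β i) (S.β i') +
          (k + (N.lv D (S.β i') - N.lv D (S.β i'')) / (8 * Real.pi ^ 2)) := by rw [tE]; ring
    rw [e]
    exact ⟨by linarith [ih.1], fun _ => by linarith [ih.1]⟩

/-- a member of a chain -/
structure Mem (q : YW I3 Y →₀ ℝ) (p : Cfg (Y × ℝ) (Option κ) lam 0 → Prop) (b : Bool) (e : ℝ)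
    (i j : S.C) (n : ℤ) (c : Cfg (Y × ℝ) (Option κ) lam 0) : Prop where
  tr : ∃ ζ ζ', N.Traj D q c (S.β i) (S.β j) ζ ζ'
  mv : D.Moves c
  p : p c
  lev : c.kap D.B D.G = Γ.k j - Γ.k i + n
  bad : S.Bad Γ i j n b
  en : S.lE Γ i j n ≤ e

theorem Mem.mono {p b e e' i j n c} (h : Mem (S := S) (Γ := Γ) q p b e i j n c) (he : e ≤ e') :
    Mem (S := S) (Γ := Γ) q p b e' i j n c := { h with en := h.en.trans he }

/-- a bad chain has a bad member; the energy drops -/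
theorem ChP.mem (hl : S.Lev Γ q) (hp : S.Pos q) (b : Bool) {p i ζ i' ζ' k l}
    (h : S.ChP q p i ζ i' ζ' k l) : ∃ n : ℤ, k = Γ.k i' - Γ.k i + n ∧ (l ≠ 0 → S.Bad Γ i i' n b →
      ∃ e, e ≤ S.lE Γ i i' n ∧ (l ≠ 1 → e < S.lE Γ i i' n) ∧
        ∃ j j' n' c, Mem (S := S) (Γ := Γ) q p b e j j' n' c) := by
  induction h with
  | nil i ζ => exact ⟨0, by simp, fun h => (h rfl).elim⟩
  | @bub i ζ i' ζ' k j h ih =>
    obtain ⟨n, h1, h2⟩ := ih
    refine ⟨n + 1, by rw [h1]; push_cast; ring, fun _ hb => ?_⟩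
    have h0 : j ≠ 0 := by
      rintro rfl
      obtain ⟨rfl, -, rfl⟩ := h.zero
      obtain rfl : n = 0 := by
        have : (n : ℝ) = 0 := by linarith
        exact_mod_cast this
      have := Γ.hp_le i
      have := Γ.h_nonneg S.fx i
      cases b <;> simp only [Bad] at hb <;> omega
    obtain ⟨e, h3, -, h4⟩ := h2 h0 (by cases b <;> simp only [Bad] at hb ⊢ <;> omega)
    have : e < S.lE Γ i i' (n + 1) := by rw [lE] at h3 ⊢; push_cast; linarith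
    exact ⟨e, this.le, fun _ => this, h4⟩
  | @mov i ζ i' ζ' i'' ζ'' k j c h1 h2 h3 h ih =>
    obtain ⟨n, h4, h5⟩ := ih
    obtain ⟨n', h6⟩ := hl i i' c ζ ζ' h1
    refine ⟨n' + n, by rw [h4, h6]; push_cast; ring, fun _ hb => ?_⟩
    have a1 := hp _ _ c _ _ h1 h2
    have a2 := h.en hp
    have e1 : k + (N.lv D (S.β i') - N.lv D (S.β i'')) / (8 * Real.pi ^ 2) = S.lE Γ i' i'' n := by
      rw [h4, lE, CD.en, CD.en]; ring
    have e2 : S.lE Γ i i'' (n' + n) = S.lE Γ i i' n' + S.lE Γ i' i'' n := by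
      simp only [lE]; push_cast; ring
    rw [tE_eq h6] at a1
    rw [e1] at a2
    by_cases hc : S.Bad Γ i i' n' b
    · exact ⟨_, by linarith [a2.1], fun hj => by linarith [a2.2 (by omega)],
        i, i', n', c, ⟨_, _, h1⟩, h2, h3, h6, hc, le_rfl⟩
    · have h0 : j ≠ 0 := by
        rintro rfl
        obtain ⟨rfl, -, rfl⟩ := h.zero
        obtain rfl : n = 0 := by
          have : (n : ℝ) = 0 := by linarith
          exact_mod_cast this
        exact hc (by simpa using hb)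
      have := Γ.h_le_hp S.fx i'
      obtain ⟨e, h7, -, h8⟩ := h5 h0 (by cases b <;> simp only [Bad] at hb hc ⊢ <;> omega)
      exact ⟨e, by linarith, fun _ => by linarith, h8⟩

variable (S Γ) in
/-- the strata -/
def Str : Type := {s : S.C × S.C × ℤ × Bool //
  S.Bad Γ s.1 s.2.1 s.2.2.1 s.2.2.2 ∧ 0 < S.lE Γ s.1 s.2.1 s.2.2.1}

instance : Finite (S.Str Γ) := by
  refine Set.Finite.to_subtype (Set.Finite.subset (Set.finite_iUnion fun p : S.C × S.C × Bool =>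
    (Set.finite_Icc ⌊S.en Γ p.1 - S.en Γ p.2.1⌋
      (|Γ.g p.1 - Γ.g p.2.1| + |Γ.d p.1 - Γ.d p.2.1|)).image fun n => (p.1, p.2.1, n, p.2.2)) ?_)
  rintro ⟨i, j, n, b⟩ ⟨h1, h2⟩
  refine mem_iUnion.2 ⟨(i, j, b), n, ⟨?_, ?_⟩, rfl⟩
  · have : ((⌊S.en Γ i - S.en Γ j⌋ : ℤ) : ℝ) ≤ n := by
      have := Int.floor_le (S.en Γ i - S.en Γ j)
      simp only [lE] at h2; linarith
    exact_mod_cast this
  · have a1 := le_abs_self (Γ.g i - Γ.g j)
    have a2 := le_abs_self (Γ.d i - Γ.d j)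
    have a3 := abs_nonneg (Γ.g i - Γ.g j)
    have a4 := abs_nonneg (Γ.d i - Γ.d j)
    cases b
    · simp only [Bad] at h1 ⊢; omega
    · have := Γ.bad_le S.fx h1
      simp only at this ⊢; omega

/-- the energy of a stratum -/
def Str.E (s : S.Str Γ) : ℝ := S.lE Γ s.1.1 s.1.2.1 s.1.2.2.1

/-- the rank of a stratum -/
def Str.rk (s : S.Str Γ) : ℕ := 2 * {s' : S.Str Γ | s'.E < s.E}.ncard + s.1.2.2.2.toNat

theorem Str.rk_lt {s s' : S.Str Γ} (h : s'.E < s.E) : s'.rk < s.rk := by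
  have : {t : S.Str Γ | t.E < s'.E}.ncard < {t : S.Str Γ | t.E < s.E}.ncard :=
    Set.ncard_lt_ncard ⟨fun t ht => lt_trans ht h, fun e => lt_irrefl s'.E (e h)⟩
  have := Bool.toNat_le s'.1.2.2.2
  unfold rk; omega

namespace MsD
variable (A : S.MsD) (Γ)

/-- the strata of bad trajectories -/
def idl : Idl (Option (YW I3 Y)) where
  S := S.Str Γ
  X s := (A.P s.1.1 s.1.2.1 s.1.2.2.1 s.1.2.2.2).X
  Sol s q x := (A.P _ _ _ _).Sol q x ∧ A.Cp x ∧ D.Moves (A.cf x) ∧ S.Ty (A.cf x) s.1.2.2.2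
  J _ := Unit
  I _ _ := Unit
  P s _ _ := A.P s.1.1 s.1.2.1 s.1.2.2.1 s.1.2.2.2
  pr _ x := x
  rank := Str.rk
  Adm := MAdm A.sz
  face _ := False

variable {A Γ} {cI : ℤ} (h : A.Ax Γ) (hI : S.RuleI Γ cI) (hS : S.RuleS Γ)
include h

theorem Ax.neg (s : S.Str Γ) : (A.P s.1.1 s.1.2.1 s.1.2.2.1 s.1.2.2.2).n < 0 := by
  obtain ⟨⟨i, j, n, b⟩, h1, -⟩ := s
  cases b
  · exact (h.nI i j n).trans_lt h1
  · refine (h.nF i j n).trans_lt ?_
    simp only [Bad, Gr.hp, Gr.h, Int.even_iff] at h1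
    split_ifs at h1 ⊢ <;> omega

include hI hS

/-- a bad moving trajectory is a solution in a stratum -/
theorem Ax.sol_of {q} (hq : MAdm A.sz q) {i j c ζ ζ'} {n : ℤ} {b : Bool}
    (h1 : N.Traj D q.some c (S.β i) (S.β j) ζ ζ') (hm : D.Moves c)
    (hk : c.kap D.B D.G = Γ.k j - Γ.k i + n) (hb : S.Bad Γ i j n b) (hz : b = false → Zr c univ) :
    ∃ (s : S.Str Γ) (x : (A.idl Γ).X s), (A.idl Γ).Sol s q x ∧ s.E = S.lE Γ i j n ∧
      (Fix D.Z c univ → s.1.2.2.2 = false) := by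
  obtain ⟨b', h2, h3⟩ : ∃ b, S.Bad Γ i j n b ∧ S.Ty c b := by
    cases b
    exacts [⟨false, hb, hz rfl⟩, bad_ty hI hS (h.pos _ hq.1) (h.typ _ hq.1) h1 hm hk hb]
  obtain ⟨x, h4⟩ := h.real i j n b' q c ζ ζ' hq h1 hm hk h3
  refine ⟨⟨(i, j, n, b'), h2, tE_eq hk ▸ h.pos _ hq.1 i j c ζ ζ' h1 hm⟩, x, h4, rfl, fun hf => ?_⟩
  cases b'
  exacts [rfl, (h3 hf).elim]

theorem Ax.idl : (A.idl Γ).Ax where
  fin := inferInstanceAs (Finite (S.Str Γ))
  finJ _ := inferInstanceAs (Finite Unit)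
  ax _ _ _ := h.ax _ _ _ _
  adm := isOp_mAdm _
  sol _ _ _ _ _ _ hx := hx.1
  dens _ _ q x ha hx := ⟨(), .inr (h.dens _ _ _ _ q x ha hx.1 hx.2.2.1 hx.2.2.2)⟩
  kill s _ _ _ ha hx := Idl.not_reg_of_neg (D := A.idl Γ) (j := ()) (fun _ => h.ax _ _ _ _) ha
    (fun _ => hx.1) fun _ => h.neg s
  comp s q₀ ha ι 𝒰 q u hq hu := by
    rcases h.comp _ _ _ _ q₀ ha ι 𝒰 q u hq (hu.mono fun m hm =>
      ⟨hm.1, hm.2.1, hm.2.2.1, hm.2.2.2.1⟩) with ⟨x₀, h1, h2, h3, h4⟩ | ⟨ζ, ζ', l, h1, h2⟩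
    · by_cases ht : S.Ty (A.cf x₀) s.1.2.2.2
      · exact .inl ⟨x₀, ⟨h1, h2, h3, ht⟩, fun _ _ => h4⟩
      · obtain ⟨⟨ζ, ζ', h5⟩, h6, h7⟩ := h.traj _ _ _ _ q₀ x₀ ha h1
        obtain ⟨s', x, h8, h9, h10⟩ := h.sol_of hI hS ha h5 h3 h6 s.2.1 h7
        have ⟨hb, ht⟩ : s.1.2.2.2 = true ∧ ¬S.Ty (A.cf x₀) true := by
          revert ht h7
          generalize A.cf x₀ = c
          cases s.1.2.2.2
          exacts [fun ht h7 => (ht (h7 rfl)).elim, fun ht _ => ⟨rfl, ht⟩]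
        refine .inr ⟨s', x, ?_, h8, False.elim⟩
        show 2 * {t : S.Str Γ | t.E < s'.E}.ncard + s'.1.2.2.2.toNat <
          2 * {t : S.Str Γ | t.E < s.E}.ncard + s.1.2.2.2.toNat
        rw [h10 (not_not.1 ht), hb, h9]; exact Nat.lt_succ_self _
    · obtain ⟨n, e1, h3⟩ := h1.mem (h.lev _ ha.1) (h.pos _ ha.1) s.1.2.2.2
      obtain rfl : s.1.2.2.1 = n := by
        have : (s.1.2.2.1 : ℝ) = n := by linarith
        exact_mod_cast this
      have l0 : l ≠ 0 := by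
        rintro rfl
        obtain ⟨e2, -, e3⟩ := h1.zero
        have := s.2.2
        rw [lE, ← e2] at this
        rw [← e2] at e3
        linarith
      have l1 : l ≠ 1 := by
        intro e1
        obtain ⟨e2, e4⟩ := h2 e1
        have hb := s.2.1
        have := Γ.hp_le s.1.1
        have := Γ.h_nonneg S.fx s.1.1
        rw [← e2, e4] at hb
        cases e5 : s.1.2.2.2 <;> simp only [e5, Bad] at hb <;> omega
      obtain ⟨e, -, h4, j, j', n', c, ⟨ζ, ζ', h5⟩, h6, h7, h8, h9, h10⟩ := h3 l0 s.2.1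
      obtain ⟨s', x, h11, h12, -⟩ := h.sol_of hI hS ha h5 h6 h8 h9 h7
      exact .inr ⟨s', x, Str.rk_lt (h12.trans_lt (h10.trans_lt (h4 l1))), h11, False.elim⟩

/-- **MS.** Good perturbations exist in every stage-open neighbourhood of `0`. -/
theorem Ax.ms {O : (YW I3 Y →₀ ℝ) → Prop} (hO : St.IsOp O) (h0 : O 0) :
    ∃ q, O q ∧ Sml A.sz q ∧ S.Lev Γ q ∧ S.Good Γ q := by
  obtain ⟨q, h1, h2⟩ := (h.idl hI hS).low.ex _ (isOp_some hO) 0
    ⟨by simpa using sml_zero A.sz, by simp⟩ (by simpa using h0)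
  refine ⟨q.some, h1, h2.1.1, h.lev _ h2.1.1, fun i j c ζ ζ' h3 h4 n h5 => by_contra fun hb => ?_⟩
  obtain ⟨s, x, h6, -⟩ := h.sol_of hI hS (b := true) h2.1 h3 h4 h5 hb (by simp)
  exact (h.idl hI hS).face_of h2 h6

end MsD
end ND.CD

end Crest.Agent.X212.Nd18
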