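import Crest.Agent.X212.Nd18.Ms
import Crest.Agent.X212.An.Loc

/-!
# Row 212, MS (helper18): relational form; the output is a generic statement
-/

set_option autoImplicit false
set_option linter.unusedSectionVars false
noncomputable section
open scoped Manifold ContDiff Topology InnerProductSpace
open MeasureTheory Set Function Filter

namespace Crest.Agent.X212.Nd18
open An Cyf70 Dgr80 Mod61 Nk89

variable {E3 : Type} [NormedAddCommGroup E3] [NormedSpace ℝ E3] [FiniteDimensional ℝ E3]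
  [MeasurableSpace E3] [BorelSpace E3]
  {H3 : Type} [TopologicalSpace H3] {I3 : ModelWithCorners ℝ E3 H3} [I3.Boundaryless]
  {Y : Type} [TopologicalSpace Y] [ChartedSpace H3 Y] [IsManifold I3 ∞ Y] [T2Space Y]
  [MeasurableSpace Y] [BorelSpace Y] [SecondCountableTopology Y] [CompactSpace Y]
  {κ : Type} [Fintype κ] {lam : Type} [Fintype lam]

namespace ND.CD
variable {N : ND Y lam} {D : YD I3 Y κ lam} (S : N.CD D) (Γ : Gr S.C)

/-- moving trajectories of the level `n` -/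
structure Mv (q : YW I3 Y →₀ ℝ) (i j : S.C) (n : ℤ) (c : Cfg (Y × ℝ) (Option κ) lam 0) : Prop where
  tr : ∃ ζ ζ', N.Traj D q c (S.β i) (S.β j) ζ ζ'
  mv : D.Moves c
  lev : c.kap D.B D.G = Γ.k j - Γ.k i + n

open Classical in
/-- the index modulo translations -/
def ix (i j : S.C) (n : ℤ) : Bool → ℤ
  | true => Γ.g j - Γ.g i + 6 * n - if S.fx i then 0 else 1
  | false => Γ.d j - Γ.d i + 8 * n

/-- the trajectory problems: charts `Ic`, models `P`, representatives `rep` -/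
structure MsR : Type 1 where
  Ic : S.C → S.C → Bool → Type
  P : ∀ {i j b}, Ic i j b → Prob (YW I3 Y)
  rep : ∀ {i j b} (o : Ic i j b), Cfg (Y × ℝ) (Option κ) lam 0 → (P o).X → Prop

namespace MsR
variable {S} (A : S.MsR) (Adm : (YW I3 Y →₀ ℝ) → Prop)

structure Ax : Prop where
  lev : ∀ q, Adm q → S.Lev Γ q
  pos : ∀ q, Adm q → S.Pos q
  typ : ∀ q, Adm q → S.Typ q
  ax : ∀ i j b (o : A.Ic i j b), (A.P o).Ax Adm
  sol : ∀ i j n b (o : A.Ic i j b) q c x, Adm q → S.Mv Γ q i j n c → S.Ty c b → A.rep o c x →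
    (A.P o).Sol q x
  dens : ∀ i j n b q c, Adm q → S.Mv Γ q i j n c → S.Ty c b → ∃ (o : A.Ic i j b) (x : (A.P o).X),
    A.rep o c x ∧ ((A.P o).Reg q x ∨ ∃ J, (A.P o).Onto q x J)
  ker : ∀ i j n b (o : A.Ic i j b) q c x, Adm q → S.Mv Γ q i j n c → S.Ty c b → A.rep o c x →
    (A.P o).Reg q x → 0 ≤ S.ix Γ i j n b
  comp : ∀ i j (n : ℤ) b q₀, Adm q₀ → ∀ (ι : Type) (𝒰 : Ultrafilter ι) (q : ι → YW I3 Y →₀ ℝ)
    (c : ι → Cfg (Y × ℝ) (Option κ) lam 0), St.Cv (𝒰 : Filter ι) q q₀ →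
    (∀ᶠ m in (𝒰 : Filter ι), Adm (q m) ∧ S.Mv Γ (q m) i j n (c m) ∧ S.Ty (c m) b) →
    (∃ c₀, S.Mv Γ q₀ i j n c₀ ∧ (b = false → Zr c₀ univ) ∧
      (S.Ty c₀ b → ∀ (o : A.Ic i j b) x₀, A.rep o c₀ x₀ → RNear (A.rep o) 𝒰 c x₀)) ∨
    ∃ ζ ζ' l, S.ChP q₀ (fun c => b = false → Zr c univ) i ζ j ζ' (Γ.k j - Γ.k i + n) l ∧
      (l = 1 → i = j ∧ n = 1)

/-- the strata of bad trajectories -/
def idr : Idr (YW I3 Y) where
  S := S.Str Γ
  X _ := Cfg (Y × ℝ) (Option κ) lam 0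
  Sol s q c := S.Mv Γ q s.1.1 s.1.2.1 s.1.2.2.1 c ∧ S.Ty c s.1.2.2.2
  J _ := Unit
  I s _ := A.Ic s.1.1 s.1.2.1 s.1.2.2.2
  P _ _ o := A.P o
  rep o := A.rep o
  rank := Str.rk
  Adm := Adm
  face _ := False

variable {A Γ Adm} {cI : ℤ} (h : A.Ax Γ Adm) (hI : S.RuleI Γ cI) (hS : S.RuleS Γ)

theorem ix_neg (s : S.Str Γ) : S.ix Γ s.1.1 s.1.2.1 s.1.2.2.1 s.1.2.2.2 < 0 := by
  obtain ⟨⟨i, j, n, b⟩, h1, -⟩ := s
  cases b
  · exact h1
  · simp only [Bad, Gr.hp, Gr.h, Int.even_iff, ix] at h1 ⊢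
    split_ifs at h1 ⊢ <;> omega

include h hI hS

/-- a bad moving trajectory is a solution in a stratum -/
theorem Ax.sol_of {q} (hq : Adm q) {i j c} {n : ℤ} {b : Bool} (h1 : S.Mv Γ q i j n c)
    (hb : S.Bad Γ i j n b) (hz : b = false → Zr c univ) :
    ∃ s : S.Str Γ, (A.idr Γ Adm).Sol s q c ∧ s.E = S.lE Γ i j n ∧
      (Fix D.Z c univ → s.1.2.2.2 = false) := by
  obtain ⟨ζ, ζ', h0⟩ := h1.tr
  obtain ⟨b', h2, h3⟩ : ∃ b, S.Bad Γ i j n b ∧ S.Ty c b := by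
    cases b
    exacts [⟨false, hb, hz rfl⟩, bad_ty hI hS (h.pos _ hq) (h.typ _ hq) h0 h1.mv h1.lev hb]
  refine ⟨⟨(i, j, n, b'), h2, tE_eq h1.lev ▸ h.pos _ hq i j c ζ ζ' h0 h1.mv⟩, ⟨h1, h3⟩, rfl,
    fun hf => ?_⟩
  cases b'
  exacts [rfl, (h3 hf).elim]

theorem Ax.idr (ho : St.IsOp Adm) : (A.idr Γ Adm).Ax where
  fin := inferInstanceAs (Finite (S.Str Γ))
  finJ _ := inferInstanceAs (Finite Unit)
  ax _ _ o := h.ax _ _ _ o
  adm := ho
  sol _ _ o q c x ha hc := h.sol _ _ _ _ o q c x ha hc.1 hc.2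
  dens _ _ q c ha hc := h.dens _ _ _ _ q c ha hc.1 hc.2
  kill s q c _ ha hc hr := let ⟨o, x, h1, h2⟩ := hr ()
    (h.ker _ _ _ _ o q c x ha hc.1 hc.2 h1 h2).not_gt (ix_neg s)
  comp s q₀ ha ι 𝒰 q u hq hu := by
    rcases h.comp _ _ _ _ q₀ ha ι 𝒰 q u hq hu with ⟨c₀, h1, h7, h4⟩ | ⟨ζ, ζ', l, h1, h2⟩
    · by_cases ht : S.Ty c₀ s.1.2.2.2
      · exact .inl ⟨c₀, ⟨h1, ht⟩, fun _ => h4 ht⟩
      · obtain ⟨s', h8, h9, h10⟩ := h.sol_of hI hS ha h1 s.2.1 h7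
        have ⟨hb, ht⟩ : s.1.2.2.2 = true ∧ ¬S.Ty c₀ true := by
          revert ht h7
          cases s.1.2.2.2
          exacts [fun h7 ht => (ht (h7 rfl)).elim, fun _ ht => ⟨rfl, ht⟩]
        refine .inr ⟨s', c₀, ?_, h8, False.elim⟩
        show 2 * {t : S.Str Γ | t.E < s'.E}.ncard + s'.1.2.2.2.toNat <
          2 * {t : S.Str Γ | t.E < s.E}.ncard + s.1.2.2.2.toNat
        rw [h10 (not_not.1 ht), hb, h9]; exact Nat.lt_succ_self _
    · obtain ⟨n, e1, h3⟩ := h1.mem (h.lev _ ha) (h.pos _ ha) s.1.2.2.2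
      obtain rfl : s.1.2.2.1 = n := by
        have : (s.1.2.2.1 : ℝ) = n := by linarith
        exact_mod_cast this
      have l0 : l ≠ 0 := by
        rintro rfl
        obtain ⟨e2, -, e3⟩ := h1.zero
        have := s.2.2
        rw [lE, ← e2] at this
        rw [← e2] at e3
        linarith
      have l1 : l ≠ 1 := by
        intro e1
        obtain ⟨e2, e4⟩ := h2 e1
        have hb := s.2.1
        have := Γ.hp_le s.1.1
        have := Γ.h_nonneg S.fx s.1.1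
        rw [← e2, e4] at hb
        cases e5 : s.1.2.2.2 <;> simp only [e5, Bad] at hb <;> omega
      obtain ⟨e, -, h4, j, j', n', c, h5, h6, h7, h8, h9, h10⟩ := h3 l0 s.2.1
      obtain ⟨s', h11, h12, -⟩ := h.sol_of hI hS ha ⟨h5, h6, h8⟩ h9 h7
      exact .inr ⟨s', c, Str.rk_lt (h12.trans_lt (h10.trans_lt (h4 l1))), h11, False.elim⟩

theorem Ax.gen (ho : St.IsOp Adm) : Gen Adm fun q => S.Lev Γ q ∧ S.Pos q ∧ S.Good Γ q :=
  (Gen.of (h.idr hI hS ho).low).mono fun q hq h2 => ⟨h.lev q hq, h.pos q hq,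
    fun i j c ζ ζ' h3 h4 n h5 => by_contra fun hb =>
      let ⟨_, h6, _⟩ := h.sol_of hI hS (b := true) hq ⟨⟨_, _, h3⟩, h4, h5⟩ hb (by simp)
      (h.idr hI hS ho).face_of h2 h6⟩

omit h in
/-- **MS.** -/
theorem ms (h : An.Sml fun Adm => St.IsOp Adm → A.Ax Γ Adm) :
    GV fun q => S.Lev Γ q ∧ S.Pos q ∧ S.Good Γ q :=
  h.mono fun _ h1 ho => (h1 ho).gen hI hS ho

end MsR
end ND.CD

/-! ### generic statements -/

section gv
variable {W W' : Type} {P : (W →₀ ℝ) → Prop}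

theorem rs_emb (e : W ↪ W') (q : W' →₀ ℝ) (p : W →₀ ℝ) :
    rs e (q - (rs e q).embDomain e + p.embDomain e) = p := by ext a; simp

/-- generic statements about a part of the coefficients -/
theorem GV.comap (h : GV P) (e : W ↪ W') : GV fun q => P (rs e q) := by
  classical
  obtain ⟨b, hb, G, hG, h⟩ := h.ball
  refine .of_ball (b := extend e b 0) (fun w => ?_) ⟨fun q => Ball (extend e b 0) 0 q ∧ G (rs e q),
    ⟨fun _ hq => hq.1, (isOp_ball _ 0).and fun q hq ι l u hu => hG.op _ hq ι l _ (hu.comap e),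
      fun O hO q₀ h1 h2 => ?_⟩, fun q hq => h _ hq.2⟩
  · by_cases hw : ∃ a, e a = w
    · obtain ⟨a, rfl⟩ := hw
      rw [e.injective.extend_apply]; exact hb a
    · rw [extend_apply' _ _ _ hw]; rfl
  · have k : Ball b 0 (rs e q₀) := by
      have h1 : Ball (extend e b 0) 0 q₀ := h1
      rw [Ball, sub_zero] at h1 ⊢
      refine lt_of_eq_of_lt ?_ h1
      simp only [Finsupp.sum, Finsupp.comapDomain_support, Finsupp.comapDomain_apply]
      rw [← Finset.sum_preimage e q₀.support e.injective.injOn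
        (fun w => |q₀ w| * extend e b 0 w) fun w _ hw => by rw [extend_apply' _ _ _ hw]; simp]
      simp only [e.injective.extend_apply]
    obtain ⟨p, h3, h4⟩ := hG.ex (fun p => Ball (extend e b 0) 0
        (q₀ - (rs e q₀).embDomain e + p.embDomain e) ∧ O (q₀ - (rs e q₀).embDomain e + p.embDomain e))
      (fun p hp ι l u hu => ((isOp_ball _ 0).and hO) _ hp ι l _ (hu.map e _)) _ k
      (by simpa using ⟨h1, h2⟩)
    exact ⟨_, h3.2, h3.1, by rwa [rs_emb]⟩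

/-- statements that need a generic hypothesis `P` -/
theorem GV.stage {P' : (W →₀ ℝ) → Prop} (h : GV P)
    (h' : An.Sml fun Adm => St.IsOp Adm → (∀ q, Adm q → P q) → Gen Adm P') : GV P' := by
  obtain ⟨b, h1, h2⟩ := h
  obtain ⟨b', h3, h4⟩ := h'
  refine ⟨b + b', fun w => add_nonneg (h1 w) (h3 w), fun A hA ho => ?_⟩
  obtain ⟨G, k1, k2⟩ := h2 A (fun q hq => (hA q hq).mono fun w => le_add_of_nonneg_right (h3 w)) ho
  obtain ⟨G', k3, k4⟩ := h4 G (fun q hq => (hA q (k1.le q hq)).mono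
    fun w => le_add_of_nonneg_left (h1 w)) k1.op k2
  exact ⟨G', k1.trans k3, k4⟩

end gv

end Crest.Agent.X212.Nd18
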