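import Crest.Agent.X212.Nd18.Fj
import Crest.Agent.X212.Nd18.Ms2
import Crest.Agent.X212.Num57.Nb

/-!
# Row 212, FACT (helper18): the faces of prisms on which `a` is broken.  Numbers and leaves.

Regions: the pieces of the scene cut along `a` and the broken pinch walls.  `ou e π` is the piece of
`Z e` in the region `π` outside the broken lens walls `LE e π`.
-/

set_option autoImplicit false
set_option linter.unusedSectionVars false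
noncomputable section
open scoped Manifold ContDiff Topology InnerProductSpace
open MeasureTheory Set Function Filter Classical

namespace Crest.Agent.X212.Fk18
open An M G75 Jb7 Ins26 Nd18 Rf65 Pte3
open An.Job (Sol SolOn StrOn Str)
open Br55 (CN)

/-! ### strata (job level) -/

section job
variable {Wi : Type} {X : Mf 4} {A κ lam : Type} [Fintype A] [Fintype κ] [Fintype lam]
  [DecidableEq lam] {M : Mark X A κ} {W : World M} {N : ML M lam} {Λ : Lns W N}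
  {A' h : Type} [Fintype A'] [DecidableEq A'] [Fintype h] {r n : ℕ}
  (J : Job Wi Λ A' h r n) (c : M.Cl) (σ : Cel A') (Adm : (Wi →₀ ℝ) → Prop)

/-- a model of the solutions with the property `P`; regular ones satisfy `ok` -/
abbrev MAx (D : Mo Wi (J.Obc c)) (P ok : J.Obc c → Prop) : Prop :=
  D.Ax Adm (fun q y => Sol σ q y ∧ P y) (fun _ 𝒰 y y₀ => Str 𝒰 y y₀) ok

variable {J c} in
/-- objects of a face; `R b` are the outer pieces on the side `b` -/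
structure Fo (R : Bool → Set (Reg A)) (y : J.Obc c) : Prop where
  t : y.Tight
  F : ∀ b, ∀ π ∈ R b, y.TF π
  fr : ∃ π ∈ R true, ¬FixP y π

/-- the inputs of the strata -/
structure SH (n₀ : ℤ) (FR : Kof81.Ty J) (R : Bool → Set (Reg A)) (okL okR : J.Obc c → Prop)
    (okI : Reg A → J.Obc c → Prop) (E : J.Obc c → Prop) : Prop where
  ok : J.OK
  mem : σ ∈ J.𝒦
  ne : c ≠ M.c0
  pc : ∀ b, ∀ π ∈ R b, M.sys.Piece c.1 π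
  lin : J.LinCl c
  fx : FxA J c
  fin : J.FinE σ c Adm
  unc : Kof81.Fa J n₀ σ c → J.unc c = univ
  L : ∀ F ⊆ R false, F.Nonempty → ∃ D, MAx J c σ Adm D (fun y => y.F (R false) = F) okL
  R' : ∀ F ⊆ R true, ∀ H, ∃ D, MAx J c σ Adm D
    (fun y => y.F (R true) = F ∧ y.H = H ∧ ∃ π ∈ F, ¬FixP y π) okR
  I : ∀ b, ∀ π ∈ R b, ∀ H, ∃ D, MAx J c σ Adm D (fun y => ¬y.TF π ∧ ¬y.TA π ∧ y.H = H) (okI π)
  Wh : Kof81.Fa J n₀ σ c → ∃ D, MAx J c σ Adm D (Fo R) (fun _ => True) ∧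
    ∀ q y, Adm q → Sol σ q y → Fo R y → D.Reg q y → E y → FR σ c q y
  kill : ∀ q (y : J.Obc c), Adm q → Sol σ q y → ((y.F (R false)).Nonempty → okL y) →
    ((∃ π ∈ y.F (R true), ¬FixP y π) → okR y) → (∀ b, ∀ π ∈ y.I (R b), okI π y) →
    Kof81.Fa J n₀ σ c ∧ Fo R y ∧ E y

/-- **LEAF A-STR** -/
def StA : Prop := ∀ n₀ FR R okL okR okI E, SH J c σ Adm n₀ FR R okL okR okI E →
  ∃ T, Kof81.StrOK J n₀ FR Adm σ c T

end job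

/-! ### regions and their numbers -/

variable {κ lam : Type} [Fintype κ] [Fintype lam] [DecidableEq lam] {Lm : LM κ lam}
  {y₀ : G75.YD κ lam} {S : Scene Lm}

/-- the broken pinch walls -/
def pe (e : S.M.Cl) : Finset S.A := {x | x ∈ e.1 ∧ S.M.pin x}

/-- the regions on the side `b` -/
def Rg (t : TD y₀ S) (e : S.M.Cl) (b : Bool) : Finset (Reg S.A) := {π | t.Pc b (pe e) π}

/-- the outer piece of a region -/
def ou (e : S.M.Cl) (π : Reg S.A) : Reg S.A := fun x =>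
  if x ∈ e.1 ∧ x ∈ S.ls ∧ x ∈ S.M.sys.inn π then some true else π x

/-- the broken lens walls in a region -/
def LE (e : S.M.Cl) (π : Reg S.A) : Finset S.ls := {l | l.1 ∈ e.1 ∧ l.1 ∈ S.M.sys.inn π}

/-- the dropped cuts in a region -/
def DR (H : Set S.ls) (π : Reg S.A) : Finset S.ls := {l | l ∉ H ∧ l.1 ∈ S.M.sys.inn π}

section num
variable (t : TD y₀ S) (i : S.L) (π : Reg S.A)

/-- the numbers of a region, closed up beyond `a` -/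
def NbR (β sg l2 : ℝ) : Prop :=
  if π t.a = some false then S.Nb t.i₀ (t.op π ∩ (S.M.sys.w t.s).sd false) β sg l2
  else S.Nb i (t.op π) β sg l2

/-- `(β, sg, l2)` -/
def nu : ℝ × ℝ × ℝ := Classical.epsilon fun v => NbR t i π v.1 v.2.1 v.2.2

/-- `β` -/
abbrev bR : ℝ := (nu t i π).1

/-- `l2 - sg` -/
abbrev sR : ℝ := (nu t i π).2.2 - (nu t i π).2.1

variable {t i π} in
theorem nu_eq {β sg l2 : ℝ} (h : NbR t i π β sg l2) : nu t i π = (β, sg, l2) := by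
  have k : NbR t i π (nu t i π).1 (nu t i π).2.1 (nu t i π).2.2 :=
    Classical.epsilon_spec (p := fun v : ℝ × ℝ × ℝ => NbR t i π v.1 v.2.1 v.2.2) ⟨(β, sg, l2), h⟩
  unfold NbR at h k
  split_ifs at h k <;> exact let ⟨a, b, c⟩ := Num57.nb_uniq k h; Prod.ext a (Prod.ext b c)

/-- the weight of the region at the level `k`, with the parameters `ρ` -/
def Wr (ρ : Finset S.A) (k : ℝ) : ℝ :=
  Wt (nu t i π).1 (nu t i π).2.1 (nu t i π).2.2 (S.nm ρ π) (S.nh π) k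

/-- its anti-self-dual index -/
def Dr (ρ : Finset S.A) (k : ℝ) : ℝ := Dl (bR t i π) (S.nm ρ π) (S.nh π) k

/-- the term of the end at `a`; `o b` is the limit on the side `b`, `f` : with spinor -/
def et {C : Type} (Γ : Gr C) (e0 : ℤ) (o : Bool → C) (f : Bool) : ℝ :=
  (π t.a).elim 0 fun b => bif b then
    (bif f then -(Γ.η (o true) - e0) - (Wt t.β₀ t.s₀ t.l₀ 0 0 0 - 4) else -Γ.ηA (o true) + 3 * t.β₀)
    else (bif f then Γ.η (o false) - e0 else Γ.ηA (o false))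

end num

/-! ### the data -/

variable (y₀) in
/-- reference, neck terms, critical points -/
structure Pk : Type 1 where
  H : Hd (yD y₀)
  N : ND (yY y₀).M (lam ⊕ lam)
  C : N.CD (yD y₀)

/-- the gradings -/
abbrev Pk.Γ (P : Pk y₀) : Gr P.C.C := P.H.gr P.C

structure Pk.OK (P : Pk y₀) : Prop where
  y : y₀.OK
  H : P.H.OK
  k : P.H.k = 8
  N : P.N.OK (yD y₀)

/-- the output of MS -/
def Pk.MS (P : Pk y₀) : Prop :=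
  (GV fun q => P.C.Lev P.Γ q ∧ P.C.Pos q ∧ P.C.Good P.Γ q) ∧
    An.Sml fun Adm => ∀ q, Adm q → P.C.Lev P.Γ q ∧ P.C.Pos q

/-- the data that are fixed before `T` -/
structure Z0 (P : Pk y₀) (S : Scene Lm) : Type 1 where
  t : TD y₀ S
  c : Cn S.L S.A
  d : ℕ
  n : ℕ
  D : S.Dat
  m : ℕ
  k : Fin (n + 1)

variable {P : Pk y₀}

structure Z0.OK (z : Z0 P S) (R : ℕ) : Prop where
  p : P.OK
  t : z.t.OK R z.c
  cn : CN S z.d z.c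
  km : ↑z.k ≤ z.m

/-- a prism, a line, a face `e ∋ a` of the cell `τ × [0, 1]`, `τ ⊆ σ` -/
structure Z1 (z : Z0 P S) : Type 1 where
  F : Pr z.t P.N z.n z.D
  i : S.L
  e : S.M.Cl
  τ : Finset S.A
  σ : Finset S.A

namespace Z1
variable {z : Z0 P S} (Z : Z1 z)

structure OK (T : ℝ) : Prop where
  F : Z.F.OK z.c z.d T
  c : z.c Z.i Z.σ ≠ 0
  sub : Z.τ ⊆ Z.σ
  a : z.t.a ∈ Z.e.1
  e : Z.e.1 ⊆ insert z.t.a ↑Z.τ

/-- the job -/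
abbrev J := Z.F.J z.c z.d Z.i z.m z.k

/-- the jobs with other terms -/
abbrev jb (k : ℝ) {r n : ℕ} (τ : TrS S Z.F.Wi r n) := Z.F.jb z.c Z.i k τ

/-- the job of the fillers -/
abbrev J0 := Z.F.JR z.c Z.i 0

/-- the cell -/
abbrev ce : Cel (S.A ⊕ Unit) := cel Z.τ none

/-- the objects -/
abbrev Ob : Type := Z.J.Obc Z.e

/-- the regions -/
abbrev Rg (b : Bool) := Fk18.Rg z.t Z.e b

/-- the outer pieces -/
def Ro (b : Bool) : Set (Reg S.A) := ou Z.e '' ↑(Z.Rg b)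

/-- the dead pairs are switched on -/
def Dead (q : Z.F.Wi →₀ ℝ) : Prop := ∀ ρ, q (Z.F.wD ρ) ≠ 0

/-- generic perturbations -/
def Gq (q : Z.F.Wi →₀ ℝ) : Prop :=
  Z.Dead q ∧ P.C.Lev P.Γ (Z.F.x0.q q) ∧ P.C.Good P.Γ (Z.F.x0.q q)

section obj
variable {Z} {k : ℝ} {r n : ℕ} {τ : TrS S Z.F.Wi r n} (y : (Z.jb k τ).Obc Z.e)

/-- the connection -/
abbrev o0 : Z.J0.Obc Z.e := ⟨y.s, y.x.con, y.H, y.ψ, y.β, y.ζ, y.k, y.j, y.l⟩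

/-- the class of the limit on the side `b` -/
def Cl (o : Bool → P.C.C) (b : Bool) : Prop :=
  (yD y₀).Eqv (cv (Z.F.xs_a Z.i) (y.β z.t.a b)) (P.C.β (o b))

/-- the level of a piece -/
abbrev kp (ρ : Reg S.A) : ℝ := y.kap (z.D.W.pc Z.e ρ)

/-- `x` fills the lens wall `l` -/
abbrev Fl (δ : ℝ) (x : Z.J0.Obc Z.e) (l : S.ls) : Prop := Fil δ 0 (o0 y) x l (hp l.1 false)

/-- the level of a region, with chains and dropped cuts -/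
def Kp (π : Reg S.A) : ℝ := kp y (ou Z.e π) + ∑ l ∈ LE Z.e π, (kp y (hp l.1 false) + y.k l) +
  (DR y.H π).card

/-- the regions with spinor -/
def FR (b : Bool) : Finset (Reg S.A) := {π ∈ Z.Rg b | y.TF (ou Z.e π)}

/-- the index of a region -/
def Xt (ρ : Finset S.A) (o : Bool → P.C.C) (π : Reg S.A) : ℝ :=
  Wr z.t Z.i π ρ (Kp y π) - 4 + et z.t π P.Γ P.H.e0 o true

/-- its anti-self-dual index -/
def Xf (ρ : Finset S.A) (o : Bool → P.C.C) (π : Reg S.A) : ℝ :=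
  Dr z.t Z.i π ρ (Kp y π) + et z.t π P.Γ P.H.e0 o false

end obj

/-- the index formula for the charts of the outer pieces of the regions `Q` -/
def IxAt (δ : ℝ) : Prop := ∀ k r n (τ : TrS S Z.F.Wi r n) (f : Bool) (Q : Finset (Reg S.A)) p q
  (y : (Z.jb k τ).Obc Z.e) o (d : ℤ) (x : S.ls → Z.J0.Obc Z.e) (dl : S.ls → ℤ),
  MJ (Z.jb k τ) Z.e z.t.a → PG (Z.jb k τ) Z.e Z.ce p → Q ⊆ Z.Rg false ∪ Z.Rg true →
  p.P = ou Z.e '' ↑Q → p.P' = spO f p.P → SA z.t.a p Z.ce q y → ChA z.t.a δ Z.ce p q y d →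
  (∀ b, p.En z.t.a b → Cl y o b) → (∀ π ∈ Q, ∀ l ∈ LE Z.e π, Fl y δ (x l) l ∧
    Ix δ (x l) {hp l.1 false} (spO f {hp l.1 false}) (dl l)) →
  (d : ℝ) = ∑ π ∈ Q, ((bif f then 6 else 8) * kp y (ou Z.e π) - 3 * bR z.t Z.i π +
    (bif f then sR z.t Z.i π / 2 else 0) + et z.t π P.Γ P.H.e0 o f +
    (if π z.t.a = some true then (nz (yD y₀) f (P.C.β (o true)) : ℝ) else 0) +
    ∑ l ∈ LE Z.e π, ((bif f then 6 else 8) * kp (x l) (hp l.1 false) - dl l +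
      dz ((Z.jb k τ).xs l).D (y.β l true)))

/-- the levels -/
def LvAt (Adm : (Z.F.Wi →₀ ℝ) → Prop) : Prop := ∀ q (y : Z.Ob) o (x : S.ls → Z.J0.Obc Z.e) δ b,
  ∀ π ∈ Z.Rg b, Adm q → Sol Z.ce q y → Cl y o false → 0 < δ → π z.t.a ≠ some true →
  (∀ l ∈ LE Z.e π, Fl y δ (x l) l) → ∃ n : ℤ,
    kp y (ou Z.e π) + ∑ l ∈ LE Z.e π, kp (x l) (hp l.1 false) =
      (if π z.t.a = none then 0 else P.Γ.k (o false)) + sR z.t Z.i π / 4 + n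

/-- the insides of the broken lens walls -/
def LxAt (δ : ℝ) (Adm : (Z.F.Wi →₀ ℝ) → Prop) : Prop := ∀ q (y : Z.Ob) (l : S.ls), Adm q →
  Sol Z.ce q y → l.1 ∈ Z.e.1 → ¬y.TF (hp l.1 false) ∧ ∃ (x : Z.J0.Obc Z.e) (e : ℕ) (dA dT : ℤ),
    Fl y δ x l ∧ kp y (hp l.1 false) + y.k l = kp x (hp l.1 false) + e ∧
    Ix δ x {hp l.1 false} ∅ dA ∧ Ix δ x {hp l.1 false} {hp l.1 false} dT ∧
    let m : ℤ := e + if l ∈ y.H then 0 else 1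
    1 ≤ dA + 8 * m ∧ 2 ≤ dT + 6 * m

/-- the combinatorics and the sums of the numbers -/
structure Sm : Prop where
  one : ∀ b, ∃ π ∈ Z.Rg b, π z.t.a = some b ∧ ∀ π' ∈ Z.Rg b, π' ≠ π → π' z.t.a = none
  top : ∀ b, z.t.sd b (pe Z.e) = ∅ → Z.Rg b = {hp z.t.a b}
  pc : ∀ b, ∀ π ∈ Z.Rg b, S.In Z.e π (ou Z.e π)
  cov : ∀ ρ, S.M.sys.Piece Z.e.1 ρ → (∃ b, ρ ∈ Z.Ro b) ∨ ∃ l : S.ls, l.1 ∈ Z.e.1 ∧ ρ = hp l.1 false
  ins : ∀ b, ∀ π ∈ Z.Rg b, ∀ ρ, S.In Z.e π ρ ↔ ρ = ou Z.e π ∨ ∃ l ∈ LE Z.e π, ρ = hp l.1 false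
  inj : InjOn (ou Z.e) ↑(Z.Rg false ∪ Z.Rg true)
  dis : Disjoint (Z.Rg false) (Z.Rg true)
  le : ∀ l : S.ls, l.1 ∈ Z.e.1 → ∃ π ∈ Z.Rg true, l ∈ LE Z.e π
  uq : ∀ x, ∀ π ∈ Z.Rg false ∪ Z.Rg true, ∀ π' ∈ Z.Rg false ∪ Z.Rg true,
    x ∈ S.M.sys.inn π → x ∈ S.M.sys.inn π' → π = π'
  nm : ∀ ρ, pe Z.e ⊆ ρ → ρ ⊆ Z.σ → ∀ b,
    ∑ π ∈ Z.Rg b, S.nm ρ π + (z.t.sd b (pe Z.e)).card = (z.t.sd b ρ).card
  sd : ∀ ρ ⊆ Z.σ, (z.t.sd false ρ).card + (z.t.sd true ρ).card = ρ.card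
  nh0 : ∀ π ∈ Z.Rg false, S.nh π = 0
  nh : ∑ π ∈ Z.Rg true, S.nh π + S.nd (pe Z.e) = S.ls.card
  nd0 : z.t.sd true (pe Z.e) = ∅ → S.nd (pe Z.e) = 0
  nc : z.t.G.card ≤ ∑ π ∈ Z.Rg true, z.t.nc π
  sL : ∑ π ∈ Z.Rg false, bR z.t Z.i π = z.t.β₀ + (z.t.sd false (pe Z.e)).card ∧
    ∑ π ∈ Z.Rg false, sR z.t Z.i π = z.t.l₀ - z.t.s₀
  sR : ∑ π ∈ Z.Rg true, (sR z.t Z.i π / 2 - 3 * bR z.t Z.i π) =
    d0 S Z.i - 3 * (z.t.sd true (pe Z.e)).card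
  sdP : Z.e.1 = {z.t.a} → (∀ b, sdP z.t Z.e b = {hp z.t.a b}) ∧ Z.J.unc Z.e = univ
  V : ∀ Q ⊆ Z.Rg false ∪ Z.Rg true, (Z.J.lv (shS S) Z.ce Z.e (ou Z.e '' ↑Q)).ncard +
    ∑ π ∈ Q, (LE Z.e π).card = ∑ π ∈ Q, S.nm Z.τ π
  H : ∀ Q ⊆ Z.Rg false ∪ Z.Rg true, ∀ H, ∑ π ∈ Q, S.nh π ≤
    (Z.J.cs (ou Z.e '' ↑Q) H).ncard + ∑ π ∈ Q, (LE Z.e π ∪ DR H π).card
  bal : ∀ q (y : Z.Ob), Sol Z.ce q y → ∃ l : ℕ,
    ∑ π ∈ Z.Rg false, Kp y π + ∑ π ∈ Z.Rg true, Kp y π + y.k z.t.a + l = Z.J.k ∧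
    y.l = l + ∑ π ∈ Z.Rg true, (DR y.H π).card

variable {Z}

/-- what regularity of the left part gives -/
def okL (y : Z.Ob) : Prop := ∀ o, (∀ b, Cl y o b) →
  (if ∀ π ∈ FR y false, π z.t.a ≠ none → P.C.fx (o false) then 1 else 0 : ℝ) ≤
    ∑ π ∈ FR y false, Xt y Z.τ o π + 2 * z.m + 1

/-- what regularity of the right part gives -/
def okR (y : Z.Ob) : Prop := ∀ o, (∀ b, Cl y o b) →
  1 + ∑ π ∈ FR y true, ((LE Z.e π ∪ DR y.H π).card : ℝ) ≤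
    ∑ π ∈ FR y true, Xt y Z.τ o π - 2 * (z.k : ℕ)

/-- what regularity of an irreducible piece gives -/
def okI (ρ : Reg S.A) (y : Z.Ob) : Prop := ∀ o, (∀ b, Cl y o b) →
  ∀ π ∈ Z.Rg false ∪ Z.Rg true, ou Z.e π = ρ → 0 ≤ Xf y Z.τ o π

end Z1

/-- `Pr.Fp` on any face -/
def Fq {t : TD y₀ S} {N n D} {F : Pr t N n D} {c d i m k} (C : N.CD (yD y₀)) (lv : C.C → ℝ)
    (σ : Finset S.A) {e : S.M.Cl} (x : (F.J c d i m k).Obc e) : Prop :=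
  ∃ o : C.C, (yD y₀).Eqv (cv (F.xs_a i) (x.β t.a false)) (C.β o) ∧ ¬C.fx o ∧
    6 * x.kap (D.W.un e (sdP t e false)) + 2 * m + (t.sd false σ).card = lv o

/-- **the type of the regular face objects at `a`** -/
def TA {t : TD y₀ S} {N n D} (F : Pr t N n D) (c d i m k) (C : N.CD (yD y₀)) (lv : C.C → ℝ)
    (δ₁ : ℝ) : Kof81.Ty (F.J c d i m k) := fun σ e q y =>
  Nk89.FRY (F.J c d i m k) δ₁ σ e q y ∧ ∀ τ, σ = cel τ none → Fq C lv τ y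

namespace Z1
variable {z : Z0 P S} (Z : Z1 z) (Adm : (Z.F.Wi →₀ ℝ) → Prop)

/-- models of the left parts -/
def MoL : Prop := ∀ F ⊆ Z.Ro false, F.Nonempty →
  ∃ D, MAx Z.J Z.e Z.ce Adm D (fun y => y.F (Z.Ro false) = F) okL

/-- models of the right parts -/
def MoR : Prop := ∀ F ⊆ Z.Ro true, ∀ H, ∃ D, MAx Z.J Z.e Z.ce Adm D
  (fun y => y.F (Z.Ro true) = F ∧ y.H = H ∧ ∃ π ∈ F, ¬FixP y π) okR

/-- models of the irreducible pieces -/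
def MoI : Prop := ∀ b, ∀ π ∈ Z.Ro b, ∀ H, ∃ D, MAx Z.J Z.e Z.ce Adm D
  (fun y => ¬y.TF π ∧ ¬y.TA π ∧ y.H = H) (okI π)

/-- the model of the whole face -/
def MoW (δ₁ : ℝ) : Prop := Z.e.1 = {z.t.a} → Z.τ.card = z.d →
  ∃ D, MAx Z.J Z.e Z.ce Adm D (Fo Z.Ro) (fun _ => True) ∧ ∀ q y, Adm q → Sol Z.ce q y → Fo Z.Ro y →
    D.Reg q y → (∀ b, ¬(Z.J.xs z.t.a).D.Fx (y.β z.t.a b)) → Nk89.FRY Z.J δ₁ Z.ce Z.e q y

/-- the whole face -/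
abbrev pW : Prt S.A (S.A ⊕ Unit) S.ls :=
  Z.J.prt (shS S) Z.ce Z.e {hp z.t.a false, hp z.t.a true} {hp z.t.a false, hp z.t.a true} univ

/-- density on the whole face -/
def DnAt : Prop := Z.e.1 = {z.t.a} → ∀ δ Adm q (y : Z.Ob), Adm q → Z.Dead q → Sol Z.ce q y →
  y.Tight → (∀ b, y.TF (hp z.t.a b)) → ¬FixP y (hp z.t.a true) → OnC z.t.a δ Z.ce Z.pW Adm q y

/-- regions without spinor away from `a` -/
def RbAt (π : Reg S.A) (w : ℝ) : Prop := ∀ b, π ∈ Z.Rg b → π z.t.a = none → ∀ q (y : Z.Ob),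
  Adm q → Sol Z.ce q y → ¬y.TF (ou Z.e π) → (¬y.TA (ou Z.e π) → okI (ou Z.e π) y) →
  w ≤ Wr z.t Z.i π Z.σ (Kp y π)

/-- regions without spinor at `a` -/
def RaAt : Prop := ∀ b, ∀ π ∈ Z.Rg b, π z.t.a ≠ none → ∀ q (y : Z.Ob), Adm q → Sol Z.ce q y →
  ¬y.TF (ou Z.e π) → -1 / 16 ≤ Kp y π ∧
    (S.Nf Z.i z.t.a (insert z.t.a (pe Z.e)) π → ¬y.TA (ou Z.e π))

/-- abelian monopoles on the right -/
def SbAt (C₀ : ℝ) : Prop := ∀ q (y : Z.Ob) (kk : Reg S.A → ℝ), Adm q → Sol Z.ce q y →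
  (∀ π ∈ FR y true, FixP y (ou Z.e π) ∧ S.Lb Z.i (pe Z.e) (z.t.op π) (z.t.V π) (kk π)) →
  ∑ π ∈ FR y true, kk π ≤ ∑ π ∈ FR y true, Kp y π + C₀

end Z1

/-! ### the leaves -/

variable (Lm)

/-- a property of all jobs over scenes -/
def AllJ (Q : ∀ {S : Scene Lm} {D : S.Dat} {i Wi r n}
    (_ : Job Wi (D.Λ i) (S.A ⊕ Unit) S.ls r n) (_ : S.M.Cl) (_ : S.A), Prop) : Prop :=
  ∀ (S : Scene Lm) (D : S.Dat) i Wi r n (J : Job Wi (D.Λ i) (S.A ⊕ Unit) S.ls r n) c a, Q J c a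

/-- the leaves at job level -/
structure JA : Prop where
  pm : AllJ Lm fun J c a => PmA J c a
  de : AllJ Lm fun J c a => DeA J c a
  sy : AllJ Lm fun J c a => SyA J c a
  dnx : AllJ Lm fun J c a => DnX J c a
  fx : AllJ Lm fun J c _ => FxA J c
  lm : AllJ Lm fun J c a => LmA J c a
  ly : LyStmt Lm

/-- a property of all faces -/
def AllZ (P : Pk y₀) (Q : ∀ {S : Scene Lm} {z : Z0 P S}, Z1 z → Prop) : Prop :=
  ∀ (S : Scene Lm) (z : Z0 P S) R (Z : Z1 z) T, z.OK R → Z.OK T → Q Z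

/-- **LEAF HD + IXA + LV** -/
def HdStmt : Prop := ∀ y₀ : G75.YD κ lam, y₀.OK → ∃ H : Hd (yD y₀), H.OK ∧ H.k = 8 ∧
  ∀ P : Pk y₀, (∃ e0, P.H = { H with e0 := e0 }) → AllZ Lm P fun Z => Z.Sm →
    (∀ᶠ δ in 𝓝[>] (0 : ℝ), Z.IxAt δ) ∧ An.Sml Z.LvAt

/-- **LEAF SUMS** -/
def SmStmt : Prop := ∀ (y₀ : G75.YD κ lam) (P : Pk y₀), AllZ Lm P fun Z => Z.Sm

/-- **LEAF INT** -/
def IntStmt : Prop := ∀ (y₀ : G75.YD κ lam) (S : Scene Lm) (t : TD y₀ S) R c d, y₀.OK → t.OK R c →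
  CN S d c → c ≠ 0 → ∃ n : ℤ, 2 * (t.l₀ - t.s₀) = n

/-- **LEAF LIXP** -/
def LxStmt : Prop := ∀ (y₀ : G75.YD κ lam) (P : Pk y₀), AllZ Lm P fun Z =>
  ∀ᶠ δ in 𝓝[>] (0 : ℝ), An.Sml (Z.LxAt δ)

/-- **LEAF DN-W** -/
def DnW : Prop := JA Lm → ∀ (y₀ : G75.YD κ lam) (P : Pk y₀), AllZ Lm P fun Z => Z.Sm → Z.DnAt

/-- the models -/
def MoStmt (Q : ∀ {y₀ : G75.YD κ lam} {P : Pk y₀} {S : Scene Lm} {z : Z0 P S} (Z : Z1 z),
    ((Z.F.Wi →₀ ℝ) → Prop) → Prop) : Prop := JA Lm → ∀ (y₀ : G75.YD κ lam) (P : Pk y₀),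
  AllZ Lm P fun Z => Z.Sm → Z.DnAt → (∀ᶠ δ in 𝓝[>] (0 : ℝ), Z.IxAt δ ∧ An.Sml (Z.LxAt δ)) →
    An.Sml fun Adm => (∀ q, Adm q → Z.Dead q) → Q Z Adm

/-- **LEAVES ML, MR, MI, MW** -/
def MlStmt : Prop := MoStmt Lm fun Z => Z.MoL
def MrStmt : Prop := MoStmt Lm fun Z => Z.MoR
def MiStmt : Prop := MoStmt Lm fun Z => Z.MoI
def MwStmt : Prop := ∀ δ₁ > 0, MoStmt Lm fun Z Adm => Z.MoW Adm δ₁

/-- pieces without spinor at the neck with terms -/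
def EnAt (y₀ : G75.YD κ lam) (Rw : YDen (yY y₀).M → ℝ) : Prop := ∀ P : Pk y₀, SmI P.N Rw →
  ∀ K₀ (S : Scene Lm) (z : Z0 P S) R, z.OK R → ∀ᶠ T in 𝓝[<] (1 : ℝ),
    ∀ F : Pr z.t P.N z.n z.D, F.OK z.c z.d T → ∀ i, z.c i ≠ 0 →
      An.Sml fun Adm => NK (F.J z.c z.d i z.m z.k) Adm K₀

/-- **LEAF EN18** -/
def EnStmt : Prop := ∀ y₀ : G75.YD κ lam, y₀.OK → ∃ Rw, EnAt Lm y₀ Rw

/-- **LEAF RB** -/
def RbStmt : Prop := JA Lm → ∀ (y₀ : G75.YD κ lam) (P : Pk y₀) (S : Scene Lm) (z : Z0 P S) R i σ c₀ π w,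
  z.OK R → S.Bd i σ c₀ π w → ∀ᶠ T in 𝓝[<] (1 : ℝ), ∀ Z : Z1 z, Z.OK T → Z.i = i → Z.σ = σ →
    insert z.t.a (pe Z.e) = c₀ → Z.Sm → An.Sml Z.LvAt →
    (∀ᶠ δ in 𝓝[>] (0 : ℝ), An.Sml (Z.LxAt δ)) → An.Sml fun Adm => Z.RbAt Adm π w

/-- **LEAF RA** -/
def RaStmt : Prop := JA Lm → ∀ (y₀ : G75.YD κ lam) (P : Pk y₀), AllZ Lm P fun Z => Z.Sm →
  (∃ δ, An.Sml (Z.LxAt δ)) → (∃ K₀, An.Sml fun Adm => NK Z.J Adm K₀) → An.Sml Z.RaAt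

/-- **LEAF SB** -/
def SbStmt : Prop := ∀ (y₀ : G75.YD κ lam) (P : Pk y₀), P.OK → ∃ C₀ : ℝ,
  ∀ (S : Scene Lm) (t : TD y₀ S) R c d, t.OK R c → CN S d c → c ≠ 0 → ∃ D, ∀ n m k,
    ∀ᶠ T in 𝓝[<] (1 : ℝ), ∀ Z : Z1 (⟨t, c, d, n, D, m, k⟩ : Z0 P S), Z.OK T → Z.Sm →
      (∃ δ > 0, An.Sml (Z.LxAt δ)) → An.Sml fun Adm => Z.SbAt Adm C₀

variable (κ lam) in
/-- **LEAF NP** (CRIT with the gradings of the reference) -/
def NpStmt : Prop := ∀ y₀ : G75.YD κ lam, y₀.OK → ∀ (H : Hd (yD y₀)) Rw cI, H.OK → H.k = 8 →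
  ∃ (N : ND (yY y₀).M (lam ⊕ lam)) (C : N.CD (yD y₀)), N.OK (yD y₀) ∧ SmI N Rw ∧
    C.RuleI (H.gr C) cI ∧ C.RuleS (H.gr C)

variable (κ lam) in
/-- **LEAF MS** -/
def MsStmt : Prop := ∀ (y₀ : G75.YD κ lam) (P : Pk y₀) cI, P.OK → P.C.RuleI P.Γ cI →
  P.C.RuleS P.Γ → P.MS

/-- **OUTPUT** (helper18, from all leaves): the strata of the faces on which `a` is broken -/
def FaceStmt : Prop := ∀ y₀ : G75.YD κ lam, y₀.OK → ∀ Rw, EnAt Lm y₀ Rw → ∃ R : ℕ,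
  ∀ (S : Scene Lm) (t : TD y₀ S) d c, t.OK R c → t.NA c → CN S d c → c ≠ 0 →
  ∃ P : Pk y₀, P.OK ∧ SmI P.N Rw ∧ P.MS ∧ ∃ D lv, ∀ n m (k : Fin (n + 1)), ↑k ≤ m →
    ↑k ≤ Fintype.card P.C.C → ∀ᶠ T in 𝓝[<] (1 : ℝ), ∀ Z : Z1 (⟨t, c, d, n, D, m, k⟩ : Z0 P S),
      Z.OK T → ∀ δ₁ > 0, An.Sml fun Adm => (∀ q, Adm q → Z.Gq q) → Z.J.FinE Z.ce Z.e Adm →
        ∃ T, Kof81.StrOK Z.J (-d) (TA Z.F c d Z.i m k P.C lv δ₁) Adm Z.ce Z.e T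

variable {Lm}

theorem cd_of {Wi : Type} {Y Y' : Xs Wi κ lam} (e : Y = Y') (C : Y'.N.CD Y'.D) :
    Nonempty (Y.N.CD Y.D) := e ▸ ⟨C⟩

/-- the standing hypotheses hold for the jobs of a prism -/
theorem Z1.mj {z : Z0 P S} {Z : Z1 z} {R T} (h0 : z.OK R) (h1 : Z.OK T) (ly : LyStmt Lm) {k r n}
    {τ : TrS S Z.F.Wi r n} (hJ : (Z.jb k τ).OK) (hL : LocP (Z.jb k τ) (shS S)) :
    MJ (Z.jb k τ) Z.e z.t.a where
  ok := hJ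
  mem := ⟨h1.a, (h0.cn.ok.fz _ h0.t.fz.1).1⟩
  cd := cd_of (Z.F.xs_a Z.i) P.C
  nil x hx := by
    unfold Nl
    rw [show (Z.jb k τ).xs x = _ from Z.F.xs_ne Z.i hx]
    exact ⟨Ink3.nd0_nil, rfl⟩
  py x hx h := (ly _ _ _ _ _ _ _ h0.cn.ok hJ x (((h0.cn.cl.mem _ _ h1.c).2.2 x
    (h1.sub ((h1.e hx.1).resolve_left h))).resolve_left hx.2)).1
  bas := hL.bas
  nb := hL.nb

end Crest.Agent.X212.Fk18
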