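import Crest.Agent.X212.Nd18.Ind

/-!
# Row 212, IND (helper18): the index formulas which are consumed
-/

set_option autoImplicit false
set_option linter.unusedSectionVars false
noncomputable section
open scoped Manifold ContDiff Topology InnerProductSpace
open MeasureTheory Set Function Filter

namespace Crest.Agent.X212.Nd18
open An M Cyf70 Mod61 Map77 Nk89 Idg99

variable {κ lam : Type} [Fintype κ] [Fintype lam] {Y : Mf 3} [CompactSpace Y.M]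
  {D : YD Y.I Y.M κ lam}

variable (κ lam) in
/-- LEAF IX-MON: the index is locally monotone in the weight -/
def MonStmt (k : ℕ) : Prop := ∀ (Z : Mf 4) (b : BG κ lam Z) O c β δ₀, b.OK O → b.Std c β →
  δ₀ ≤ Cht98.dl0 → (∀ δ ∈ Ioo 0 δ₀, ∀ a, ∃ f s, (∀ x ∈ (b.E a).U s, x ∈ O ↔ f = true) ∧
    Fz κ lam k (b.E a).X f (β a) δ) → ∀ δ ∈ Ioo 0 δ₀, ∀ᶠ δ' in 𝓝 δ, ∀ d d',
  b.Ix O c k δ d → b.Ix O c k δ' d' → (δ ≤ δ' → d' ≤ d) ∧ (δ' ≤ δ → d ≤ d')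

variable (κ lam) in
/-- all leaves -/
structure IxL (k : ℕ) : Prop where
  geq : GeqStmt κ lam k
  cut : CutStmt κ lam k
  spl : SplStmt κ lam k
  top : TopStmt κ lam
  glc : GlcStmt κ lam
  trp : TrpStmt κ lam
  std : StdStmt κ lam
  clo : CloStmt κ lam k
  rz : RzStmt κ lam k
  mon : MonStmt κ lam k
  inv : InvStmt κ lam k
  cyl : CylStmt κ lam

namespace Hd
variable (H : Hd D) {N : ND Y.M lam} (S : N.CD D)

/-- the topological term of the right part -/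
def τ (N : ND Y.M lam) (f : Bool) : ℝ :=
  (H.R.bg N false).tA + (H.R.bg N false).tD (spO f H.R.O)

/-- the end term of an outgoing end -/
def ep (f : Bool) (i : S.C) : ℝ :=
  (bif f then (H.gr S).η i - H.e0 else (H.gr S).ηA i) + H.τ N f

/-- the formulas for the weight `δ` -/
structure Aps (δ : ℝ) : Prop where
  fz : ∀ f i, f = true ∨ D.Zr (S.β i) → Fz κ lam H.k ⟨Y, D, N⟩ f (S.β i) δ ∧
    (XD.mk Y D N).bg.Ix (spO f univ) (cy (S.β i)) H.k δ (nz D f (S.β i))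
  left : ∀ (Z : Mf 4) (b : B1 D Z) f c i d, Clo ⟨Y, D, N⟩ (b.bg N true) (H.R.bg N false) →
    (b.bg N true).Std c (fun _ => S.β i) → f = true ∨ D.Zr (S.β i) →
    (b.bg N true).Ix (spO f b.O) c H.k δ d → d = (b.bg N true).top (spO f b.O) c + H.ep S f i
  right : ∀ (Z₃ Z₄ : Mf 4) (b₃ : B1 D Z₃) (b₄ : BG κ lam Z₄) O₄ f c₃ c₄ β₄ i d (E : ℝ),
    Clo ⟨Y, D, N⟩ (b₃.bg N true) (H.R.bg N false) → (b₃.bg N true).Std c₃ (fun _ => S.β i) →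
    b₄.Std c₄ β₄ → f = true ∨ D.Zr (S.β i) →
    (∀ s, ∃ (Z₁ : Mf 4) (b₁ : BG κ lam Z₁) (g : GC ⟨Y, D, N⟩ b₁ (b₃.bg N true) b₄) (O₁ : Set Z₁.M),
      s ≤ g.s₃ ∧ s ≤ g.s₄ ∧ g.Sp O₁ (spO f b₃.O) O₄ f ∧ g.Sp ∅ ∅ ∅ false ∧ g.E₄.Sd c₄ (S.β i) ∧
      (∃ c₀, Cfg.Adm (r := 0) c₀ b₁.B b₁.G) ∧ ∀ c₁, g.Cf c₁ c₃ c₄ (S.β i) →
        ∃ d₁, b₁.Ix O₁ c₁ H.k δ d₁ ∧ d₁ = b₁.top O₁ c₁ + E) →
    b₄.Ix O₄ c₄ H.k δ d → d = b₄.top O₄ c₄ + E + nz D f (S.β i) - H.ep S f i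
  path : ∀ f c i j d, (XD.mk Y D N).bg.Std c (fun o => bif o then S.β j else S.β i) →
    f = true ∨ D.Zr (S.β i) ∧ D.Zr (S.β j) → (XD.mk Y D N).bg.Ix (spO f univ) c H.k δ d →
    d = (bif f then 6 else 8) * c.kap D.B D.G + H.ep S f j - H.ep S f i + nz D f (S.β i)

/-- the levels -/
structure Lvl : Prop where
  left : ∀ (Z : Mf 4) (b : B1 D Z) c i, Clo ⟨Y, D, N⟩ (b.bg N true) (H.R.bg N false) →
    (b.bg N true).Std c (fun _ => S.β i) → ∃ n : ℤ, (b.bg N true).kap b.O c = (H.gr S).k i +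
      ((b.bg N true).tD b.O + (H.R.bg N false).tD H.R.O) / 2 + n
  path : ∀ c i j, (XD.mk Y D N).bg.Std c (fun o => bif o then S.β j else S.β i) →
    ∃ n : ℤ, c.kap D.B D.G = (H.gr S).k j - (H.gr S).k i + n

end Hd

variable (D) in
/-- LEAF IX-APS -/
def ApsStmt : Prop := ∀ (H : Hd D) (N : ND Y.M lam) (S : N.CD D), IxL κ lam H.k → H.OK →
  (XD.mk Y D N).OK → H.Lvl S ∧ ∃ δ₀ > 0, δ₀ ≤ Cht98.dl0 ∧ ∀ δ > 0, δ < δ₀ → H.Aps S δ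

/-- LEAF IX-CH: from the points of a chart to the index of a standard configuration -/
def ChStmt (Z : Mf 4) (κ lam : Type) [Fintype κ] [Fintype lam] (k : ℕ) : Prop :=
  ∀ (b : BG κ lam Z) O' δ (g : b.GR O' δ) (o : Ref g.𝔉) R r n m
    (e : g.T → PtX Z.M (Option κ) lam r n m) (y : Pnt o r) (c : Cfg Z.M (Option κ) lam r) β d,
    b.OK O' → g.Ch k o R e → y.t = g.t → Nk89.Rep c y → Idx k e y d →
    (∀ a, (b.E a).X.D.Adm (β a) ∧ ∃ ζ, (b.E a).K.Lim c (β a) ζ (bif (b.E a).out then atTop else atBot)) →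
    Adm0 c b.B b.G → (∀ x ∈ b.O \ O', c.Φ x = 0) →
    ∃ c₀ : C0 Z κ lam, b.Std c₀ β ∧ b.Ix O' c₀ k δ d ∧ ∀ O, IsClopen O → O ⊆ b.O →
      b.kap O c₀ = ∫ x in O, c.m.kd b.B b.G.F c.W x ∂b.G.F.μ

end Crest.Agent.X212.Nd18
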