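import Crest.Agent.X212.Nk89.Gws
import Crest.Agent.X212.Pte3.Th
import Crest.Agent.X212.Nd18.Aps
import Crest.Agent.X212.Rf65.Pl

/-!
# Row 212, FACT (helper18): parts of faces on which the wall `a` with neck terms is broken.
Job level: charts, models, symmetries.
-/

set_option autoImplicit false
set_option linter.unusedSectionVars false
noncomputable section
open scoped Manifold ContDiff Topology InnerProductSpace
open MeasureTheory Set Function Filter Classical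

namespace Crest.Agent.X212.Fk18
open An M Nd18 Mod61 Nk89 Cht98 Rf65 Pte3
open An.Job (Sol SolOn StrOn Str)

variable {Wi : Type} {X : Mf 4} {A κ lam : Type} [Fintype A] [Fintype κ] [Fintype lam]
  [DecidableEq lam] {M : Mark X A κ} {W : World M} {N : ML M lam} {Λ : Lns W N}
  {A' h : Type} [Fintype A'] [DecidableEq A'] [Fintype h] {r n : ℕ}
  {J : Job Wi Λ A' h r n} {c : M.Cl} (a : A)

variable (J c) in
/-- `a` has nondegenerate critical points, the other broken walls are lens walls -/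
structure MJ : Prop where
  ok : J.OK
  mem : a ∈ cylW c
  cd : Nonempty ((J.xs a).N.CD (J.xs a).D)
  nil : ∀ x ≠ a, Nl J x
  py : ∀ x ∈ cylW c, x ≠ a → PY (J.xs x).D 0
  bas : ∀ w, Wrd81.Bas (J.tw w)
  nb : ∀ i, IsPreconnected (J.nb i)

/-- solutions on a part; the two ends of `a` have one limit -/
structure SA (p : Prt A A' h) (σ : Cel A') (q : Wi →₀ ℝ) (y : J.Obc c) : Prop
    extends SolOn p σ q y where
  fre : Fre p y
  one : p.En a false → p.En a true → y.β a false = y.β a true ∧ y.ζ a false = y.ζ a true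

/-- good charts of weight `δ₀` -/
structure GA (σ : Cel A') (δ₀ : ℝ) {p : Prt A A' h} (b : Bp J c) (δ : ℝ) (E : EC b p Empty δ) :
    Prop where
  ok : E.OK
  ov : J.Ov σ c b.s
  eq : δ = δ₀
  b0 : E.o.b = 0
  crit : ∀ i ∈ EdP c p.P, (J.xs i.1).N.Crit (J.xs i.1).D (E.β i)
  zr : ∀ i ∈ EdP c p.P, i ∉ EdP c p.P' → (J.xs i.1).D.Zr (E.β i)
  mt : ∀ k : a ∈ cylW c, p.En a false → p.En a true → E.β (⟨a, k⟩, false) = E.β (⟨a, k⟩, true)
  one : ∃ q y x ψ, SolOn p σ q y ∧ E.RepC y x ψ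

/-- `FrC` with the standard equations of the cylinders -/
def FrX {p : Prt A A' h} {b : Bp J c} {δ : ℝ} (E : EC b p Empty δ) : Prop :=
  ∀ q, ∀ t ∈ (b.F p Empty δ).Q, ∀ i ∈ EdP c p.P, ∀ k k0,
    CylOK (δ := δ) k k0 8 (eZ (J.xs i.1).N (J.xs i.1).D) ∧
      (en E i).Loc E.o 8 δ E.R (EC.tot b p Empty δ q) t k k0 (eZ (J.xs i.1).N (J.xs i.1).D)

theorem FrX.frC {p : Prt A A' h} {b : Bp J c} {δ : ℝ} {E : EC b p Empty δ} (H : FrX E) : FrC E :=
  fun q t ht i hi k k0 => ⟨_, H q t ht i hi k k0⟩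

/-- a good chart at `y` of index `d` -/
structure CA (σ : Cel A') (q : Wi →₀ ℝ) (y : J.Obc c) (d : ℤ) {p : Prt A A' h} {b : Bp J c} {δ : ℝ}
    (E : EC b p Empty δ) (x : Pnt E.o r) (ψ : E.K) : Prop where
  ga : GA a σ δ b δ E
  sm : SmC E
  fr : FrX E
  rep : E.RepC y x ψ
  mt : Mt E y x.t
  idx : Idx 8 (EC.tot b p Empty δ q) x d

/-- `y` has a good chart of index `d` -/
def ChA (δ : ℝ) (σ : Cel A') (p : Prt A A' h) (q : Wi →₀ ℝ) (y : J.Obc c) (d : ℤ) : Prop :=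
  ∃ (b : Bp J c) (E : EC b p Empty δ) (x : Pnt E.o r) (ψ : E.K), CA a σ q y d E x ψ

/-- `y` is regular in a good chart of index `d` -/
def RegA (δ : ℝ) (σ : Cel A') (p : Prt A A' h) (q : Wi →₀ ℝ) (y : J.Obc c) (d : ℤ) : Prop :=
  ∃ (b : Bp J c) (E : EC b p Empty δ) (x : Pnt E.o r) (ψ : E.K), CA a σ q y d E x ψ ∧ E.Reg q x ψ

/-- finitely many perturbations make the good charts at `y` regular -/
def OnC (δ : ℝ) (σ : Cel A') (p : Prt A A' h) (Adm : (Wi →₀ ℝ) → Prop) (q : Wi →₀ ℝ)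
    (y : J.Obc c) : Prop :=
  ∀ (b : Bp J c) (E : EC b p Empty δ) (H : CG σ E Adm) x ψ, GA a σ δ b δ E → b.s = y.s →
    E.RepC y x ψ → ∃ S, H.Q.Onto q ⟨(), x, ψ⟩ S

/-- fixed by the circle on the piece -/
def FixP (y : J.Obc c) (π : Reg A) : Prop := Fix (J.G c y.s).F y.x (W.pc c π)

/-- the expected dimension modulo the based gauge group and the phases of the cuts -/
def dmA (r n : ℕ) (p : Prt A A' h) (d : ℤ) : ℤ :=
  d + 2 * r - 2 * n - (min r 1 : ℕ) + p.V.ncard - 2 * p.H.ncard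

/-- the circle and the stabilisers at the lens ends -/
def sym (p : Prt A A' h) (y : J.Obc c) : ℕ :=
  (if (r ≠ 0 ∨ ∃ π ∈ p.P', ¬FixP y π) ∧
    ∀ b, (∃ π ∈ p.P', π a = some b) → (J.xs a).D.Fx (y.β a b) then 1 else 0) +
  ∑ᶠ i ∈ {i ∈ EdP c p.P | i.1.1 ≠ a}, dz (J.xs i.1).D (y.β i.1 i.2)

variable (J c)

/-- a property of all parts, for small weights and small perturbations -/
def AL (P : Cel A' → Prt A A' h → ℝ → ((Wi →₀ ℝ) → Prop) → Prop) : Prop :=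
  MJ J c a → ∀ᶠ δ in 𝓝[>] (0 : ℝ), An.Sml fun Adm => ∀ σ p, PG J c σ p → P σ p δ Adm

/-- **LEAF A-FR** (INV at `a`, P-INV at lens ends, LOC) -/
def FrA : Prop := AL J c a fun σ p δ _ =>
  ∀ (b : Bp J c) (E : EC b p Empty δ), GA a σ δ b δ E → FrX E

/-- **LEAF A-DEC**: one rate of decay -/
def DeA : Prop := AL J c a fun σ p δ Adm => ∀ q (y : J.Obc c), Adm q → SolOn p σ q y →
  ∀ i ∈ EdP c p.P, ∀ ha : Act J.m c i.1 (some i.2) (J.Θ y.s), ∃ d > 2 * δ,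
    (J.K c i.1 _ _ ha).ELim d y.x (y.β i.1 i.2) (y.ζ i.1 i.2) (dr i.2)

/-- **LEAF A-EX** (from A-DEC): charts exist -/
def ExA : Prop := AL J c a fun σ p δ Adm => ExH (J := J) (c := c) (SA a p σ) (GA (p := p) a σ δ) Adm

/-- **LEAF A-TL**: uniform tails -/
def TlA : Prop := AL J c a fun σ p δ Adm => TlH (J := J) (c := c) (SA a p σ) (GA (p := p) a σ δ) Adm

/-- **LEAF A-MD**: `Pte3.Out`, and density from the charts -/
def MdA : Prop := ∀ (σ : Cel A') (p : Prt A A' h) (δ : ℝ) (Sl : (Wi →₀ ℝ) → J.Obc c → Prop) Adm,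
  Hyp σ Sl (GA (p := p) a σ δ) Adm → ∃ D : Mo Wi (J.Obc c), Out σ Sl (GA (p := p) a σ δ) Adm D ∧
    ∀ q y, Adm q → Sl q y → OnC a δ σ p Adm q y → ∃ i x, D.rep i y x ∧ ∃ S, (D.Pb i).Onto q x S

/-- **LEAF A-SYM** -/
def SyA : Prop := MJ J c a → ∀ σ p δ q (y : J.Obc c) d, PG J c σ p → SA a p σ q y → Job.In p y →
  RegA a δ σ p q y d → (sym a p y : ℤ) ≤ dmA r n p d

/-- **LEAF A-DNX**: density without `z`; the coefficients are densities of the spinor -/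
def DnX : Prop := MJ J c a → r = 0 → ∀ σ p δ Adm q (y : J.Obc c), PG J c σ p → p.P' = p.P →
  (∀ s ∈ Job.cl σ, Sys.inf (J.Θ s).2 = c.1 → ∀ π ∈ p.P, J.RichT s π ∧
    (∀ i, J.nb i ⊆ M.sys.U π → J.RichC s π i) ∧ ∀ π' ∈ p.P, RichX J s π π') →
  Adm q → SA a p σ q y → Job.In p y → (∃ π ∈ p.P, ¬FixP y π) → OnC a δ σ p Adm q y

/-- **LEAF A-FIX**: fixed pieces stay fixed in the limit -/
def FxA : Prop := J.OK → ∀ σ ∈ J.𝒦, ∀ (α : Type) (𝒰 : Ultrafilter α) (q : α → Wi →₀ ℝ)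
  (y : α → J.Obc c) q₀ y₀ π, M.sys.Piece c.1 π → Sol σ q₀ y₀ →
  (∀ᶠ k in (𝒰 : Filter α), Sol σ (q k) (y k) ∧ FixP (y k) π) → Str 𝒰 y y₀ → FixP y₀ π

/-- **LEAF A-LIM**: types of limits -/
def LmA : Prop := J.OK → a ∈ cylW c → ∀ C : (J.xs a).N.CD (J.xs a).D, ∀ σ ∈ J.𝒦,
  ∀ q (y : J.Obc c) b o, Sol σ q y → (J.xs a).D.Eqv (y.β a b) (C.β o) →
  ((J.xs a).D.Fx (y.β a b) ↔ C.fx o) ∧ (J.xs a).N.Nondeg (J.xs a).D (y.β a b) ∧
  ∀ π, M.sys.Piece c.1 π → π a = some b → (FixP y π → C.fx o) ∧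
    (¬y.TF π → (J.xs a).D.Zr (C.β o) ∧ ¬Lin (J.G c y.s).F y.x (W.pc c π))

/-- the model of the solutions `Sl` on a part -/
structure MA (δ : ℝ) (σ : Cel A') (p : Prt A A' h) (Adm : (Wi →₀ ℝ) → Prop)
    (Sl : (Wi →₀ ℝ) → J.Obc c → Prop) (D : Mo Wi (J.Obc c)) : Prop where
  ax : D.Ax Adm Sl (fun _ 𝒰 y y₀ => StrOn p 𝒰 y y₀) fun _ => True
  reg : ∀ q y, Adm q → Sl q y → D.Reg q y → ∃ d, RegA a δ σ p q y d

/-- **A-PM** (from FR, EX, TL, MD, `Mon62.smM`, `Rz57.ixC`): models of parts -/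
def PmA : Prop := AL J c a fun σ p δ Adm => ∀ Sl : (Wi →₀ ℝ) → J.Obc c → Prop,
  (∀ q y, Adm q → Sl q y → SA a p σ q y ∧ OnC a δ σ p Adm q y) → ∃ D, MA J c a δ σ p Adm Sl D

end Crest.Agent.X212.Fk18
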