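import Crest.Agent.X212.Hd82.Defs
import Crest.Agent.X212.Add46.Rel
import Crest.Agent.X212.Nk89.Frd
import Crest.Agent.X212.Top36.Kap

/-!
# Row 212, CHX (helper18): from a good chart to the index of a standard configuration
-/

set_option autoImplicit false
set_option linter.unusedSectionVars false
noncomputable section
open scoped Manifold ContDiff Topology
open MeasureTheory Set Function Filter

namespace Crest.Agent.X212.Chx18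
open An M Nd18 Mod61 Nk89 Cht98 Rf65 Pte3 Fk18 Add46 Pj41

variable {κ lam : Type} [Fintype κ] [Fintype lam]

/-- the base point of a chart -/
theorem ch0 {Z : Mf 4} {b : BG κ lam Z} {O' δ} (g : b.GR O' δ) {o : Ref g.𝔉} {R r n m}
    {e : g.T → PtX Z.M (Option κ) lam r n m} {y : Pnt o r} {β : ∀ a, (b.E a).X.C} {d}
    (h : b.OK O') (ch : g.Ch 8 o R e) (hy : y.t = g.t) (hd : Idx 8 e y d)
    (hβ : ∀ a, (b.E a).X.D.Adm (β a) ∧ (b.E a).X.D.Eqv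
      ((End.mk (b.E a).X.Y (b.E a).X.D (g.K a) (b.E a).out : End g.𝔉).sl o (R + 1) g.t) (β a)) :
    ∃ c₀ : C0 Z κ lam, b.Std c₀ β ∧ b.Ix O' c₀ 8 δ d ∧ ∀ O, IsClopen O → O ⊆ b.O →
      b.kap O c₀ = ∫ x in O, o.m.kd b.B b.G.F y.cfg.W x ∂b.G.F.μ := by
  have H := g.X.ok
  have ad := (pt0 o r g.ht).ad0 H
  refine ⟨noz (pt0 o r g.ht).cfg, ⟨?_, fun a => ?_⟩, ⟨g, o, R, r, n, m, e, ch, ?_, ?_⟩,
    fun O hO hs => ?_⟩
  · rw [← g.hB, ← g.hG]; exact ⟨ad.ok, ad.conn, ad.sm, ad.pos, .inl rfl⟩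
  · obtain ⟨s₁, h1⟩ := g.hψ a
    obtain ⟨s₂, h2⟩ := h.en
    let P : End g.𝔉 := ⟨(b.E a).X.Y, (b.E a).X.D, g.K a, (b.E a).out⟩
    have l : P.Lit o R := (show _ = P from g.hP a) ▸ ch.lit.lit (g.f a)
    obtain ⟨w, ξ, k2⟩ := Ixc61.eq_pt0 (r := r) l g.ht (hβ a).2 (f := (b.E a).K.ψ)
      (O := univ ×ˢ (b.E a).ht (max R (max s₁ s₂))) fun z hz => ⟨(le_max_left _ _).trans_lt hz.2,
        (h1 ⟨trivial, (le_max_of_le_right (le_max_left s₁ s₂)).trans_lt hz.2⟩).symm⟩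
    exact ⟨w, ξ, _, (hβ a).1,
      fun s hs => (h2 a).1 ((le_max_of_le_right (le_max_right s₁ s₂)).trans_lt hs), k2⟩
  · have e1 : O'.indicator (pt0 o r g.ht).cfg.Φ = (pt0 o r g.ht).cfg.Φ :=
      indicator_eq_self.2 fun x hx => by_contra fun k => hx ((pt0 o r g.ht).off H x
        (by rwa [g.hO']))
    rw [← g.hB, ← g.hG, ← g.hO, show O'.indicator (noz (pt0 o r g.ht).cfg).Φ = _ from e1]
    exact ⟨_, _, Eqv71.ceq_refl H.B (H.G _ g.ht) (c := noz (pt0 o r g.ht).cfg)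
      ⟨ad.ok, ad.conn, ad.sm, ad.pos⟩ H.Om.2⟩
  · refine (g.X.fred o R r n m 8 e (by norm_num) ch.lit ch.aff y fun a ha => ?_).2 _ d hy.symm hd
    obtain ⟨a', e1⟩ := g.f.surjective ⟨a, ha⟩
    have k : ∀ P : End g.𝔉, P = ⟨_, _, g.K a', (b.E a').out⟩ → ∀ h h0, ∃ eZ,
        CylOK (δ := δ) h h0 8 eZ ∧ P.Loc o 8 δ R e g.t h h0 eZ := by
      rintro _ rfl h h0; exact ⟨_, ch.loc a' h h0⟩
    exact hy ▸ k _ ((congrArg (g.X.P ·.1) e1).symm.trans (g.hP a'))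
  · have k1 := (Top36.kapStmt _ _ _ g.X o R r y O ch.lit hO (g.hO ▸ hs)).symm
    rw [show pt0 o r y.ht = pt0 o r g.ht by simp only [pt0, hy], hy, g.hB, g.hG] at k1
    exact k1

variable [DecidableEq lam] {Wi : Type} {X : Mf 4} {A : Type} [Fintype A] {M : Mark X A κ}
  {W : World M} {N : ML M lam} {Λ : Lns W N} {A' h : Type} [Fintype A'] [DecidableEq A'] [Fintype h]
  {r n : ℕ} {J : Job Wi Λ A' h r n} {c : M.Cl} {P : Set (Reg A)}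

theorem eqv_trans {Y : Mf 3} [CompactSpace Y.M] {ι : Type} [Fintype ι] {D : YD Y.I Y.M κ ι}
    {β β' β''} (hD : D.OK) (h : D.Adm β) (h' : D.Adm β') (h'' : D.Adm β'') (e : D.Eqv β β')
    (e' : D.Eqv β' β'') : D.Eqv β β'' :=
  Eqv71.IsoOn.trans hD.B hD.G isOpen_univ (ad0_cy h) (ad0_cy h') (ad0_cy h'') e e'

/-- two base parameters with the same geometry over the pieces `P` -/
theorem move (L : IxL κ (lam ⊕ lam) 8) (hJ : J.OK) (hP : ∀ π ∈ P, M.sys.Piece c.1 π) {b b' : Bp J c}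
    (fr : ∀ x ∈ W.un c P, ∀ a, (J.G c b.s).F.e a x = (J.G c b'.s).F.e a x ∧
      (J.G c b.s).a a x = (J.G c b'.s).a a x) {x₀ : C0 (W.Z c) κ (lam ⊕ lam)}
    (h₀ : x₀.Adm (J.B c) (J.G c b'.s)) {x γ} (hx : (jBG b P).Std x γ) :
    ∃ x', (jBG b' P).Std x' γ ∧ (∀ π ∈ P, (jBG b' P).kap (W.pc c π) x' = (jBG b P).kap (W.pc c π) x) ∧
      ∀ P' ⊆ P, ∀ δ d d', (jBG b P).Ix (W.un c P') x 8 δ d → (jBG b' P).Ix (W.un c P') x' 8 δ d' →
        d = d' := by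
  have ok := fun b P' (k : P' ⊆ P) => jBG_ok hJ hP k b
  have o0 : ∀ b, (jBG b P).OK ∅ := fun b => by simpa [Caps.un] using ok b ∅ (empty_subset _)
  have hO := (o0 b).cl.2
  have g : GRel (J.B c) (J.G c b.s) (J.B c) (J.G c b'.s) (OpenPartialHomeomorph.ofSet _ hO)
      (W.un c P) := ⟨⟨hO, fun z _ => (Diffeomorph.refl _ _ _).isLocalDiffeomorph z, fun a z hz =>
    (DFunLike.congr_fun mfderiv_id _).trans (fr z hz a).1⟩, fun _ _ _ _ => rfl,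
    fun _ _ _ _ _ _ => rfl, fun _ _ => rfl, rfl, fun a z hz => (fr z hz a).2⟩
  let p : GP (jBG b P) (jBG b' P) := gpL (o0 b) (o0 b') g subset_rfl subset_rfl
  have mk : ∀ i : EdP c P, p.Mk (X := jX J i.1.1) ((jBG b P).E i).K ((jBG b' P).E i).K (!i.1.2) :=
    fun i => gpL_mk _ _ _ _ _ fun z hz => by
      have k := ((jBG b P).E i).K.mem_src.2 ((jE_ok hJ b).ht i.1 le_rfl hz.2)
      exact ⟨(jE_ok hJ b').ht i.1 le_rfl hz.2, (jE_ls hJ b hP).sub i (((jBG b P).E i).K.ψ.map_source k),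
        ((hJ.end_eq (act b i.1) (act b' i.1)).ψ k).symm⟩
  have gl : p.Gl (Equiv.refl _) := ⟨rfl, rfl, fun i => ⟨_, _, _, _, rfl, rfl, mk i⟩⟩
  obtain ⟨x', u, a, ce, -⟩ := L.trp _ _ _ _ p _ x x₀ (o0 b) (o0 b') gl hx.1 h₀
  refine ⟨x', ⟨a, fun i => (L.std.1 _ _ _ _ p _ _ _ _ _ _ _ _ _ (jX_ok hJ _) (o0 b) (o0 b') (mk i)
    ⟨0, (jE_ok hJ b).ht i.1 le_rfl, (jE_ok hJ b').ht i.1 le_rfl⟩ hx.1 a ce).1 (hx.2 i)⟩,
    fun π k => ?_, fun P' k δ d d' => L.geq _ _ _ _ p _ _ _ _ _ _ _ _ _ _ (ok b P' k) (ok b' P' k) gl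
      (fun _ _ => Iff.rfl) hx.1 a ce⟩
  have k' := singleton_subset_iff.2 k
  rw [← un_one]
  exact ((L.top.1 _ _ _ _ p _ _ _ (ok b _ k') (ok b' _ k') gl fun _ _ => Iff.rfl).2.2 _ _ _ _ hx.1 a
    ce).2.symm

variable (J c) in
/-- **LEAF CHX** -/
theorem chx (L : IxL κ (lam ⊕ lam) 8) : Hd82.ChxL J c := by
  rintro a σ p δ q y d b f γ H S ⟨b', E, x, ψ, C⟩ hb hp hγ
  have hJ := H.ok
  have K : CS σ E := ⟨H, C.ga.ok, C.ga.ov, C.sm⟩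
  have ov := K.ovx x
  let b₁ : Bp J c := ⟨b'.θ p Empty x.t, ⟨hJ.par σ H.mem _ ov.1, ov.2.ge⟩, x.ht⟩
  have hP := H.pok.pc
  let g : (jBG b₁ p.P).GR (W.un c p.P') δ := EB.gr (e := jE b₁)
    (endIn_J hJ b'.br b'.O (sm_θ b') H.cl (Job.isClopen_un fun π k => hP π (H.pok.sub k))
      (un_sub H.pok)) C.ga.ok.d0 C.ga.ok.d1 (jE_ok hJ b₁).X (jE_ls hJ b₁ hP)
    (fun i => hJ.tgt_eq (act b₁ i) (act b' i)) x.t x.ht rfl fun i z hz =>
      (hJ.end_eq (act b₁ i) (act b' i)).ψ (((jE b₁).E i).K.mem_src.2 ((jE_ok hJ b₁).ht i le_rfl hz.2))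
  have ch : g.Ch 8 E.o E.R (EC.tot b' p Empty δ q) :=
    ⟨K.lit, C.sm.aff.tot K.F C.sm.sm q, fun i => C.fr q x.t x.ht i.1 i.2⟩
  obtain ⟨x₁, k1, k2, k3⟩ := ch0 g (y := x) (β := fun i => γ i.1) (jBG_ok hJ hP H.pok.sub b₁) ch rfl
    C.idx fun i => by
      have D := (jX_ok hJ i.1.1).ok
      have a1 := (K.lit.lit i.1).adm K.F (K.ee.okP _) K.lit.le x.ht
      have a2 : (J.xs i.1.1).D.Adm (y.β i.1.1 i.1.2) :=
        ⟨(S.crit _ i.1.1.2 _ i.2).sol.toAdm, (S.crit _ i.1.1.2 _ i.2).tmp⟩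
      have a3 : (J.xs i.1.1).D.Adm (E.lim i.1 x.t) := by
        have e : E.μ i.1 = none := (E.μ i.1).casesOn rfl fun u => u.elim
        convert (⟨(C.ga.crit _ i.2).sol.toAdm, (C.ga.crit _ i.2).tmp⟩ : YD.Adm _ _) using 1
        rw [EC.lim, EC.lm, e, Option.elim_none, zero_smul]
        generalize E.β i.1 = β
        obtain ⟨m, W, Φ, z⟩ := β
        simp only [Rdc90.bh, vr, Cfg.mk.injEq, heq_eq_eq, true_and, and_true, Pi.zero_apply, add_zero]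
        funext o y
        cases o <;> simp [Md.addC]
      exact ⟨(hγ _ i.2).1, eqv_trans D a1 a2 (hγ _ i.2).1 (eqv_symm D a2 a1 (eqv_trans D a2 a3 a1
        (C.mt _ i.2) ⟨_, _, C.ga.ok.mov _ i.2 _ x.ht⟩)) (hγ _ i.2).2.1⟩
  have fr := H.pok.fr_eq hJ H.mem S.ov ov (θ_eq C.rep.s)
  have ad : (noz y.x).Adm (J.B c) (J.G c b.s) :=
    hb ▸ ⟨S.adm.ok, S.adm.conn, S.adm.sm, S.adm.pos, .inl rfl⟩
  obtain ⟨x₂, l1, l2, l3⟩ := move L hJ hP (b := b₁) (b' := b)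
    (fun z hz i => hb ▸ ⟨(fr z hz i).1.symm, (fr z hz i).2.symm⟩) ad k1
  have e : W.un c p.P' = spO f (W.un c p.P) := by
    rw [hp]; cases f; exacts [biUnion_empty _, rfl]
  obtain ⟨d', l4⟩ := L.rz _ _ _ x₂ _ δ (jBG_ok hJ hP H.pok.sub b) l1 C.ga.ok.d0 C.ga.ok.d1 fun i =>
    ⟨f, 0, fun z hz => by
      have := (jE_ls hJ b hP).sub i ((jE_ok hJ b).U_sub i.1 le_rfl hz)
      rw [e]; cases f <;> simp [spO, this], (hγ _ i.2).2.2⟩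
  refine ⟨x₂, l1, e ▸ l3 _ H.pok.sub δ d d' k2 l4 ▸ l4, fun π k => (l2 π k).trans ?_⟩
  have s : W.pc c π ⊆ W.un c p.P := fun z hz => mem_un.2 ⟨π, k, hz⟩
  have cl := Cyl58.isClopen_pc W.toCaps (hP π k)
  obtain ⟨u, ζ, e, -⟩ := C.rep.e
  have lm := (Wrd81.lg_on (Λ.B_ok _ _) (Λ.G_ok _ (hJ.memO H.mem S.ov)) (Λ.G_ok _ x.ht) H.cl.2
    fr).of_ceq (Eqv71.ad0 S.adm) (x.ad0 K.F) (Wrd81.ceq_on e fun z hz a => (fr z hz a).1.symm)
  have μ := H.pok.μ_eq hJ H.mem S.ov ov (θ_eq C.rep.s)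
  have μ' : (J.G c y.s).F.μ.restrict (W.pc c π) =
      (J.G c (b'.θ p Empty x.t)).F.μ.restrict (W.pc c π) := by
    rw [← Measure.restrict_restrict_of_subset s, μ, Measure.restrict_restrict_of_subset s]
  refine (k3 _ cl s).trans ?_
  rw [Job.Obc.kap, μ']
  exact setIntegral_congr_fun cl.2.measurableSet fun z hz => lm.kd (s hz)

end Crest.Agent.X212.Chx18
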