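import Crest.Agent.X212.Nk89.Lv
import Crest.Agent.X212.Idg99.Md
import Crest.Agent.X212.Mod61.Tr
import Crest.Agent.X212.Cht98.Fam

/-!
# Row 212, IND (helper18): the index of standard configurations, gradings, leaves
-/

set_option autoImplicit false
set_option linter.unusedSectionVars false
noncomputable section
open scoped Manifold ContDiff Topology InnerProductSpace
open MeasureTheory Set Function Filter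

namespace Crest.Agent.X212.Nd18
open An M Cyf70 Mod61 Map77 Nk89 Idg99

variable {κ lam : Type} [Fintype κ] [Fintype lam] {Y : Mf 3} [CompactSpace Y.M]
  {D : YD Y.I Y.M κ lam} {Z Z' Z₁ Z₃ Z₄ : Mf 4}

/-- the cylinder -/
@[reducible] def cylM (Y : Mf 3) : Mf 4 where
  E := Y.E × ℝ
  H := ModelProd Y.H ℝ
  I := IC Y.I
  M := Y.M × ℝ
  dim := by simp [Y.dim]

/-- the equations on the cylinder -/
def eZ (N : ND Y.M lam) (D : YD Y.I Y.M κ lam) : PtX (Y.M × ℝ) (Option κ) lam 0 0 0 :=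
  eq0 D.B D.G 0 0 0 - ⟨N.q1 D.nk, 0⟩

/-- configurations -/
abbrev C0 (Z : Mf 4) (κ lam : Type) [Fintype κ] [Fintype lam] : Type := Cfg Z.M (Option κ) lam 0

variable (κ lam) in
/-- a cross-section with its neck terms -/
structure XD : Type 1 where
  Y : Mf 3
  [cpt : CompactSpace Y.M]
  D : YD Y.I Y.M κ lam
  N : ND Y.M lam

attribute [instance] XD.cpt

/-- limits -/
abbrev XD.C (X : XD κ lam) : Type := YC X.Y.M κ lam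

structure XD.OK (X : XD κ lam) : Prop where
  ok : X.D.OK
  nd : X.N.OK X.D
  con : ConnectedSpace X.Y.M

/-- an end -/
structure En (B : Base Z.M (Option κ) lam) (G : Geo Z.I Z.M (Option κ) lam) : Type 1 where
  X : XD κ lam
  K : Nk X.D B G
  out : Bool

namespace En
variable {B : Base Z.M (Option κ) lam} {G : Geo Z.I Z.M (Option κ) lam} (e : En B G)

/-- the times of height `> s` -/
def ht (s : ℝ) : Set ℝ := {t | s < (bif e.out then 1 else -1) * t}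

/-- the end above the height `s` -/
def U (s : ℝ) : Set Z.M := e.K.ψ '' univ ×ˢ e.ht s

/-- `c` is `β` above the height `s` -/
structure St (c : C0 Z κ lam) (β : e.X.C) (w : e.X.Y.M × ℝ → CL c.m.V β.m.V) (ζ : Circle) (s : ℝ) :
    Prop where
  adm : e.X.D.Adm β
  sub : e.ht s ⊆ e.K.J
  eq : Mod61.EqOn e.X.D.B e.X.D.Z (univ ×ˢ e.ht s) (e.K.pb c) (cy β) w ζ

/-- `c` is `β` high up -/
def Sd (c : C0 Z κ lam) (β : e.X.C) : Prop := ∃ w ζ s, e.St c β w ζ s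

end En

variable (Z κ lam) in
/-- a background, a clopen set `O` and the ends of `O` -/
structure BG : Type 1 where
  B : Base Z.M (Option κ) lam
  G : Geo Z.I Z.M (Option κ) lam
  O : Set Z.M
  A : Type
  [fin : Fintype A]
  E : A → En B G

attribute [instance] BG.fin

/-- the cylinder with its two ends -/
@[reducible] def XD.bg (X : XD κ lam) : BG κ lam (cylM X.Y) :=
  ⟨X.D.B, X.D.G, univ, Bool, fun o => ⟨X, X.D.nk, o⟩⟩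

namespace BG
variable (b : BG κ lam Z)

/-- a family with ends through the background -/
structure GR (O' : Set Z.M) (δ : ℝ) : Type 1 where
  T : Type
  [nT : NormedAddCommGroup T]
  [sT : NormedSpace ℝ T]
  𝔉 : Fam Z.I Z.M (Option κ) lam T
  X : Ends 𝔉 δ
  t : T
  ht : t ∈ 𝔉.Q
  f : b.A ≃ {a // X.Act a}
  K : ∀ a, Nk (b.E a).X.D 𝔉.B 𝔉.G0
  hB : 𝔉.B = b.B
  hG : 𝔉.G t = b.G
  hO : 𝔉.Om = b.O
  hO' : 𝔉.Om' = O'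
  hP : ∀ a, X.P (f a) = ⟨(b.E a).X.Y, (b.E a).X.D, K a, (b.E a).out⟩
  hψ : ∀ a, ∃ s, EqOn (K a).ψ (b.E a).K.ψ (univ ×ˢ (b.E a).ht s)

attribute [instance] GR.nT GR.sT

variable {b} in
/-- a chart: a literal reference and equations which are the standard ones at the ends -/
structure GR.Ch {O' : Set Z.M} {δ : ℝ} (g : b.GR O' δ) (k : ℕ) (o : Ref g.𝔉)
    (R : ℝ) {r n m : ℕ} (e : g.T → PtX Z.M (Option κ) lam r n m) : Prop where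
  lit : g.X.Lit o R
  aff : Aff o (Fs g.𝔉) r n m e
  loc : ∀ a h h0, CylOK (δ := δ) h h0 k (eZ (b.E a).X.N (b.E a).X.D) ∧
    (End.mk (b.E a).X.Y (b.E a).X.D (g.K a) (b.E a).out).Loc o k δ R e g.t h h0
      (eZ (b.E a).X.N (b.E a).X.D)

/-- **the index** of a standard configuration; the spinor lives on `O'` -/
def Ix (O' : Set Z.M) (c : C0 Z κ lam) (k : ℕ) (δ : ℝ) (d : ℤ) : Prop :=
  ∃ (g : b.GR O' δ) (o : Ref g.𝔉) (R : ℝ) (r n m : ℕ) (e : g.T → PtX Z.M (Option κ) lam r n m),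
    g.Ch k o R e ∧ (∃ u ζ, Mod61.EqOn b.B b.G.F b.O ⟨c.m, c.W, O'.indicator c.Φ, 0⟩
      (noz (pt0 o r g.ht).cfg) u ζ) ∧ Idx k e (pt0 o r g.ht) d

/-- the level -/
def kap (O : Set Z.M) (c : C0 Z κ lam) : ℝ := ∫ x in O, c.m.kd b.B b.G.F c.W x ∂b.G.F.μ

/-- the topological term of the connection -/
def tA : ℝ := ∫ x in b.O, -(3 * (eud b.G.F b.B.o x + sgd b.G.F b.B.o x) / 2) ∂b.G.F.μ

/-- the topological term of the spinor -/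
def tD (O' : Set Z.M) : ℝ := ∫ x in O', (lad b.B b.G x - sgd b.G.F b.B.o x) / 2 ∂b.G.F.μ

/-- the integral of the index density -/
def top (O' : Set Z.M) (c : C0 Z κ lam) : ℝ :=
  8 * b.kap b.O c + b.tA - 2 * b.kap O' c + b.tD O'

/-- standard with the limits `β` -/
def Std (c : C0 Z κ lam) (β : ∀ a, (b.E a).X.C) : Prop :=
  c.Adm b.B b.G ∧ ∀ a, (b.E a).Sd c (β a)

structure OK (O' : Set Z.M) : Prop where
  X : ∀ a, (b.E a).X.OK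
  B : b.B.OK Z.I
  G : b.G.OK b.B
  cl : IsClopen b.O
  cl' : IsClopen O'
  sub : O' ⊆ b.O
  en : ∃ s, ∀ a, (b.E a).ht s ⊆ (b.E a).K.J ∧ (b.E a).U s ⊆ b.O ∧
    ∀ a', a' ≠ a → Disjoint ((b.E a).U s) ((b.E a').U s)
  cpt : ∀ s, (∀ a, (b.E a).ht s ⊆ (b.E a).K.J) → ∃ C, IsCompact C ∧ b.O ⊆ C ∪ ⋃ a, (b.E a).U s
  gr : ∀ δ > 0, δ ≤ Cht98.dl0 → ∃ g : b.GR O' δ, Subsingleton g.T ∧ g.𝔉.G0 = b.G

end BG

/-! ### patches -/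

/-- a partial identification of backgrounds -/
structure GP (b : BG κ lam Z) (b' : BG κ lam Z') where
  φ : OpenPartialHomeomorph Z.M Z'.M
  U : Z.M → Option κ → Option κ → ℝ
  v : Z.M → CL (Eu lam) (Eu lam)
  g : GEq b.B b.G b'.B b'.G φ U v
  sub : φ.source ⊆ b.O
  sub' : φ.target ⊆ b'.O

namespace GP
variable {b : BG κ lam Z} {b' : BG κ lam Z'} (p : GP b b')

/-- the domains of the spinors are matched -/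
def Sp (O : Set Z.M) (O' : Set Z'.M) : Prop := ∀ x ∈ p.φ.source, (p.φ x ∈ O' ↔ x ∈ O)

/-- matched configurations -/
abbrev Ce (c : C0 Z κ lam) (c' : C0 Z' κ lam) (u : Z.M → CL c.m.V c'.m.V) (ζ : Circle) : Prop :=
  CEq b.G.F c c' p.φ.source p.φ p.U p.v u ζ

/-- matched necks -/
def Mk {X : XD κ lam} (K : Nk X.D b.B b.G) (K' : Nk X.D b'.B b'.G) (o : Bool) : Prop :=
  ∃ s l, ∀ z ∈ univ ×ˢ (En.mk X K o).ht s, K.ψ z ∈ p.φ.source ∧ p.φ (K.ψ z) = K'.ψ (z.1, z.2 + l) ∧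
    p.U (K.ψ z) = (fun i j => X.D.B.P i j z) ∧ p.v (K.ψ z) = X.D.B.l z

/-- matched ends -/
def Mt (a : b.A) (a' : b'.A) : Prop :=
  ∃ X K K' o, b.E a = ⟨X, K, o⟩ ∧ b'.E a' = ⟨X, K', o⟩ ∧ p.Mk K K' o

/-- global identifications -/
structure Gl (f : b.A ≃ b'.A) : Prop where
  src : p.φ.source = b.O
  tgt : p.φ.target = b'.O
  mt : ∀ a, p.Mt a (f a)

end GP

/-- `b₁` is cut along a neck: the times `s₃ + t` on the end `a₃`, `t - s₄` on `a₄`, `|t| < 1` -/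
structure GC (X : XD κ lam) (b₁ : BG κ lam Z₁) (b₃ : BG κ lam Z₃) (b₄ : BG κ lam Z₄) where
  p₃ : GP b₁ b₃
  p₄ : GP b₁ b₄
  a₃ : b₃.A
  a₄ : b₄.A
  K₃ : Nk X.D b₃.B b₃.G
  K₄ : Nk X.D b₄.B b₄.G
  s₃ : ℝ
  s₄ : ℝ
  f : b₁.A ≃ {a // a ≠ a₃} ⊕ {a // a ≠ a₄}
  e₃ : b₃.E a₃ = ⟨X, K₃, true⟩
  e₄ : b₄.E a₄ = ⟨X, K₄, false⟩
  J₃ : Ioi (s₃ - 1) ⊆ K₃.J
  J₄ : Iio (1 - s₄) ⊆ K₄.J
  cov : p₃.φ.source ∪ p₄.φ.source = b₁.O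
  t₃ : p₃.φ.target = b₃.O \ K₃.ψ '' univ ×ˢ Ici (s₃ + 1)
  t₄ : p₄.φ.target = b₄.O \ K₄.ψ '' univ ×ˢ Iic (-s₄ - 1)
  band : p₃.φ '' (p₃.φ.source ∩ p₄.φ.source) = K₃.ψ '' univ ×ˢ Ioo (s₃ - 1) (s₃ + 1)
  jj : ∀ x ∈ p₃.φ.source, ∀ y t, |t| < 1 → p₃.φ x = K₃.ψ (y, s₃ + t) →
    p₄.φ x = K₄.ψ (y, t - s₄) ∧ p₃.U x = p₄.U x ∧ p₃.v x = p₄.v x
  mt : ∀ a, (f a).elim (fun a' => p₃.Mt a a'.1) fun a' => p₄.Mt a a'.1

namespace GC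
variable {X : XD κ lam} {b₁ : BG κ lam Z₁} {b₃ : BG κ lam Z₃} {b₄ : BG κ lam Z₄}
  (g : GC X b₁ b₃ b₄)

/-- the new outgoing end -/
abbrev E₃ : En b₃.B b₃.G := ⟨X, g.K₃, true⟩

/-- the new incoming end -/
abbrev E₄ : En b₄.B b₄.G := ⟨X, g.K₄, false⟩

/-- matched configurations of a cut -/
structure Cf (c₁ : C0 Z₁ κ lam) (c₃ : C0 Z₃ κ lam) (c₄ : C0 Z₄ κ lam) (β : X.C) : Prop where
  a₁ : c₁.Adm b₁.B b₁.G
  a₃ : c₃.Adm b₃.B b₃.G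
  a₄ : c₄.Adm b₄.B b₄.G
  ex : ∃ u₃ ζ₃ u₄ ζ₄ w₃ η₃ w₄ η₄, g.p₃.Ce c₁ c₃ u₃ ζ₃ ∧ g.p₄.Ce c₁ c₄ u₄ ζ₄ ∧
    g.E₃.St c₃ β w₃ η₃ (g.s₃ - 1) ∧ g.E₄.St c₄ β w₄ η₄ (g.s₄ - 1) ∧ η₃ * ζ₃ = η₄ * ζ₄ ∧
    ∀ x ∈ g.p₃.φ.source, ∀ y t, |t| < 1 → g.p₃.φ x = g.K₃.ψ (y, g.s₃ + t) →
      w₃ (y, g.s₃ + t) ∘L u₃ x = w₄ (y, t - g.s₄) ∘L u₄ x

/-- matched domains of the spinors; `f` : the spinor lives on the neck -/
structure Sp (O₁ : Set Z₁.M) (O₃ : Set Z₃.M) (O₄ : Set Z₄.M) (f : Bool) : Prop where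
  o₁ : b₁.OK O₁
  o₃ : b₃.OK O₃
  o₄ : b₄.OK O₄
  p₃ : g.p₃.Sp O₁ O₃
  p₄ : g.p₄.Sp O₁ O₄
  f₃ : ∀ x ∈ g.E₃.U (g.s₃ - 1), x ∈ O₃ ↔ f = true
  f₄ : ∀ x ∈ g.E₄.U (g.s₄ - 1), x ∈ O₄ ↔ f = true

end GC

/-- the domain of the spinor -/
def spO {X : Type} (f : Bool) (O : Set X) : Set X := bif f then O else ∅

open Classical in
/-- the index of the cylinder -/
def nz (D : YD Y.I Y.M κ lam) (f : Bool) (β : YC Y.M κ lam) : ℤ := if f ∧ ¬D.Fx β then -1 else 0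

/-- good limits -/
structure Gd (N : ND Y.M lam) (D : YD Y.I Y.M κ lam) (β : YC Y.M κ lam) : Prop where
  crit : N.Crit D β
  nd : N.Nondeg D β
  irr : D.Zr β → ¬D.Ln β

/-! ### the leaves -/

section leaves
variable (κ lam) (k : ℕ)

/-- LEAF IX-GEQ -/
def GeqStmt : Prop := ∀ (Z Z' : Mf 4) (b : BG κ lam Z) (b' : BG κ lam Z') (p : GP b b') f O O' c c'
  u ζ δ d d', b.OK O → b'.OK O' → p.Gl f → p.Sp O O' → c.Adm b.B b.G → c'.Adm b'.B b'.G →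
  p.Ce c c' u ζ → b.Ix O c k δ d → b'.Ix O' c' k δ d' → d = d'

/-- LEAF IX-CUT -/
def CutStmt : Prop := ∀ (X : XD κ lam) (Z₁ Z₃ Z₄ : Mf 4) (b₁ : BG κ lam Z₁) (b₃ : BG κ lam Z₃)
  (b₄ : BG κ lam Z₄) (g : GC X b₁ b₃ b₄) O₁ O₃ O₄ f c₁ c₃ c₄ β δ d₁ d₂ d₃ d₄, g.Sp O₁ O₃ O₄ f →
  g.Cf c₁ c₃ c₄ β → b₁.Ix O₁ c₁ k δ d₁ → X.bg.Ix (spO f univ) (cy β) k δ d₂ → b₃.Ix O₃ c₃ k δ d₃ →
  b₄.Ix O₄ c₄ k δ d₄ → d₁ + d₂ = d₃ + d₄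

/-- LEAF IX-SPL: clopen decompositions -/
def SplStmt : Prop := ∀ (Z Z₃ Z₄ : Mf 4) (b : BG κ lam Z) (b₃ : BG κ lam Z₃) (b₄ : BG κ lam Z₄)
  (p₃ : GP b b₃) (p₄ : GP b b₄) (f : b.A ≃ b₃.A ⊕ b₄.A) O O₃ O₄ c c₃ c₄ u₃ ζ₃ u₄ ζ₄ δ d d₃ d₄,
  b.OK O → b₃.OK O₃ → b₄.OK O₄ → p₃.φ.source ∪ p₄.φ.source = b.O →
  Disjoint p₃.φ.source p₄.φ.source → p₃.φ.target = b₃.O → p₄.φ.target = b₄.O →
  (∀ a, (f a).elim (p₃.Mt a) (p₄.Mt a)) → p₃.Sp O O₃ → p₄.Sp O O₄ → c.Adm b.B b.G →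
  c₃.Adm b₃.B b₃.G → c₄.Adm b₄.B b₄.G → p₃.Ce c c₃ u₃ ζ₃ → p₄.Ce c c₄ u₄ ζ₄ → b.Ix O c k δ d →
  b₃.Ix O₃ c₃ k δ d₃ → b₄.Ix O₄ c₄ k δ d₄ → d = d₃ + d₄

/-- LEAF IX-TOP: the densities are natural and vanish on necks -/
def TopStmt : Prop :=
  (∀ (Z Z' : Mf 4) (b : BG κ lam Z) (b' : BG κ lam Z') (p : GP b b') f O O', b.OK O → b'.OK O' →
    p.Gl f → p.Sp O O' → b.tA = b'.tA ∧ b.tD O = b'.tD O' ∧ ∀ c c' u ζ, c.Adm b.B b.G →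
      c'.Adm b'.B b'.G → p.Ce c c' u ζ → b.kap b.O c = b'.kap b'.O c' ∧ b.kap O c = b'.kap O' c') ∧
  (∀ (X : XD κ lam) (Z₁ Z₃ Z₄ : Mf 4) (b₁ : BG κ lam Z₁) (b₃ : BG κ lam Z₃) (b₄ : BG κ lam Z₄)
    (g : GC X b₁ b₃ b₄) O₁ O₃ O₄ f, g.Sp O₁ O₃ O₄ f →
    b₁.tA = b₃.tA + b₄.tA ∧ b₁.tD O₁ = b₃.tD O₃ + b₄.tD O₄ ∧ ∀ c₁ c₃ c₄ β β₃ β₄, g.Cf c₁ c₃ c₄ β →
      b₃.Std c₃ β₃ → b₄.Std c₄ β₄ → b₁.kap b₁.O c₁ = b₃.kap b₃.O c₃ + b₄.kap b₄.O c₄ ∧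
        b₁.kap O₁ c₁ = b₃.kap O₃ c₃ + b₄.kap O₄ c₄) ∧
  ∀ X : XD κ lam, X.OK → X.bg.tA = 0 ∧ X.bg.tD univ = 0 ∧ ∀ β, X.D.Adm β → X.bg.kap univ (cy β) = 0

/-- LEAF IX-GLC: gluing of configurations -/
def GlcStmt : Prop := ∀ (X : XD κ lam) (Z₁ Z₃ Z₄ : Mf 4) (b₁ : BG κ lam Z₁) (b₃ : BG κ lam Z₃)
  (b₄ : BG κ lam Z₄) (g : GC X b₁ b₃ b₄) c₀ c₃ c₄ β w₃ η₃ w₄ η₄, g.Sp ∅ ∅ ∅ false →
  Cfg.Adm (r := 0) c₀ b₁.B b₁.G → c₃.Adm b₃.B b₃.G → c₄.Adm b₄.B b₄.G →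
  g.E₃.St c₃ β w₃ η₃ (g.s₃ - 1) → g.E₄.St c₄ β w₄ η₄ (g.s₄ - 1) → ∃ c₁, g.Cf c₁ c₃ c₄ β

/-- LEAF IX-TRP: transport of configurations -/
def TrpStmt : Prop := ∀ (Z Z' : Mf 4) (b : BG κ lam Z) (b' : BG κ lam Z') (p : GP b b') f c c₀,
  b.OK ∅ → b'.OK ∅ → p.Gl f → c.Adm b.B b.G → Cfg.Adm (r := 0) c₀ b'.B b'.G →
  ∃ c' u, c'.Adm b'.B b'.G ∧ p.Ce c c' u 1 ∧ ∃ u₀, Mod61.EqOn b'.B b'.G.F b'.Oᶜ c₀ c' u₀ 1

/-- LEAF IX-STD: limits are natural -/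
def StdStmt : Prop := (∀ (Z Z' : Mf 4) (b : BG κ lam Z) (b' : BG κ lam Z') (p : GP b b')
  (X : XD κ lam) K K' o c c' u ζ β, X.OK → b.OK ∅ → b'.OK ∅ → p.Mk (X := X) K K' o →
  (∃ s, (En.mk X K o).ht s ⊆ K.J ∧ (En.mk X K' o).ht s ⊆ K'.J) → c.Adm b.B b.G → c'.Adm b'.B b'.G →
  p.Ce c c' u ζ → ((En.mk X K o).Sd c β ↔ (En.mk X K' o).Sd c' β)) ∧
  ∀ (Z : Mf 4) (b : BG κ lam Z) (e : En b.B b.G) c β β', e.X.OK → b.OK ∅ → c.Adm b.B b.G →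
    e.Sd c β → e.X.D.Adm β' → e.X.D.Eqv β β' → e.Sd c β'

/-- LEAF IX-CLO: closed manifolds -/
def CloStmt : Prop := ∀ (Z : Mf 4) [CompactSpace Z.M] (b : BG κ lam Z) O c, IsEmpty b.A → b.OK O →
  c.Adm b.B b.G → ∀ δ > 0, δ ≤ Cht98.dl0 → ∃ d : ℤ, (d : ℝ) = b.top O c ∧ b.Ix O c k δ d

/-- the cylinders over the orbit of the limit `β` are Fredholm -/
def Fz (X : XD κ lam) (f : Bool) (β : X.C) (δ : ℝ) : Prop :=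
  ∀ β' (h : X.D.Adm β') (O' : Set (X.Y.M × ℝ)) (h0 : ∀ x ∉ O', β'.Φ x.1 = 0), O' = spO f univ →
    X.D.Eqv ⟨β.m, β.W, bif f then β.Φ else 0, 0⟩ β' → CylOK (δ := δ) h h0 k (eZ X.N X.D)

/-- LEAF IX-RZ: existence -/
def RzStmt : Prop := ∀ (Z : Mf 4) (b : BG κ lam Z) O c β δ, b.OK O → b.Std c β → 0 < δ →
  δ ≤ Cht98.dl0 → (∀ a, ∃ f s, (∀ x ∈ (b.E a).U s, x ∈ O ↔ f = true) ∧ Fz κ lam k (b.E a).X f (β a) δ) →
  ∃ d, b.Ix O c k δ d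

/-- LEAF IX-WT: the index does not depend on the small weight -/
def WtStmt : Prop := ∀ (Z : Mf 4) (b : BG κ lam Z) O c β, b.OK O → b.Std c β →
  (∀ a, Gd (b.E a).X.N (b.E a).X.D (β a) ∧ ((∃ s, (b.E a).U s ⊆ O) ∨ (b.E a).X.D.Zr (β a))) →
  ∃ d, ∀ᶠ δ in 𝓝[>] (0 : ℝ), b.Ix O c k δ d

/-- LEAF IX-INV -/
def InvStmt : Prop := ∀ X : XD κ lam, X.OK → ∀ f β, Gd X.N X.D β → (f = true ∨ X.D.Zr β) →
  ∀ᶠ δ in 𝓝[>] (0 : ℝ), Fz κ lam k X f β δ ∧ X.bg.Ix (spO f univ) (cy β) k δ (nz X.D f β)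

/-- LEAF IX-CYL: the cylinder, and an incoming end which absorbs a cylinder -/
def CylStmt : Prop := ∀ X : XD κ lam, X.OK → (∀ f, X.bg.OK (spO f univ)) ∧
  ∀ (Z : Mf 4) (b : BG κ lam Z) (a : b.A) K, b.OK ∅ → b.E a = ⟨X, K, false⟩ → ∀ s,
    ∃ g : GC X b X.bg b, g.a₃ = true ∧ g.a₄ = a ∧ s ≤ g.s₃ ∧ s ≤ g.s₄ ∧
      EqOn g.p₄.φ id g.p₄.φ.source ∧ g.p₃.φ.source ⊆ (b.E a).U s ∧
      g.p₃.Mk (X := X) K X.D.nk false ∧ (∀ a', a' ≠ a → g.p₄.Mt a' a') ∧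
      ∀ f, b.OK (spO f b.O) → g.Sp (spO f b.O) (spO f univ) (spO f b.O) f

end leaves

/-- LEAF IX-KAP: the level of the points of a literal reference -/
def KapStmt (Z : Mf 4) (κ lam : Type) [Fintype κ] [Fintype lam] : Prop :=
  ∀ (T : Type) [NormedAddCommGroup T] [NormedSpace ℝ T] (𝔉 : Fam Z.I Z.M (Option κ) lam T) δ
    (X : Ends 𝔉 δ) (o : Ref 𝔉) R r (y : Pnt o r) (O : Set Z.M), X.Lit o R → IsClopen O → O ⊆ 𝔉.Om →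
    ∫ x in O, o.m.kd 𝔉.B (𝔉.G y.t).F y.cfg.W x ∂(𝔉.G y.t).F.μ =
      ∫ x in O, o.m.kd 𝔉.B (𝔉.G y.t).F (pt0 o r y.ht).cfg.W x ∂(𝔉.G y.t).F.μ

/-! ### gradings -/

/-- `b₃` and `b₄` are the two parts of a closed manifold, for arbitrarily long necks -/
def Clo (X : XD κ lam) (b₃ : BG κ lam Z₃) (b₄ : BG κ lam Z₄) : Prop := ∀ s, ∃ (Z₁ : Mf 4)
  (_ : CompactSpace Z₁.M) (b₁ : BG κ lam Z₁) (g : GC X b₁ b₃ b₄), IsEmpty b₁.A ∧ s ≤ g.s₃ ∧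
    s ≤ g.s₄ ∧ (∀ f, g.Sp (spO f b₁.O) (spO f b₃.O) (spO f b₄.O) f) ∧
    ∃ c₀, Cfg.Adm (r := 0) c₀ b₁.B b₁.G

variable (D Z) in
/-- a background with one end -/
structure B1 where
  B : Base Z.M (Option κ) lam
  G : Geo Z.I Z.M (Option κ) lam
  O : Set Z.M
  K : Nk D B G

/-- as a background with ends -/
@[reducible] def B1.bg (b : B1 D Z) (N : ND Y.M lam) (o : Bool) : BG κ lam Z :=
  ⟨b.B, b.G, b.O, Unit, fun _ => ⟨⟨Y, D, N⟩, b.K, o⟩⟩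

variable (D) in
/-- the reference: a closed manifold which is cut along `Y` -/
structure Hd : Type 1 where
  ZL : Mf 4
  ZR : Mf 4
  L : B1 D ZL
  R : B1 D ZR
  k : ℕ
  e0 : ℤ

namespace Hd
variable (H : Hd D)

/-- standard configurations on the right part -/
def StR (c : C0 H.ZR κ lam) (β : YC Y.M κ lam) : Prop := ∀ N, (H.R.bg N false).Std c fun _ => β

structure OK : Prop where
  clo : ∀ N, N.OK D → Clo ⟨Y, D, N⟩ (H.L.bg N true) (H.R.bg N false)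
  hk : 8 ≤ H.k
  exL : ∀ N β, D.Adm β → ∃ c, (H.L.bg N true).Std c fun _ => β
  exR : ∀ β, D.Adm β → ∃ c, H.StR c β

/-- the reference configuration -/
def b (β : YC Y.M κ lam) (h : H.OK ∧ D.Adm β) : C0 H.ZR κ lam := (h.1.exR β h.2).choose

/-- the index of the reference configuration for all small weights -/
def Ix (N : ND Y.M lam) (f : Bool) (β : YC Y.M κ lam) (d : ℤ) : Prop :=
  ∃ h, ∀ᶠ δ in 𝓝[>] (0 : ℝ), (H.R.bg N false).Ix (spO f H.R.O) (H.b β h) H.k δ d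

/-- the level -/
def kp (β : YC Y.M κ lam) : ℝ := open Classical in
  if h : H.OK ∧ D.Adm β then -∫ x in H.R.O, (H.b β h).m.kd H.R.B H.R.G.F (H.b β h).W x ∂H.R.G.F.μ
  else 0

/-- the grading -/
def g (N : ND Y.M lam) (β : YC Y.M κ lam) : ℤ :=
  H.e0 - Classical.epsilon (H.Ix N true β) + nz D true β

/-- the anti-self-dual grading -/
def d (N : ND Y.M lam) (β : YC Y.M κ lam) : ℤ := -Classical.epsilon (H.Ix N false β)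

/-- the gradings of the critical points -/
def gr {N : ND Y.M lam} (S : N.CD D) : Gr S.C :=
  ⟨fun i => H.kp (S.β i), fun i => H.g N (S.β i), fun i => H.d N (S.β i)⟩

end Hd

end Crest.Agent.X212.Nd18
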