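import Crest.Agent.X212.Nd18.Kl
import Crest.Agent.X212.Kit16.Sta
import Crest.Agent.X212.Mcg32.LinCl

/-!
# Row 212, FACT (helper18): the strata of the faces on which `a` is broken, from the leaves
-/

set_option autoImplicit false
set_option linter.unusedSectionVars false
noncomputable section
open scoped Topology
open Set Function Filter Classical

namespace Crest.Agent.X212.Fk18
open An M G75 Jb7 Ins26 Nd18 Rf65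
open An.Job (Sol)
open Br55 (CN)

variable {κ lam : Type} [Fintype κ] [Fintype lam] [DecidableEq lam] {Lm : LM κ lam}
  {y₀ : G75.YD κ lam} {S : Scene Lm} {P : Pk y₀} {z : Z0 P S} {Z : Z1 z} {R : ℕ} {T C₀ : ℝ} {cI : ℤ}

variable (Lm) in
/-- **LEAF SB** for `k ≤ m` -/
def SbK : Prop := ∀ (y₀ : G75.YD κ lam) (P : Pk y₀), P.OK → ∃ C₀ : ℝ,
  ∀ (S : Scene Lm) (t : TD y₀ S) R c d, t.OK R c → CN S d c → c ≠ 0 → ∃ D,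
    ∀ n m (k : Fin (n + 1)), ↑k ≤ m →
    ∀ᶠ T in 𝓝[<] (1 : ℝ), ∀ Z : Z1 (⟨t, c, d, n, D, m, k⟩ : Z0 P S), Z.OK T → Z.Sm →
      (∃ δ > 0, An.Sml (Z.LxAt δ)) → An.Sml fun Adm => Z.SbAt Adm C₀

variable (Lm) in
/-- all leaves -/
structure FH : Prop where
  ja : JA Lm
  hd : HdStmt Lm
  sm : SmStmt Lm
  int : IntStmt Lm
  lx : LxStmt Lm
  dn : DnW Lm
  ml : MlStmt Lm
  mr : MrStmt Lm
  mi : MiStmt Lm
  mw : MwStmt Lm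
  rb : RbStmt Lm
  ra : RaStmt Lm
  sb : SbK Lm
  np : NpStmt κ lam
  ms : MsStmt κ lam

theorem pe_sub (h0 : z.OK R) (h1 : Z.OK T) : pe Z.e ⊆ Z.σ ∧ ∀ a ∈ pe Z.e, S.M.pin a := by
  have k : ∀ x ∈ pe Z.e, x ∈ Z.e.1 ∧ S.M.pin x := fun x hx => by simpa [pe] using hx
  exact ⟨fun x hx => h1.sub ((h1.e (k x hx).1).resolve_left fun e =>
    (h0.cn.ok.fz _ h0.t.fz.1).1 (e ▸ (k x hx).2)), fun x hx => (k x hx).2⟩

/-- the number of walls on the left is constant on the support -/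
theorem sd_eq (sm : SmStmt Lm) (h0 : z.OK R) (h1 : Z.OK T) {i σ} (h : z.c i σ ≠ 0) :
    (z.t.sd false Z.σ).card = (z.t.sd false σ).card := by
  have a1 := (sm y₀ P S z R Z T h0 h1).sd _ subset_rfl
  have a2 : (z.t.sd false σ).card + (z.t.sd true σ).card = σ.card :=
    (sm y₀ P S z R ⟨Z.F, i, cA z.t, σ, σ⟩ T h0 ⟨h1.F, h, subset_rfl, rfl, fun _ k =>
      .inl (Option.some.inj k).symm⟩).sd _ subset_rfl
  have m := fun {i σ} (h : z.c i σ ≠ 0) => (h0.cn.cl.mem i σ h).2.1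
  have b1 := (m (h0.t.exc _ _ _ _ h h1.c)).ge.trans (Finset.card_union_le _ _)
  have b2 := (m (h0.t.exc _ _ _ _ h1.c h)).ge.trans (Finset.card_union_le _ _)
  have := m h
  have := m h1.c
  omega

/-- one face -/
theorem face1 (H : FH Lm) (h0 : z.OK R) (h1 : Z.OK T) (w : Ws z.t R Z.i Z.σ (pe Z.e))
    (ix : (∀ᶠ δ in 𝓝[>] (0 : ℝ), Z.IxAt δ) ∧ An.Sml Z.LvAt)
    (rb : ∀ j π, S.Bd Z.i Z.σ (insert z.t.a (pe Z.e)) π (w.w j π) →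
      An.Sml fun Adm => Z.RbAt Adm π (w.w j π))
    (nk : An.Sml fun Adm => NK Z.J Adm 0) (sb : An.Sml fun Adm => Z.SbAt Adm C₀)
    (rI : P.C.RuleI P.Γ cI) (c1 : y₀.C ≤ 2 * cI - P.H.e0) (c2 : 2 * cI - P.H.e0 ≤ y₀.C + 1)
    (hR : ∀ o, 2 * (z.k : ℕ) + |P.Γ.η o - P.H.e0| + 6 * |C₀| + 2 ≤ R) {n : ℤ}
    (hn : 2 * (z.t.l₀ - z.t.s₀) - 3 * z.t.β₀ + (z.t.sd false Z.σ).card - P.H.e0 = 2 * n)
    {δ₁ : ℝ} (hδ : 0 < δ₁) : An.Sml fun Adm => (∀ q, Adm q → Z.Gq q) → Z.J.FinE Z.ce Z.e Adm →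
      ∃ T, Kof81.StrOK Z.J (-z.d) (TA Z.F z.c z.d Z.i z.m z.k P.C (lvl P z.t) δ₁) Adm Z.ce Z.e T := by
  have sm := H.sm y₀ P S z R Z T h0 h1
  have lx := H.lx y₀ P S z R Z T h0 h1
  have dn := H.dn H.ja y₀ P S z R Z T h0 h1 sm
  have mo := fun {Q} (h : MoStmt Lm Q) => h H.ja y₀ P S z R Z T h0 h1 sm dn (ix.1.and lx)
  have ok : Z.J.OK := (h1.F.J _ (fun e => h1.c (congrFun e _)) _ _).1
  have cyl : z.t.a ∈ cylW Z.e := ⟨h1.a, (h0.cn.ok.fz _ h0.t.fz.1).1⟩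
  have e1 : Kof81.Fa Z.J (-z.d) Z.ce Z.e → Z.e.1 = {z.t.a} ∧ Z.τ.card = z.d :=
    fun ⟨k1, _, a, _, k2⟩ => ⟨eq_singleton_iff_unique_mem.2 ⟨h1.a, fun x hx =>
      Option.some.inj ((show Z.J.hd a = some x from (k2 ▸ hx : x ∈ (Z.J.cf a).1)).symm.trans
        (k2 ▸ h1.a : z.t.a ∈ (Z.J.cf a).1))⟩, by rw [dim_cel] at k1; simp [sf] at k1; omega⟩
  have rb' : An.Sml fun Adm => ∀ x : (Fin 3 ⊕ Bool) × Reg S.A,
      S.Bd Z.i Z.σ (insert z.t.a (pe Z.e)) x.2 (w.w x.1 x.2) → Z.RbAt Adm x.2 (w.w x.1 x.2) :=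
    .all fun x => by
      by_cases k : S.Bd Z.i Z.σ (insert z.t.a (pe Z.e)) x.2 (w.w x.1 x.2)
      exacts [(rb _ _ k).mono fun _ a _ => a, .of fun _ a => (k a).elim]
  refine ((((mo H.ml).and (mo H.mr)).and ((mo H.mi).and (mo (H.mw δ₁ hδ)))).and ((rb'.and sb).and
    (ix.2.and (H.ra H.ja y₀ P S z R Z T h0 h1 sm lx.exists ⟨0, nk⟩)))).mono
    fun Adm ⟨⟨⟨ml, mr⟩, mi, mw⟩, ⟨rb, sb⟩, lv, ra⟩ gq fin => ?_
  have de := fun q a => (gq q a).1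
  refine Kit16.Sta.stA Z.J Z.e Z.ce Adm _ _ Z.Ro Z1.okL Z1.okR Z1.okI (FE Z)
    ⟨ok, ⟨_, _, _, rfl, nofun, h1.c, h1.sub⟩, fun e => (e ▸ h1.a : z.t.a ∈ S.M.c0.1), ?_,
      Mcg32.linCl ok _, H.ja.fx _ _ _ _ _ _ _ _ z.t.a, fin, fun k => (sm.sdP (e1 k).1).2, ml de,
      mr de, mi de, fun k => (mw de (e1 k).1 (e1 k).2).imp fun D a => ⟨a.1, fun q y b c d e f =>
        ⟨a.2 q y b c d e f.2.2.1, fun τ g => (cel_inj g).1 ▸ f.2.2.2⟩⟩, fun q y a b L R' I => ?_⟩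
  · rintro b _ ⟨π, k, rfl⟩
    exact (sm.pc b π k).1
  · obtain ⟨o, k, ζ, ζ', ch⟩ := sol_chn (Y := Z.F.x0) (Z.F.xs_a Z.i) P.C ok cyl b
    exact KH.kill (w := w) ⟨h0, h1, sm, a, b, k, H.ja.lm _ _ _ _ _ _ _ _ _, fun j π => rb (j, π), ra,
      sb, rI, c1, c2, hR, L, R', I⟩ lv hn (gq q a) ch

/-- **FACE** -/
theorem face (H : FH Lm) : FaceStmt Lm := fun y₀ hy Rw hE => by
  obtain ⟨B, b1, b2, b3⟩ := H.hd y₀ hy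
  have k : ∀ e : Fin 2, ∃ P : Pk y₀, P.H = { B with e0 := e } ∧ P.OK ∧ SmI P.N Rw ∧
      P.C.RuleI P.Γ ((y₀.C + e + 1) / 2) ∧ P.C.RuleS P.Γ := fun e =>
    have o : Hd.OK { B with e0 := e } := ⟨b1.clo, b1.hk, b1.exL, b1.exR⟩
    let ⟨N, C, a1, a2, a3⟩ := H.np y₀ hy _ Rw _ o b2
    ⟨⟨_, N, C⟩, rfl, ⟨hy, o, b2, a1⟩, a2, a3⟩
  choose P p1 p2 p3 p4 p5 using k
  choose C₀ sb using fun e => H.sb y₀ (P e) (p2 e)
  obtain ⟨r, hr⟩ := (finite_range fun x : Σ e, (P e).C.C => 2 * (Fintype.card (P x.1).C.C : ℝ) +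
    |(P x.1).Γ.η x.2 - (P x.1).H.e0| + 6 * |C₀ x.1| + 2).bddAbove
  refine ⟨⌈r⌉₊, fun S t d c ht hA hc c0 => ?_⟩
  obtain ⟨i₀, σ₀, h₀⟩ : ∃ i σ, c i σ ≠ 0 := by
    by_contra! k
    exact c0 (funext fun i => funext (k i))
  obtain ⟨n₁, h₁⟩ := H.int y₀ S t _ c d hy ht hc c0
  obtain ⟨n₂, h₂⟩ : ∃ n : ℤ, t.β₀ = n := let ⟨_, _, _, _, _, _, k, _⟩ := ht.nb
    ⟨1 - (_ : ℕ) + (_ : ℕ), by rw [k]; push_cast; rfl⟩
  obtain ⟨e, ν, he⟩ : ∃ (e : Fin 2) (ν : ℤ), n₁ - 3 * n₂ + (t.sd false σ₀).card - e = 2 * ν := by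
    rcases Int.even_or_odd' (n₁ - 3 * n₂ + (t.sd false σ₀).card) with ⟨ν, k | k⟩
    exacts [⟨0, ν, by simpa using k⟩, ⟨1, ν, by rw [k]; simp⟩]
  have e0 : (P e).H.e0 = e := by rw [p1]
  obtain ⟨D, sb⟩ := sb e S t _ c d ht hc c0
  refine ⟨P e, p2 e, p3 e, H.ms y₀ _ _ (p2 e) (p4 e) (p5 e), D, lvl (P e) t, fun n m k hk hk' => ?_⟩
  have h0 : (⟨t, c, d, n, D, m, k⟩ : Z0 (P e) S).OK ⌈r⌉₊ := ⟨p2 e, ht, hc, hk⟩
  let X := {x : S.L × Finset S.A × Finset S.A // c x.1 x.2.1 ≠ 0 ∧ x.2.2 ⊆ x.2.1 ∧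
    ∀ a ∈ x.2.2, S.M.pin a}
  have w := fun x : X => (ws ht hA x.2.1 x.2.2.1 x.2.2.2).some
  have rb := eventually_all.2 fun x : X × (Fin 3 ⊕ Bool) × Reg S.A => eventually_imp_distrib_left.2
    (H.rb H.ja y₀ _ S _ _ x.1.1.1 x.1.1.2.1 (insert t.a x.1.1.2.2) x.2.2 ((w x.1).w x.2.1 x.2.2) h0)
  filter_upwards [sb n m k hk, hE (P e) (p3 e) 0 S _ _ h0, rb] with T sb nk rb Z h1 δ₁ hδ
  have sm := H.sm y₀ _ S _ _ Z T h0 h1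
  have lx := H.lx y₀ _ S _ _ Z T h0 h1
  have ix := b3 _ ⟨_, p1 e⟩ S _ _ Z T h0 h1 sm
  let x : X := ⟨(Z.i, Z.σ, pe Z.e), h1.c, pe_sub h0 h1⟩
  have e2 := e.2
  refine face1 H h0 h1 (w x) ix (fun j π a => rb (x, j, π) a Z h1 rfl rfl rfl sm ix.2 lx)
    (nk _ h1.F _ fun e => h1.c (congrFun e _))
    (sb Z h1 sm ((lx.and self_mem_nhdsWithin).exists.imp fun _ a => ⟨a.2, a.1⟩)) (p4 e)
    (by rw [e0]; omega) (by rw [e0]; omega) (fun o => ?_) (n := ν) ?_ hδ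
  · have : ((k : ℕ) : ℝ) ≤ Fintype.card (P e).C.C := by exact_mod_cast hk'
    have := (hr ⟨⟨e, o⟩, rfl⟩).trans (Nat.le_ceil r)
    dsimp only at this ⊢
    linarith
  · rw [sd_eq H.sm h0 h1 h₀, e0]
    dsimp only
    rw [h₁, h₂]
    exact_mod_cast he

end Crest.Agent.X212.Fk18
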