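import Crest.Agent.X212.Nd18.Fct

/-!
# Row 212, FACT (helper18): the assembly from the leaves
-/

set_option autoImplicit false
set_option linter.unusedSectionVars false
noncomputable section
open scoped Manifold ContDiff Topology
open Set Function Filter Classical

namespace Crest.Agent.X212.Nd18
open An M G75 Jb7 Ins26 Wrd81
open An.Job (Sol)
open Br55 (CN)

theorem gv_ne {W : Type} (w : W) : GV fun q : W →₀ ℝ => q w ≠ 0 :=
  An.Sml.of fun A ho => ⟨fun q => A q ∧ q w ≠ 0, ⟨fun _ h => h.1,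
    ho.and fun _ h _ _ _ hq => (hq.choose_spec.2 w).eventually_ne h, fun O hO q₀ h1 h2 => by
      have hc : St.Cv (𝓝[≠] (0 : ℝ)) (fun ε => q₀ + Finsupp.single w ε) q₀ :=
        ⟨{w}, fun ε v hv => by simp [Finsupp.single_eq_of_ne (Finset.notMem_singleton.1 hv)],
          fun v => by
            have : Continuous fun ε : ℝ => (q₀ + Finsupp.single w ε) v := by
              simp only [Finsupp.add_apply, Finsupp.single_apply]; split_ifs <;> fun_prop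
            simpa using (this.tendsto 0).mono_left nhdsWithin_le_nhds⟩
      by_cases h0 : q₀ w = 0
      · obtain ⟨ε, h3, h4⟩ := (((ho.and hO) q₀ ⟨h1, h2⟩ _ _ _ hc).and self_mem_nhdsWithin).exists
        exact ⟨_, h3.2, h3.1, by simpa [h0] using h4⟩
      · exact ⟨q₀, h2, h1, h0⟩⟩, fun _ h => h.2⟩

section job
variable {Wi : Type} {X : Mf 4} {A κ lam : Type} [Fintype A] [Fintype κ] [Fintype lam]
  [DecidableEq lam] {M : Mark X A κ} {W : World M} {N : ML M lam} {Λ : Lns W N}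
  {A' h : Type} [Fintype A'] [DecidableEq A'] [Fintype h] {r n : ℕ} {J : Job Wi Λ A' h r n}

theorem ffin {K : J.Kit} (H : K.Ax) {q : Wi →₀ ℝ} (hq : K.G q) {σ : Cel A'} (hσ : σ ∈ J.𝒦) {a : A'}
    (ha : a ∈ J.wa σ) : Finite (Quot fun y y' : J.TS σ q (J.cf a) => Job.Iso y.1 y'.1) :=
  have := H.ffin hq hσ ha
  let ⟨e⟩ : Nonempty (K.gsm.FCl q σ a ≃ _) := card_quot _ (Job.equiv_TS H.ok hσ)
    (fun y : J.TS σ q (J.cf a) => y)
    (fun y y' => Job.feq_iff (y.2.1.ok H.ok hσ) (y'.2.1.ok H.ok hσ))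
    fun y => ⟨y, (y.2.1.ok H.ok hσ).refl⟩
  .of_equiv _ e

end job

variable {κ lam : Type} [Fintype κ] [Fintype lam] [DecidableEq lam] {Lm : LM κ lam}
  {y : G75.YD κ lam} {S : Scene Lm} {t : TD y S} {N : ND (yY y).M (lam ⊕ lam)} {n : ℕ}
  {c : Cn S.L S.A} {d : ℕ} {i : S.L} {σ τ : Finset S.A} {o : Option Bool}

theorem mem_cls (h : c i σ ≠ 0) (k : τ ⊆ σ) (ho : o ≠ some true) : cel τ o ∈ cls c i :=
  ⟨τ, o, σ, rfl, ho, h, k⟩

namespace Pr
variable {D : S.Dat} {F : Pr t N n D} {l : ℝ} {r n' : ℕ} {u : TrS S F.Wi r n'} {m : ℕ} {k : Fin (n + 1)}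

theorem hd_inl {a : S.A} (h : a ∈ hard S ∅) : (F.jb c i l u).hd (.inl a) = some a := if_pos h

theorem cf_inr : (F.jb c i l u).cf (.inr ()) = cA t := rfl

theorem inr_wa : .inr () ∈ (F.jb c i l u).wa (cel σ none) := Job.mem_wa.2 ⟨rfl, rfl⟩

theorem sum_wa (h : ↑σ ⊆ hard S ∅) (f : S.A ⊕ Unit → ℕ) :
    ∑ a ∈ (F.jb c i l u).wa (cel σ none), f a = ∑ a ∈ σ, f (.inl a) + f (.inr ()) := by
  rw [Job.wa, Finset.sum_filter, Fintype.sum_sum_type, ← Fintype.sum_ite_mem σ]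
  refine congrArg₂ _ (Finset.sum_congr rfl fun a _ => ?_) (by simp)
  by_cases k : a ∈ σ
  · simp [k, show a ∈ hard S ∅ from h k]
  · simp [k]

theorem sum_wb (h : ↑σ ⊆ hard S ∅) (f : Cel (S.A ⊕ Unit) → ℕ) :
    ∑ b ∈ (F.jb c i l u).wb (cel σ none), f (Job.fc (cel σ none) b) =
      ∑ a ∈ σ, f (cel (σ.erase a) none) + f (cel σ (some false)) := by
  rw [Job.wb, Finset.sum_filter, Fintype.sum_prod_type, Fintype.sum_sum_type,
    ← Fintype.sum_ite_mem σ]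
  congr 1
  · refine Finset.sum_congr rfl fun a _ => ?_
    by_cases k : a ∈ σ
    · simp [k, show a ∈ hard S ∅ from h k, fc_inl]
    · simp [k]
  · simp [fc_inr]

/-- Stokes on one cell -/
theorem cell_stokes (hc : CN S d c) (h : c i σ ≠ 0) {q : F.Wi →₀ ℝ}
    (hq : ∃ K : (F.J c d i m k).Kit, K.Ax ∧ K.GG q ∧ K.n₀ = -d) :
    (∑ a ∈ σ, ((F.J c d i m k).z q (cel (σ.erase a) none) : ZMod 2) +
      (F.J c d i m k).z q (cel σ (some false))) + (F.J c d i m k).zc q (cel σ none) (cA t) =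
      ∑ a ∈ σ ∩ S.ls, ((F.J c d i m k).zf q (cel σ none) (.inl a) : ZMod 2) := by
  obtain ⟨K, h1, h2, h3⟩ := hq
  have k0 : cel σ none ∈ (F.J c d i m k).𝒦 := mem_cls h subset_rfl (by simp)
  have k1 := hard_of hc.cl.toSf h ∅
  have e := h1.stokes h2 k0 (by rw [dim_cel, h3, (hc.cl.mem i σ h).2.1]; simp [sf])
  rw [sum_wb k1, sum_wa k1, ← ZMod.natCast_eq_zero_iff_even,
    ← Finset.sum_inter_add_sum_sdiff σ S.ls fun a => (F.J c d i m k).zf q (cel σ none) (.inl a),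
    Finset.sum_eq_zero (s := σ \ S.ls) fun a ha => h1.toAx0.zf_pin h2.1 k0
      (hd_inl (k1 (Finset.mem_sdiff.1 ha).1)) (((hc.cl.mem i σ h).2.2 a
        (Finset.mem_sdiff.1 ha).1).resolve_right (Finset.mem_sdiff.1 ha).2)] at e
  push_cast at e
  exact CharTwo.add_eq_zero.1 (Eq.trans (by rw [← cf_inr (F := F)]; ring) e)

/-- **Stokes on the prism** -/
theorem stokes (hc : CN S d c) (hL : F.LensAt c d m k) (hK : ∀ i, c i ≠ 0 → GV fun q =>
      ∃ K : (F.J c d i m k).Kit, K.Ax ∧ K.GG q ∧ K.n₀ = -d) :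
    GV fun q => Finite (F.Fcl c d m k q) ∧ (Nat.card (F.Fcl c d m k q) : ZMod 2) =
      ∑ i, ∑ σ, c i σ * ((F.J c d i m k).z q (cel σ (some false)) : ZMod 2) := by
  refine ((GV.all fun i => gv_imp (hK i)).and (GV.all fun x : S.L × S.ls × Finset S.A =>
    gv_imp fun h : c x.1 x.2.2 ≠ 0 ∧ x.2.1.1 ∈ x.2.2 => hL x.1 x.2.1 x.2.2 h.1 h.2)).mono
    fun q hq => ?_
  have k0 : ∀ i σ, c i σ ≠ 0 → c i ≠ 0 := fun i σ h e => h (congrFun e σ)
  have hf : ∀ x : {x : S.L × Finset S.A // c x.1 x.2 ≠ 0}, Finite (Quot fun z z' :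
      (F.J c d x.1.1 m k).TS (cel x.1.2 none) q (cA t) => Job.Iso z.1 z'.1) := fun x =>
    let ⟨_, h1, h2, _⟩ := hq.1 _ (k0 _ _ x.2)
    ffin h1 h2.1 (mem_cls x.2 subset_rfl (by simp)) inr_wa
  refine ⟨inferInstance, ?_⟩
  have e0 : (Nat.card (F.Fcl c d m k q) : ZMod 2) =
      ∑ i, ∑ σ, c i σ * ((F.J c d i m k).zc q (cel σ none) (cA t) : ZMod 2) := by
    rw [Nat.card_sigma, ← Fintype.sum_prod_type', Nat.cast_sum]
    refine (Finset.sum_subtype (p := fun x : S.L × Finset S.A => c x.1 x.2 ≠ 0)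
      (Finset.univ.filter fun x : S.L × Finset S.A => c x.1 x.2 ≠ 0) (by simp)
      fun x => ((F.J c d x.1 m k).zc q (cel x.2 none) (cA t) : ZMod 2)).symm.trans ?_
    rw [Finset.sum_filter]
    refine Finset.sum_congr rfl fun x _ => ?_
    rcases z2 (c x.1 x.2) with e | e <;> simp [e]
  have e1 : ∑ i, ∑ σ, c i σ * ∑ a ∈ σ, ((F.J c d i m k).z q (cel (σ.erase a) none) : ZMod 2) = 0 :=
    Finset.sum_eq_zero fun i _ => by
      refine (Ch.pair_bdry (fun σ => ((F.J c d i m k).z q (cel σ none) : ZMod 2)) (c i)).symm.trans ?_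
      rw [show Ch.bdry (c i) = 0 from congrFun hc.cl.bd i]
      simp [Ch.pair]
  rw [e0, eq_comm, ← CharTwo.add_eq_zero]
  refine ((zero_add _).symm.trans (congrArg (· + _) e1.symm)).trans ?_
  simp only [← add_assoc, ← Finset.sum_add_distrib, ← mul_add]
  rw [sum_congr_ne c fun i σ h => cell_stokes hc h (hq.1 i (k0 i σ h)), Finset.sum_comm]
  refine Finset.sum_eq_zero fun σ _ => ?_
  simp only [Finset.mul_sum]
  rw [Finset.sum_comm]
  refine Finset.sum_eq_zero fun l hl => ?_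
  obtain ⟨h1, h2⟩ := Finset.mem_inter.1 hl
  refine Finset.sum_involution (fun i _ => S.fl l i) (fun i _ => ?_) (fun i _ _ h => ?_)
    (fun _ _ => Finset.mem_univ _) fun i _ => hc.ok.inv l h2 i
  · rw [hc.cl.sym l h2 i σ h1]
    by_cases h : c i σ = 0
    · rw [h, zero_mul, zero_mul, add_zero]
    · rw [← hq.2 (i, ⟨l, h2⟩, σ) ⟨h, h1⟩, CharTwo.add_self_eq_zero]
  · have := hc.ok.sg l h2 i
    rw [h] at this
    simp at this

end Pr

/-- **FACT** -/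
theorem fact (hE : EvalStmt Lm) (hC : CntStmt κ lam) (h1 : ExP Lm) (h2 : KlP Lm) (h3 : ExcP Lm)
    (h4 : EbP Lm) (y : G75.YD κ lam) : ∃ R, ∀ (S : Scene Lm) j d c, G75.Tm y R S c → CN S d c →
      ∀ᶠ n in atTop, ZN S j n d c = 0 := by
  by_cases hy : y.OK
  swap
  · exact ⟨0, fun _ _ _ _ h => (hy h.1).elim⟩
  obtain ⟨R, h2⟩ := h2 y hy
  refine ⟨R, fun S j d c ⟨_, t, ht, hA⟩ hc => ?_⟩
  by_cases c0 : c = 0
  · exact .of_forall fun n => by rw [ZN, if_neg fun k => k.1 c0]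
  obtain ⟨N, C, hN, D, lv, h2⟩ := h2 S t d c ht hA hc c0
  refine (eventually_ge_atTop (Fintype.card C.C)).mono fun n hn => by_contra fun h0 => ?_
  obtain ⟨j₀, k1, k2⟩ := Set.exists_max_image {j | ZN S j n d c ≠ 0} id
    (Nat.cofinite_eq_atTop ▸ h4 S n d c hc : ∀ᶠ j in cofinite, _) ⟨j, h0⟩
  let E : Set (ℕ × Fin (n + 1)) := {e | j₀ + e.2 ≤ e.1 ∧ e.1 ≤ j₀ + Fintype.card C.C}
  have hE' : E.Finite := ((finite_Iic _).prod finite_univ).subset fun e he => ⟨he.2, trivial⟩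
  obtain ⟨T, k3, k4⟩ := (ev_lt.and (hE'.eventually_all.2 fun e (he : e ∈ E) =>
    (hE S (e.1 - e.2) n d c hc).and (h2 n e.1 e.2 (le_of_add_le_right he.1)
      (le_of_add_le_add_left (he.1.trans he.2))))).exists
  obtain ⟨F, k5, k6⟩ := h1 y S t N n D R d c hy hN ht hc T k3
  have := hE'.to_subtype
  have key : ∀ e : E, GV fun q => F.FpA c d C lv e.1.1 e.1.2 q ∧ Finite (F.Fcl c d e.1.1 e.1.2 q) ∧
      (Nat.card (F.Fcl c d e.1.1 e.1.2 q) : ZMod 2) = ZN S (e.1.1 - e.1.2) n d c := fun e => by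
    obtain ⟨F₀, ε, a1, a2, a3, a4⟩ := k6 e.1.1 e.1.2
    obtain ⟨b1, b2⟩ := k4 e.1 e.2
    obtain ⟨⟨b2, b3⟩, b4⟩ := b2 F k5
    refine (b3.and ((Pr.stokes hc b4 b2).and (GV.comap (b1 F₀ a1 a2 false a3) ε))).mono
      fun q hq => ⟨hq.1, hq.2.1.1, hq.2.1.2.trans (Eq.trans ?_ hq.2.2)⟩
    exact sum_congr_ne c fun i σ h => congrArg _ (hC _ _ _ _ _ _ _ _ _ _ _ _ _ _ _ _ _ _ _ _ _ _ _ _
      ε (a1.ok i ⟨_, a3 i σ h⟩) (k5.J i (fun e => h (congrFun e σ)) _ _).1 (a3 i σ h)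
      (mem_cls h subset_rfl (by simp)) (a4 i σ h) q).symm
  obtain ⟨q, q1, q2⟩ := ((GV.all key).and (GV.all fun ρ => gv_ne (F.wD ρ))).ex
  obtain ⟨U, X, k7⟩ := h3 y S t N n D F C lv R d c T E q hy ht hc k5 q2
    fun e he => ⟨le_of_add_le_right he.1, (q1 ⟨e, he⟩).1⟩
  refine (Nat.lt_succ_self _).not_ge (X.rank (p := fun j => ZN S j n d c) k1
    (fun j hj => by_contra fun h => (k2 j h).not_gt hj) fun r s a1 a2 => ?_)
  have he : (j₀ + r, (⟨s, by omega⟩ : Fin (n + 1))) ∈ E := ⟨by simpa using a1, by simpa using a2⟩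
  obtain ⟨b1, ⟨b2⟩⟩ := k7 _ he
  obtain ⟨-, b3, b4⟩ := q1 ⟨_, he⟩
  exact ⟨b1, .of_equiv _ b2.symm, by rw [Nat.card_congr b2]; exact b4⟩

end Crest.Agent.X212.Nd18
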