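import Crest.Agent.X212.Nd18.Fk
import Crest.Agent.X212.Dgr80.Chh
import Crest.Agent.X212.Ins26.Stk

/-!
# Row 212, FACT (helper18): regular ideal objects on which `a` is broken are face objects
-/

set_option autoImplicit false
set_option linter.unusedSectionVars false
noncomputable section
open scoped Manifold ContDiff Topology InnerProductSpace
open MeasureTheory Set Function Filter Classical

namespace Crest.Agent.X212.Fk18
open An M G75 Jb7 Ins26 Nd18 Rf65 Pte3 Dgr80 Eqv71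
open An.Job (Sol)
open Br55 (CN)
open Bki64 (Stb)

variable {κ lam : Type} [Fintype κ] [Fintype lam]

section chain
variable {Y : Mf 3} [CompactSpace Y.M] {D : YD Y.I Y.M κ lam} {N : ND Y.M lam} {q β ζ β' ζ' k j}

/-- chains through the representatives -/
theorem brk_chn (hD : D.OK) (S : N.CD D) (h : N.Brk D q β ζ β' ζ' k j) (a : N.Crit D β)
    (a' : N.Crit D β') : ∀ i i' g ξ, Stb D β (S.β i) g ξ → D.Eqv β (S.β i) → D.Eqv β' (S.β i') →
      ∃ ζ₂, S.Chn q i (ξ * ζ) i' ζ₂ k j := by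
  have ad := fun i => ad0 (S.crit i).sol.toAdm
  induction h with
  | nil β ζ =>
    intro i i' g ξ _ e e'
    obtain rfl := S.sep i i' (IsoOn.trans hD.B hD.G isOpen_univ (ad i) (ad0 a.sol.toAdm) (ad i')
      (IsoOn.symm hD.B hD.G isOpen_univ (ad0 a.sol.toAdm) (ad i) e) e')
    exact ⟨_, .nil _ _⟩
  | bub _ ih => exact fun i i' g ξ s e e' => (ih a a' i i' g ξ s e e').imp fun _ => .bub
  | mov c h1 h2 h3 _ ih =>
    intro i i' g ξ s e e'
    obtain ⟨i₁, e₁⟩ := S.cov _ h3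
    obtain ⟨g₁, ξ₁, s₁⟩ := stb_of_eqv hD (adm_crit h3) (adm_crit (S.crit i₁)) e₁
    exact (ih h3 a' i₁ i' g₁ ξ₁ s₁ e₁ e').imp fun _ => .mov c ⟨h1.sol,
      lim_stb (adm_crit a) (adm_crit (S.crit i)) (ad0 h1.sol.toAdm) s h1.bot,
      lim_stb (adm_crit h3) (adm_crit (S.crit i₁)) (ad0 h1.sol.toAdm) s₁ h1.top⟩ h2

theorem brk_chn' (hD : D.OK) (S : N.CD D) (h : N.Brk D q β ζ β' ζ' k j) (a : N.Crit D β)
    (a' : N.Crit D β') {i i'} (e : D.Eqv β (S.β i)) (e' : D.Eqv β' (S.β i')) :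
    ∃ ζ₁ ζ₂, S.Chn q i ζ₁ i' ζ₂ k j :=
  let ⟨g, ξ, s⟩ := stb_of_eqv hD (adm_crit a) (adm_crit (S.crit i)) e
  ⟨_, brk_chn hD S h a a' i i' g ξ s e e'⟩

end chain

variable [DecidableEq lam]

section cast
variable {Wi : Type} {X : Mf 4} {A : Type} [Fintype A] {M : Mark X A κ} {W : World M} {N : ML M lam}
  {Λ : Lns W N} {A' h : Type} [Fintype A'] [DecidableEq A'] [Fintype h] {r n : ℕ}
  {J : Job Wi Λ A' h r n} {c : M.Cl} {a : A} {Y : Xs Wi κ lam} (e : J.xs a = Y) (C : Y.N.CD Y.D)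
  {σ q} {y : J.Obc c}

theorem sol_chn (hJ : J.OK) (ha : a ∈ cylW c) (h : Sol σ q y) : ∃ o : Bool → C.C,
    (∀ b, Y.D.Eqv (cv e (y.β a b)) (C.β (o b))) ∧
      ∃ ζ ζ', C.Chn (Y.q q) (o false) ζ (o true) ζ' (y.k a) (y.j a) := by
  subst e
  choose o ho using fun b => C.cov _ (h.crit a ha b)
  exact ⟨o, ho, brk_chn' (hJ.xs a).1.yd C (h.brk a ha) (h.crit a ha _) (h.crit a ha _) (ho _) (ho _)⟩

theorem LmA.cv (H : LmA J c a) (hJ : J.OK) (ha : a ∈ cylW c) (hσ : σ ∈ J.𝒦) (h : Sol σ q y) {b o}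
    (k : Y.D.Eqv (cv e (y.β a b)) (C.β o)) : ((J.xs a).D.Fx (y.β a b) ↔ C.fx o) ∧
    ∀ π, M.sys.Piece c.1 π → π a = some b → (FixP y π → C.fx o) ∧ (¬y.TF π → Y.D.Zr (C.β o)) := by
  subst e
  have := H hJ ha C σ hσ q y b o h k
  exact ⟨this.1, fun π u v => ⟨(this.2.2 π u v).1, fun w => ((this.2.2 π u v).2 w).1⟩⟩

end cast

theorem zr_fx {Y : Mf 3} [CompactSpace Y.M] {D : YD Y.I Y.M κ lam} {N : ND Y.M lam} {C : N.CD D} {o}
    (h : D.Zr (C.β o)) : C.fx o := ND.CD.zr_fix fun x _ => h x.1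

variable {Lm : LM κ lam} {y₀ : G75.YD κ lam} {S : Scene Lm}

/-- the weights of the numerical hypotheses -/
structure Ws (t : TD y₀ S) (R : ℕ) (i : S.L) (σ e : Finset S.A) where
  l : Reg S.A → ℝ
  r : Reg S.A → ℝ
  s : Reg S.A → ℝ
  a : Bool → Reg S.A → ℝ
  hl : (∀ π, t.Pc false e π → t.BL R i σ e π (l π)) ∧
    ∀ J : Finset (Reg S.A), (∀ π ∈ J, t.Pc false e π) → (∃ π ∈ J, π t.a ≠ none) →
      -1 < ∑ π ∈ J, l π + 4 * (((t.sd false e).card : ℝ) - J.card)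
  hr : (∀ π, t.Pc true e π → t.BR i σ e π (r π)) ∧
    ∀ J : Finset (Reg S.A), (∀ π ∈ J, t.Pc true e π) → (∃ π ∈ J, π t.a ≠ none) →
      (∃ π, t.Pc true e π ∧ π ∉ J) →
      -1 < ∑ π ∈ J, r π + 4 * (((t.sd true e).card : ℝ) - J.card) - 2 * S.nd e
  hs : (∀ π, t.Pc true e π → t.BS i σ e π (s π)) ∧
    ∀ J : Finset (Reg S.A), (∀ π ∈ J, t.Pc true e π) →
      R < ∑ π ∈ J, (s π - 2 * t.nc π) + 4 * (((t.sd true e).card : ℝ) - J.card) + 2 * t.G.card -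
        2 * S.nd e
  ha : ∀ b, (∀ π, t.Pc b e π → π t.a = none → S.Bd i σ (insert t.a e) π (a b π)) ∧
    ∀ J : Finset (Reg S.A), (∀ π ∈ J, t.Pc b e π ∧ π t.a = none) → (t.sd b e).Nonempty →
      1 < ∑ π ∈ J, a b π + 4 * (((t.sd b e).card : ℝ) - J.card) - 2 * (if b then (S.nd e : ℝ) else 0)

/-- the five weights -/
def Ws.w {t : TD y₀ S} {R i σ e} (w : Ws t R i σ e) : Fin 3 ⊕ Bool → Reg S.A → ℝ :=
  Sum.elim ![w.l, w.r, w.s] w.a

theorem ws {t : TD y₀ S} {R c i σ e} (h : t.OK R c) (h' : t.NA c) (hc : c i σ ≠ 0) (he : e ⊆ σ)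
    (hp : ∀ a ∈ e, S.M.pin a) : Nonempty (Ws t R i σ e) :=
  let ⟨l, hl⟩ := h.nl i σ hc e he hp; let ⟨r, hr⟩ := h.nr i σ hc e he hp
  let ⟨s, hs⟩ := h.ns i σ hc e he hp
  ⟨⟨l, r, s, fun b => (h' i σ hc e he hp b).choose, hl, hr, hs,
    fun b => (h' i σ hc e he hp b).choose_spec⟩⟩

variable {P : Pk y₀} {z : Z0 P S} {Z : Z1 z} {R : ℕ} {T C₀ : ℝ} {cI : ℤ}
  {Adm : (Z.F.Wi →₀ ℝ) → Prop} {q : Z.F.Wi →₀ ℝ} {y : Z.Ob} {o : Bool → P.C.C}
  {w : Ws z.t R Z.i Z.σ (pe Z.e)}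

open Z1

theorem mem_Rg {b π} : π ∈ Z.Rg b ↔ z.t.Pc b (pe Z.e) π := by simp [Z1.Rg, Rg]

theorem mem_FR {b π} : π ∈ FR y b ↔ π ∈ Z.Rg b ∧ y.TF (ou Z.e π) := Finset.mem_filter

theorem nm_mono {ρ ρ' : Finset S.A} (h : ρ ⊆ ρ') (π : Reg S.A) : S.nm ρ π ≤ S.nm ρ' π :=
  ncard_le_ncard (inter_subset_inter_left _ (Finset.coe_subset.2 h))

theorem xt_sub (ρ ρ' : Finset S.A) (π) :
    Xt y ρ' o π = Xt y ρ o π + (S.nm ρ' π - S.nm ρ π : ℝ) := by
  simp only [Xt, Wr, Wt]; ring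

variable (Z R T C₀ cI Adm q y o w) in
/-- everything that is known about one object -/
structure KH : Prop where
  h0 : z.OK R
  h1 : Z.OK T
  sm : Z.Sm
  adm : Adm q
  sol : Sol Z.ce q y
  cl : ∀ b, Cl y o b
  lm : LmA Z.J Z.e z.t.a
  rb : ∀ j π, S.Bd Z.i Z.σ (insert z.t.a (pe Z.e)) π (w.w j π) → Z.RbAt Adm π (w.w j π)
  ra : Z.RaAt Adm
  sb : Z.SbAt Adm C₀
  rI : P.C.RuleI P.Γ cI
  c1 : y₀.C ≤ 2 * cI - P.H.e0
  c2 : 2 * cI - P.H.e0 ≤ y₀.C + 1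
  hR : ∀ o, 2 * (z.k : ℕ) + |P.Γ.η o - P.H.e0| + 6 * |C₀| + 2 ≤ R
  L : (y.F (Z.Ro false)).Nonempty → okL y
  R' : (∃ π ∈ y.F (Z.Ro true), ¬FixP y π) → okR y
  I : ∀ b, ∀ π ∈ y.I (Z.Ro b), okI π y

namespace KH
variable (H : KH Z R T C₀ cI Adm q y o w)
include H

theorem ok : Z.J.OK := (H.h1.F.J _ (fun e => H.h1.c (congrFun e _)) _ _).1

theorem mem : Z.ce ∈ Z.J.𝒦 := ⟨_, _, _, rfl, nofun, H.h1.c, H.h1.sub⟩

theorem cyl : z.t.a ∈ cylW Z.e := ⟨H.h1.a, (H.h0.cn.ok.fz _ H.h0.t.fz.1).1⟩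

theorem ou_a (π : Reg S.A) : ou Z.e π z.t.a = π z.t.a :=
  if_neg fun k => (H.h0.cn.ok.fz _ H.h0.t.fz.1).2.1 k.2.1

theorem side {b π} (h : π ∈ Z.Rg b) (k : π z.t.a ≠ none) : π z.t.a = some b :=
  let ⟨_, _, h2, h3⟩ := H.sm.one b
  by_contra fun e => k (h3 π h fun e' => e (e' ▸ h2))

theorem lim (b : Bool) : ((Z.J.xs z.t.a).D.Fx (y.β z.t.a b) ↔ P.C.fx (o b)) ∧
    ∀ π, S.M.sys.Piece Z.e.1 π → π z.t.a = some b →
      (FixP y π → P.C.fx (o b)) ∧ (¬y.TF π → (yD y₀).Zr (P.C.β (o b))) :=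
  LmA.cv (Y := Z.F.x0) (Z.F.xs_a Z.i) P.C H.lm H.ok H.cyl H.mem H.sol (o := o b) (H.cl b)

theorem zr {b π} (h : π ∈ Z.Rg b) (k : π z.t.a ≠ none) (f : ¬y.TF (ou Z.e π)) :
    (yD y₀).Zr (P.C.β (o b)) :=
  ((H.lim b).2 _ (H.sm.pc b π h).1 ((H.ou_a π).trans (H.side h k))).2 f

theorem okI' {b π} (h : π ∈ Z.Rg b) (f : ¬y.TF (ou Z.e π)) (g : ¬y.TA (ou Z.e π)) :
    okI (ou Z.e π) y := H.I b _ ⟨⟨π, h, rfl⟩, f, g⟩

theorem xf {b π} (h : π ∈ Z.Rg b) (f : ¬y.TF (ou Z.e π)) (g : ¬y.TA (ou Z.e π)) :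
    0 ≤ Xf y Z.σ o π := by
  have := H.okI' h f g o H.cl π (by cases b <;> simp [h]) rfl
  have k : (S.nm Z.τ π : ℝ) ≤ S.nm Z.σ π := by exact_mod_cast nm_mono H.h1.sub π
  simp only [Xf, Dr, Dl] at this ⊢
  linarith

/-- regions without spinor away from `a` -/
theorem away (j) {b π} (h : π ∈ Z.Rg b) (k : π z.t.a = none) (f : ¬y.TF (ou Z.e π))
    (hB : S.Bd Z.i Z.σ (insert z.t.a (pe Z.e)) π (w.w j π)) : w.w j π ≤ Xt y Z.σ o π + 4 := by
  have := H.rb j π hB b h k q y H.adm H.sol f (H.okI' h f)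
  simp only [Xt, et, k, Option.elim]
  linarith

theorem win {b} (h : (yD y₀).Zr (P.C.β (o b))) :
    (y₀.C : ℝ) - 7 / 4 ≤ P.Γ.η (o b) - P.H.e0 - 3 / 4 * P.Γ.ηA (o b) ∧
      P.Γ.η (o b) - P.H.e0 - 3 / 4 * P.Γ.ηA (o b) ≤ y₀.C + 2 := by
  have := P.Γ.window (H.rI _ h)
  have c1 : (y₀.C : ℝ) ≤ 2 * cI - P.H.e0 := by exact_mod_cast H.c1
  have c2 : (2 * cI - P.H.e0 : ℝ) ≤ y₀.C + 1 := by exact_mod_cast H.c2
  constructor <;> linarith [this.1, this.2]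

theorem big (o' : P.C.C) : |P.Γ.η o' - P.H.e0| + 6 * C₀ + 2 + 2 * (z.k : ℕ) ≤ R ∧
    |P.Γ.η o' - P.H.e0| + 2 ≤ R := by
  have := H.hR o'
  have h1 := le_abs_self C₀
  have h2 := abs_nonneg C₀
  have h3 : (0 : ℝ) ≤ (z.k : ℕ) := Nat.cast_nonneg _
  constructor <;> linarith

/-- left regions without spinor -/
theorem left {π} (h : π ∈ Z.Rg false) (f : ¬y.TF (ou Z.e π)) : w.l π ≤ Xt y Z.σ o π + 4 := by
  have b := w.hl.1 π (mem_Rg.1 h)
  by_cases k : π z.t.a = none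
  · exact H.away (.inl 0) h k f (b.1 k)
  obtain ⟨β, sg, l2, h1, h2⟩ := b.2 k
  have k' := H.side h k
  have e := nu_eq (i := Z.i) (show NbR z.t Z.i π β sg l2 by rwa [NbR, if_pos k'])
  have ra := H.ra false π h k q y H.adm H.sol f
  have wi := (H.win (H.zr h k f)).1
  have n0 := H.sm.nh0 π h
  rcases h2 with ⟨h2, h3⟩ | h2
  · have := H.xf h f (ra.2 h2)
    simp only [Xt, Xf, Wr, Dr, bR, e, et, k', Option.elim, cond, n0, Ta, Wt, Dl] at this h3 ⊢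
    push_cast at this h3 ⊢
    linarith
  · have := (H.big (o false)).2
    have := neg_abs_le (P.Γ.η (o false) - P.H.e0)
    simp only [Xt, Wr, e, et, k', Option.elim, cond, n0, Wt] at h2 ⊢
    push_cast at h2 ⊢
    linarith [ra.1]

theorem nbR {π β sg l2} (h : π ∈ Z.Rg true) (k : S.Nb Z.i (z.t.op π) β sg l2) :
    nu z.t Z.i π = (β, sg, l2) := nu_eq (by
  rwa [NbR, if_neg fun e => by simpa [e] using H.side h (by simp [e])])

/-- right regions without spinor -/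
theorem right {π v} (h : π ∈ Z.Rg true) (f : ¬y.TF (ou Z.e π)) (k : π z.t.a ≠ none)
    (b : z.t.BR Z.i Z.σ (pe Z.e) π v) : v ≤ Xt y Z.σ o π + 4 := by
  obtain ⟨β, sg, l2, h1, h2, h3⟩ := b.2 k
  have k' := H.side h k
  have wi := (H.win (H.zr h k f)).2
  have := H.xf h f ((H.ra true π h k q y H.adm H.sol f).2 h2)
  simp only [Xt, Xf, Wr, Dr, bR, H.nbR h h1, et, k', Option.elim, cond, Ta, Wt, Dl] at this h3 ⊢
  push_cast at this h3 ⊢
  linarith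

omit H in
theorem split (b : Bool) (f : Reg S.A → ℝ) : ∑ π ∈ Z.Rg b, f π =
    ∑ π ∈ FR y b, f π + ∑ π ∈ Z.Rg b with ¬y.TF (ou Z.e π), f π :=
  (Finset.sum_filter_add_sum_filter_not _ _ _).symm

omit H in
theorem sum_le {J : Finset (Reg S.A)} {f g : Reg S.A → ℝ} (h : ∀ π ∈ J, f π ≤ g π + 4) :
    ∑ π ∈ J, f π ≤ ∑ π ∈ J, g π + 4 * J.card := by
  simpa [Finset.sum_add_distrib, mul_comm] using Finset.sum_le_sum h

theorem tau (J : Finset (Reg S.A)) : ∑ π ∈ J, Xt y Z.τ o π ≤ ∑ π ∈ J, Xt y Z.σ o π :=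
  Finset.sum_le_sum fun π _ => by
    have k : (S.nm Z.τ π : ℝ) ≤ S.nm Z.σ π := by exact_mod_cast nm_mono H.h1.sub π
    rw [xt_sub Z.τ Z.σ]; linarith

omit H in
theorem F_ne {b π} (h : π ∈ FR y b) : ou Z.e π ∈ y.F (Z.Ro b) :=
  ⟨⟨π, (mem_FR.1 h).1, rfl⟩, (mem_FR.1 h).2⟩

/-- the regions away from `a` when a pinch wall is broken -/
theorem na (b : Bool) (h : ∀ π ∈ Z.Rg b, π z.t.a ≠ none → y.TF (ou Z.e π))
    (k : (z.t.sd b (pe Z.e)).Nonempty) : 1 < ∑ π ∈ Z.Rg b with ¬y.TF (ou Z.e π), Xt y Z.σ o π +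
      4 * (z.t.sd b (pe Z.e)).card - 2 * (if b then (S.nd (pe Z.e) : ℝ) else 0) := by
  have n : ∀ π ∈ (Z.Rg b).filter fun π => ¬y.TF (ou Z.e π), z.t.Pc b (pe Z.e) π ∧ π z.t.a = none :=
    fun π a => let a := Finset.mem_filter.1 a; ⟨mem_Rg.1 a.1, by_contra fun e => a.2 (h π a.1 e)⟩
  have h1 := (w.ha b).2 _ n k
  have h2 := sum_le (f := w.a b) fun π a => H.away (.inr b) (Finset.mem_filter.1 a).1 (n π a).2
    (Finset.mem_filter.1 a).2 ((w.ha b).1 π (n π a).1 (n π a).2)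
  linarith

end KH

variable (y o) in
/-- the index of the left side -/
def gL : ℝ := ∑ π ∈ Z.Rg false, Xt y Z.σ o π + 4 * (z.t.sd false (pe Z.e)).card + 2 * z.m + 1

variable (y o) in
/-- the index of the right side -/
def gR : ℝ := ∑ π ∈ Z.Rg true, Xt y Z.σ o π + 4 * (z.t.sd true (pe Z.e)).card -
  2 * S.nd (pe Z.e) - 2 * (z.k : ℕ)

namespace KH
variable (H : KH Z R T C₀ cI Adm q y o w)
include H

theorem hL : 0 ≤ gL y o ∧ (P.C.fx (o false) → 0 < gL y o) ∧ (gL y o = 0 →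
    z.t.sd false (pe Z.e) = ∅ ∧ y.TF (ou Z.e (hp z.t.a false)) ∧
      S.nm Z.τ (hp z.t.a false) = S.nm Z.σ (hp z.t.a false)) := by
  by_cases pos : 0 < gL y o
  · by_cases e : gL y o = 0
    exacts [(pos.ne' e).elim, ⟨pos.le, fun _ => pos, fun e' => (e e').elim⟩]
  obtain ⟨π, h1, h2, h3⟩ := H.sm.one false
  have t := H.tau (FR y false)
  have sp := split (y := y) false (Xt y Z.σ o)
  have m0 : (0 : ℝ) ≤ z.m := Nat.cast_nonneg _
  by_cases f : y.TF (ou Z.e π)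
  · have k := H.L ⟨_, F_ne (mem_FR.2 ⟨h1, f⟩)⟩ o H.cl
    have k0 : 0 ≤ ∑ π ∈ FR y false, Xt y Z.τ o π + 2 * z.m + 1 := le_trans (by positivity) k
    rcases (z.t.sd false (pe Z.e)).eq_empty_or_nonempty with e | e
    · have e' := H.sm.top false e
      obtain rfl : π = hp z.t.a false := by simpa [e'] using h1
      have e2 : FR y false = {hp z.t.a false} := by simp [Z1.FR, e', Finset.filter_singleton, f]
      have g : gL y o = Xt y Z.σ o (hp z.t.a false) + 2 * z.m + 1 := by simp [gL, e, e']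
      rw [e2, Finset.sum_singleton] at k k0 t
      rw [Finset.sum_singleton] at t
      refine ⟨by linarith, fun x => ?_, fun x => ⟨e, f, ?_⟩⟩
      · rw [if_pos fun _ _ _ => x] at k; linarith
      · have := xt_sub (y := y) (o := o) Z.τ Z.σ (hp z.t.a false)
        have : (S.nm Z.σ (hp z.t.a false) : ℝ) ≤ S.nm Z.τ (hp z.t.a false) := by linarith
        exact (nm_mono H.h1.sub _).antisymm (by exact_mod_cast this)
    · have := H.na false (fun π' a b => by_contra fun g => b (h3 π' a fun e => g (e ▸ f))) e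
      refine (pos ?_).elim
      simp only [gL, Bool.false_eq_true, if_false] at this ⊢
      linarith
  · have k : 1 ≤ ∑ π ∈ FR y false, Xt y Z.σ o π + 2 * z.m + 1 := by
      rcases (FR y false).eq_empty_or_nonempty with e | ⟨π', e⟩
      · simp only [e, Finset.sum_empty]; linarith
      have k := H.L ⟨_, F_ne e⟩ o H.cl
      rw [if_pos fun π' a b => (b (h3 π' (mem_FR.1 a).1 fun e => f (e ▸ (mem_FR.1 a).2))).elim] at k
      linarith
    have a1 := w.hl.2 ((Z.Rg false).filter fun π => ¬y.TF (ou Z.e π))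
      (fun π a => mem_Rg.1 (Finset.mem_filter.1 a).1) ⟨π, Finset.mem_filter.2 ⟨h1, f⟩, by simp [h2]⟩
    have a2 := sum_le (f := w.l) (J := (Z.Rg false).filter fun π => ¬y.TF (ou Z.e π))
      fun π a => H.left (Finset.mem_filter.1 a).1 (Finset.mem_filter.1 a).2
    refine (pos ?_).elim
    rw [gL]
    linarith

/-- abelian right sides have large index -/
theorem fix (h : ∀ π ∈ FR y true, FixP y (ou Z.e π)) : 1 < gR y o := by
  obtain ⟨π₀, h1, h2, h3⟩ := H.sm.one true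
  choose! β sg l2 kk b1 b2 b3 b4 using fun π (a : π ∈ Z.Rg true) => w.hs.1 π (mem_Rg.1 a)
  have sb := H.sb q y kk H.adm H.sol fun π a => ⟨h π a, b2 π (mem_FR.1 a).1⟩
  set η := |P.Γ.η (o true) - P.H.e0|
  have η1 := le_abs_self (P.Γ.η (o true) - P.H.e0)
  have η0 : 0 ≤ η := abs_nonneg _
  have key : ∀ π ∈ Z.Rg true, w.s π ≤ (Xt y Z.σ o π + (if π = π₀ then η + 3 / 8 else 0) +
      if y.TF (ou Z.e π) then 6 * (kk π - Kp y π) else 0) + 4 := fun π a => by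
    have e := H.nbR a (b1 π a)
    by_cases k : π = π₀
    · subst k
      have k : π z.t.a ≠ none := by simp [h2]
      have b := b4 π a k
      rw [if_pos rfl]
      split_ifs with f
      · have := b.1
        simp only [Xt, Wr, e, et, h2, Option.elim, cond, Wt] at this ⊢
        push_cast at this ⊢
        linarith
      rcases b.2 with b | b
      · linarith [H.right a f k b]
      · have := (H.ra true π a k q y H.adm H.sol f).1
        simp only [Xt, Wr, e, et, h2, Option.elim, cond, Wt] at b ⊢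
        push_cast at b ⊢
        linarith
    · have k' := h3 π a k
      have b := b3 π a k'
      rw [if_neg k]
      split_ifs with f
      · have := b.1
        simp only [Xt, Wr, e, et, k', Option.elim, Wt] at this ⊢
        linarith
      · linarith [H.away (.inl 2) a k' f b.2, show w.w (.inl 2) π = w.s π from rfl]
  have a1 := sum_le key
  have a2 := w.hs.2 _ fun π a => mem_Rg.1 a
  have a3 : (z.t.G.card : ℝ) ≤ ∑ π ∈ Z.Rg true, (z.t.nc π : ℝ) := by exact_mod_cast H.sm.nc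
  have a4 := (H.big (o true)).1
  simp only [Finset.sum_add_distrib, Finset.sum_ite_eq', h1, if_true, ← Finset.sum_filter,
    ← Finset.mul_sum, Finset.sum_sub_distrib] at a1 a2
  rw [gR]
  unfold Z1.FR at sb
  linarith

theorem hR' : 0 < gR y o ∧ (gR y o = 1 → ¬P.C.fx (o true) → z.t.sd true (pe Z.e) = ∅ ∧
    y.TF (ou Z.e (hp z.t.a true)) ∧ ¬FixP y (ou Z.e (hp z.t.a true)) ∧
    LE Z.e (hp z.t.a true) ∪ DR y.H (hp z.t.a true) = ∅ ∧
    S.nm Z.τ (hp z.t.a true) = S.nm Z.σ (hp z.t.a true)) := by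
  by_cases big : 1 < gR y o
  · exact ⟨one_pos.trans big, fun e => (big.ne' e).elim⟩
  by_cases h : ∀ π ∈ FR y true, FixP y (ou Z.e π)
  · exact (big (H.fix h)).elim
  push Not at h
  obtain ⟨π₁, g1, g2⟩ := h
  obtain ⟨π, h1, h2, h3⟩ := H.sm.one true
  have k := H.R' ⟨_, F_ne g1, g2⟩ o H.cl
  have k0 : 0 ≤ ∑ π ∈ FR y true, ((LE Z.e π ∪ DR y.H π).card : ℝ) := by positivity
  have t := H.tau (FR y true)
  have sp := split (y := y) true (Xt y Z.σ o)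
  by_cases f : y.TF (ou Z.e π)
  · rcases (z.t.sd true (pe Z.e)).eq_empty_or_nonempty with e | e
    · have e' := H.sm.top true e
      obtain rfl : π = hp z.t.a true := by simpa [e'] using h1
      have e2 : FR y true = {hp z.t.a true} := by simp [Z1.FR, e', Finset.filter_singleton, f]
      obtain rfl : π₁ = hp z.t.a true := by simpa [e2] using g1
      have g : gR y o = Xt y Z.σ o (hp z.t.a true) - 2 * (z.k : ℕ) := by
        simp [gR, e, e', H.sm.nd0 e]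
      simp only [e2, Finset.sum_singleton] at k k0 t
      refine ⟨by linarith, fun x _ => ⟨e, f, g2, ?_, ?_⟩⟩
      · have : ((LE Z.e (hp z.t.a true) ∪ DR y.H (hp z.t.a true)).card : ℝ) = 0 := by linarith
        exact Finset.card_eq_zero.1 (by exact_mod_cast this)
      · have := xt_sub (y := y) (o := o) Z.τ Z.σ (hp z.t.a true)
        have : (S.nm Z.σ (hp z.t.a true) : ℝ) ≤ S.nm Z.τ (hp z.t.a true) := by linarith
        exact (nm_mono H.h1.sub _).antisymm (by exact_mod_cast this)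
    · have := H.na true (fun π' a b => by_contra fun g => b (h3 π' a fun e => g (e ▸ f))) e
      refine (big ?_).elim
      simp only [gR, if_true] at this ⊢
      linarith
  · have a1 := w.hr.2 ((Z.Rg true).filter fun π => ¬y.TF (ou Z.e π))
      (fun π a => mem_Rg.1 (Finset.mem_filter.1 a).1) ⟨π, Finset.mem_filter.2 ⟨h1, f⟩, by simp [h2]⟩
      ⟨π₁, mem_Rg.1 (mem_FR.1 g1).1, fun a => (Finset.mem_filter.1 a).2 (mem_FR.1 g1).2⟩
    have a2 := sum_le (f := w.r) (J := (Z.Rg true).filter fun π => ¬y.TF (ou Z.e π)) fun π a => by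
      have a := Finset.mem_filter.1 a
      have b := w.hr.1 π (mem_Rg.1 a.1)
      by_cases k : π z.t.a = none
      exacts [H.away (.inl 1) a.1 k a.2 (b.1 k), H.right a.1 a.2 k b]
    refine ⟨?_, fun _ x => (x (zr_fx (H.zr h1 (by simp [h2]) f))).elim⟩
    rw [gR]
    linarith

theorem pe_sub : pe Z.e ⊆ Z.τ := fun x hx => by
  have hx : x ∈ Z.e.1 ∧ S.M.pin x := by simpa [pe] using hx
  exact (H.h1.e hx.1).resolve_left fun e => H.cyl.2 (e ▸ hx.2)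

theorem sum_et (b : Bool) : ∑ π ∈ Z.Rg b, et z.t π P.Γ P.H.e0 o true =
    et z.t (hp z.t.a b) P.Γ P.H.e0 o true := by
  obtain ⟨π, h1, h2, h3⟩ := H.sm.one b
  rw [Finset.sum_eq_single_of_mem π h1 fun π' a e => by simp [et, h3 π' a e]]
  simp [et, h2, hp]

theorem gL_eq : gL y o = 6 * ∑ π ∈ Z.Rg false, Kp y π + (z.t.l₀ - z.t.s₀) / 2 - 3 * z.t.β₀ +
    (z.t.sd false Z.σ).card + P.Γ.η (o false) - P.H.e0 + 2 * z.m + 1 := by
  have a1 : (∑ π ∈ Z.Rg false, (S.nm Z.σ π : ℝ)) + (z.t.sd false (pe Z.e)).card =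
      (z.t.sd false Z.σ).card := by
    exact_mod_cast H.sm.nm _ (H.pe_sub.trans H.h1.sub) subset_rfl false
  have a2 : ∑ π ∈ Z.Rg false, Xt y Z.σ o π = ∑ π ∈ Z.Rg false, (6 * Kp y π - 3 * bR z.t Z.i π +
      1 / 2 * sR z.t Z.i π + S.nm Z.σ π + et z.t π P.Γ P.H.e0 o true) :=
    Finset.sum_congr rfl fun π a => by simp only [Xt, Wr, Wt, H.sm.nh0 π a]; push_cast; ring
  have a3 := H.sum_et false
  simp only [Finset.sum_add_distrib, Finset.sum_sub_distrib, ← Finset.mul_sum, H.sm.sL.1,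
    H.sm.sL.2, a3] at a2
  simp only [et, hp, if_true, Option.elim, cond] at a2
  rw [gL]
  linarith

theorem gR_eq : gR y o = 6 * ∑ π ∈ Z.Rg true, Kp y π + d0 S Z.i + (z.t.sd true Z.σ).card -
    2 * S.ls.card - P.Γ.η (o true) + P.H.e0 - ((z.t.l₀ - z.t.s₀) / 2 - 3 * z.t.β₀) -
      2 * (z.k : ℕ) := by
  have a1 : (∑ π ∈ Z.Rg true, (S.nm Z.σ π : ℝ)) + (z.t.sd true (pe Z.e)).card =
      (z.t.sd true Z.σ).card := by
    exact_mod_cast H.sm.nm _ (H.pe_sub.trans H.h1.sub) subset_rfl true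
  have a2 : ∑ π ∈ Z.Rg true, Xt y Z.σ o π = ∑ π ∈ Z.Rg true, (6 * Kp y π +
      (sR z.t Z.i π / 2 - 3 * bR z.t Z.i π) + S.nm Z.σ π - 2 * S.nh π +
        et z.t π P.Γ P.H.e0 o true) :=
    Finset.sum_congr rfl fun π a => by simp only [Xt, Wr, Wt]; ring
  have a3 := H.sum_et true
  have a4 : (∑ π ∈ Z.Rg true, (S.nh π : ℝ)) + S.nd (pe Z.e) = S.ls.card := by
    exact_mod_cast H.sm.nh
  rw [Finset.sum_add_distrib, Finset.sum_sub_distrib, Finset.sum_add_distrib,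
    Finset.sum_add_distrib, ← Finset.mul_sum, ← Finset.mul_sum, H.sm.sR, a3] at a2
  simp only [et, hp, if_true, Option.elim, cond, Wt] at a2
  rw [gR]
  push_cast at a2
  linarith

/-- **the balance** -/
theorem bal : ∃ l : ℕ, gL y o + (6 * y.k z.t.a + P.Γ.η (o true) - P.Γ.η (o false)) + gR y o =
    1 - 6 * l ∧ y.l = l + ∑ π ∈ Z.Rg true, (DR y.H π).card := by
  obtain ⟨l, h1, h2⟩ := H.sm.bal q y H.sol
  refine ⟨l, ?_, h2⟩
  have a1 : ((z.t.sd false Z.σ).card : ℝ) + (z.t.sd true Z.σ).card = z.d := by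
    exact_mod_cast (H.sm.sd _ subset_rfl).trans (H.h0.cn.cl.mem _ _ H.h1.c).2.1
  have a2 : Z.J.k = kz S Z.i (z.m - z.k) (-z.d) := rfl
  rw [kz, Nat.cast_sub H.h0.km] at a2
  rw [H.gL_eq, H.gR_eq]
  push_cast at a2
  linarith

theorem empty {π} (h : π ∈ Z.Rg false) : LE Z.e π = ∅ ∧ DR y.H π = ∅ := by
  have := (ncard_eq_zero (toFinite _)).1 (H.sm.nh0 π h)
  have k : ∀ l : S.ls, l.1 ∉ S.M.sys.inn π := fun l e => (this ▸ ⟨l.2, e⟩ : l.1 ∈ (∅ : Set S.A))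
  constructor <;> simp [LE, DR, k]

theorem kp_eq {π} (h : π ∈ Z.Rg false) : Kp y π = kp y (ou Z.e π) := by
  simp [Kp, H.empty h]

/-- **the parity** -/
theorem par (lv : Z.LvAt Adm) {n : ℤ}
    (hn : 2 * (z.t.l₀ - z.t.s₀) - 3 * z.t.β₀ + (z.t.sd false Z.σ).card - P.H.e0 = 2 * n) :
    ∃ G : ℤ, gL y o = G ∧ Even (G + 1 - P.Γ.g (o false)) := by
  obtain ⟨π₀, h1, h2, h3⟩ := H.sm.one false
  choose! ν hν using fun π (a : π ∈ Z.Rg false) => lv q y o (fun _ => o0 y) 1 false π a H.adm H.sol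
    (H.cl _) one_pos (fun e => by simpa [e] using H.side a (by simp [e])) (by simp [H.empty a])
  have a1 : ∑ π ∈ Z.Rg false, Kp y π = ∑ π ∈ Z.Rg false, ((if π = π₀ then P.Γ.k (o false) else 0) +
      1 / 4 * sR z.t Z.i π + ν π) := Finset.sum_congr rfl fun π a => by
    have := hν π a
    rw [(H.empty a).1, Finset.sum_empty, add_zero] at this
    rw [H.kp_eq a, this]
    by_cases e : π = π₀
    · simp [e, h2]; ring
    · simp [e, h3 π a e]; ring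
  simp only [Finset.sum_add_distrib, Finset.sum_ite_eq', h1, if_true, ← Finset.mul_sum,
    H.sm.sL.2] at a1
  refine ⟨2 * (n + 3 * ∑ π ∈ Z.Rg false, ν π + z.m) + P.Γ.g (o false) + 1, ?_,
    ⟨n + 3 * ∑ π ∈ Z.Rg false, ν π + z.m + 1, by ring⟩⟩
  rw [H.gL_eq, a1, Gr.η]
  push_cast
  linarith

end KH

variable (P) in
/-- the level of the left part of a face object -/
def lvl (t : TD y₀ S) (o : P.C.C) : ℝ := P.H.e0 - ((t.l₀ - t.s₀) / 2 - 3 * t.β₀) - P.Γ.η o - 1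

variable (Z) in
/-- the type of a face object -/
def FE (y : Z.Ob) : Prop := Z.e.1 = {z.t.a} ∧ Z.τ.card = z.d ∧
  (∀ b, ¬(Z.J.xs z.t.a).D.Fx (y.β z.t.a b)) ∧ Fq P.C (lvl P z.t) Z.τ y

/-- **the kill** -/
theorem KH.kill (H : KH Z R T C₀ cI Adm q y o w) (lv : Z.LvAt Adm) {n : ℤ}
    (hn : 2 * (z.t.l₀ - z.t.s₀) - 3 * z.t.β₀ + (z.t.sd false Z.σ).card - P.H.e0 = 2 * n)
    (gq : Z.Gq q) {ζ ζ'}
    (ch : P.C.Chn (Z.F.x0.q q) (o false) ζ (o true) ζ' (y.k z.t.a) (y.j z.t.a)) :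
    Kof81.Fa Z.J (-z.d) Z.ce Z.e ∧ Fo Z.Ro y ∧ FE Z y := by
  obtain ⟨G, g1, g2⟩ := H.par lv hn
  obtain ⟨l, b1, b2⟩ := H.bal
  obtain ⟨ν, c1, -⟩ := ch.good gq.2.1 gq.2.2
  obtain ⟨L1, L2, L3⟩ := H.hL
  obtain ⟨R1, R2⟩ := H.hR'
  have g3 : gR y o = (1 - 6 * l - G - (P.Γ.g (o true) - P.Γ.g (o false) + 6 * ν) : ℤ) := by
    rw [c1, Gr.η, Gr.η, g1] at b1; push_cast; linarith
  generalize 1 - 6 * l - G - (P.Γ.g (o true) - P.Γ.g (o false) + 6 * ν) = G' at g3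
  rw [g1] at L1 L2 L3
  rw [g3] at R1 R2
  have l0 : (0 : ℝ) ≤ l := Nat.cast_nonneg _
  obtain ⟨f1, f2, -, f3, f4, rfl, rfl⟩ := ch.face gq.2.1 gq.2.2 (G := G) (H := G')
    (P.Γ.h_le _ g2 (by exact_mod_cast L1) fun k => Int.add_one_le_of_lt (by exact_mod_cast L2 k))
    (P.Γ.gg_le _ (Int.add_one_le_of_lt (by exact_mod_cast R1))) (by rw [← g1, ← g3]; linarith)
  obtain rfl : l = 0 := by
    rw [g1, g3, f3, ← f2] at b1
    have : (l : ℝ) = 0 := by push_cast at b1; linarith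
    exact_mod_cast this
  obtain ⟨L3, L4, L5⟩ := L3 (by simp)
  obtain ⟨R2, R3, R4, R5, R6⟩ := R2 (by simp) (f2 ▸ f4.1)
  have sd : ∀ b, z.t.sd b (pe Z.e) = ∅ := fun b => by cases b <;> assumption
  have rg := fun b => H.sm.top b (sd b)
  have pe0 : pe Z.e = ∅ := by
    have := H.sm.sd _ (H.pe_sub.trans H.h1.sub)
    rw [sd, sd] at this
    exact Finset.card_eq_zero.1 this.symm
  have e1 : Z.e.1 = {z.t.a} := eq_singleton_iff_unique_mem.2 ⟨H.h1.a, fun x hx => by_contra fun e => by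
    rcases (H.h0.cn.cl.mem _ _ H.h1.c).2.2 x (H.h1.sub ((H.h1.e hx).resolve_left e)) with k | k
    · exact Finset.notMem_empty x (pe0 ▸ show x ∈ pe Z.e by simp [pe, hx, k])
    · obtain ⟨π, k1, k2⟩ := H.sm.le ⟨x, k⟩ hx
      obtain rfl : π = hp z.t.a true := by simpa [rg] using k1
      exact Finset.notMem_empty _ (R5 ▸ Finset.mem_union_left _ k2)⟩
  have cd : ∀ b, (z.t.sd b Z.τ).card = (z.t.sd b Z.σ).card := fun b => by
    rw [← H.sm.nm _ H.pe_sub H.h1.sub, ← H.sm.nm _ (H.pe_sub.trans H.h1.sub) subset_rfl, rg]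
    cases b <;> simp [L5, R6]
  have cd' : Z.τ.card = z.d := by
    rw [← H.sm.sd _ H.h1.sub, cd, cd, H.sm.sd _ subset_rfl, (H.h0.cn.cl.mem _ _ H.h1.c).2.1]
  have ro : ∀ b, Z.Ro b = {ou Z.e (hp z.t.a b)} := fun b => by simp [Ro, rg]
  have o1 : ou Z.e (hp z.t.a false) = hp z.t.a false := funext fun x => by
    refine if_neg fun k => (H.h0.cn.ok.fz _ H.h0.t.fz.1).2.1 ?_
    exact (e1 ▸ k.1 : x ∈ ({z.t.a} : Set _)) ▸ k.2.1
  refine ⟨⟨by rw [dim_cel, cd']; simp [sf], e1 ▸ singleton_subset_iff.2 H.cyl, .inr (),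
    Job.mem_wa.2 ⟨rfl, rfl⟩, Subtype.ext (e1.trans (Set.ext fun x => ?_))⟩, ⟨⟨?_, fun x hx => ?_⟩,
    fun b π a => ?_, _, by simp [ro], R4⟩, e1, cd', fun b k => f4.1 ?_, o false, H.cl _, f4.1, ?_⟩
  · exact ⟨fun k => congrArg some k.symm, fun k => (Option.some.inj k).symm⟩
  · simp [b2, rg, (Finset.union_eq_empty.1 R5).2]
  · obtain rfl : x = z.t.a := (e1 ▸ hx.1 : x ∈ ({z.t.a} : Set _))
    exact f1
  · obtain rfl : π = _ := by simpa [ro] using a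
    cases b <;> assumption
  · have := (H.lim b).1.1 k
    cases b
    exacts [this, f2 ▸ this]
  · have := H.gL_eq
    rw [g1, rg, Finset.sum_singleton, H.kp_eq (by simp [rg]), o1] at this
    rw [(H.sm.sdP e1).1, un_one, cd, lvl]
    push_cast at this
    linarith

end Crest.Agent.X212.Fk18
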